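import Vale.Agent.P095.SI.Trace

/-!
P095: an invariant matrix unit modulo small sequences lifts to an invariant sequence whose square
tends to zero in norm, by averaged chains of units for the small elements.
-/

open Filter Topology
open scoped ComplexOrder

namespace Vale.Agent.P095.SI

set_option linter.unusedSectionVars false

variable {B : Type*} [CStarAlgebra B] [PartialOrder B] [StarOrderedRing B]
  [TopologicalSpace.SeparableSpace B] {A P : Submodule ℂ B} {d : B}

namespace Lift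

/-- A bounded asymptotically central sequence. -/
structure Cen (A : Submodule ℂ B) (z : ℕ → B) : Prop where
  bdd : ∃ R : ℝ, ∀ n, ‖z n‖ ≤ R
  cen : CentralTo A z

/-- A bounded asymptotically central sequence which is small. -/
structure Tame (A P : Submodule ℂ B) (d : B) (z : ℕ → B) : Prop extends Cen A z where
  small : Small P d z

theorem Cen.const_one : Cen A fun _ => (1 : B) :=
  ⟨⟨‖(1 : B)‖, fun _ => le_rfl⟩, fun a _ => by simp⟩

theorem Cen.add {y z : ℕ → B} (hy : Cen A y) (hz : Cen A z) : Cen A fun n => y n + z n := by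
  obtain ⟨R, hR⟩ := hy.bdd
  obtain ⟨T, hT⟩ := hz.bdd
  exact ⟨⟨R + T, fun n => (norm_add_le _ _).trans (add_le_add (hR n) (hT n))⟩, hy.cen.add hz.cen⟩

theorem Cen.mul {y z : ℕ → B} (hy : Cen A y) (hz : Cen A z) : Cen A fun n => y n * z n := by
  obtain ⟨R, hR⟩ := hy.bdd
  obtain ⟨T, hT⟩ := hz.bdd
  refine ⟨⟨R * T, fun n => (norm_mul_le _ _).trans
    (mul_le_mul (hR n) (hT n) (norm_nonneg _) ((norm_nonneg _).trans (hR n)))⟩, ?_⟩
  exact CentralTo.mul (R := max R T) (fun n => (hR n).trans (le_max_left _ _))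
    (fun n => (hT n).trans (le_max_right _ _)) hy.cen hz.cen

theorem Cen.smul (r : ℂ) {z : ℕ → B} (hz : Cen A z) : Cen A fun n => r • z n := by
  have h : Cen A fun _ => r • (1 : B) :=
    ⟨⟨‖r • (1 : B)‖, fun _ => le_rfl⟩, fun a _ => by simp⟩
  simpa using h.mul hz

theorem Cen.sub {y z : ℕ → B} (hy : Cen A y) (hz : Cen A z) : Cen A fun n => y n - z n := by
  simpa [sub_eq_add_neg] using hy.add (hz.smul (-1))

theorem Cen.star (S : Setup P A d) {z : ℕ → B} (hz : Cen A z) :
    Cen A fun n => Star.star (z n) := by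
  obtain ⟨R, hR⟩ := hz.bdd
  exact ⟨⟨R, fun n => (norm_star _).trans_le (hR n)⟩, hz.cen.star S.simple⟩

theorem Cen.cfc {f : ℝ → ℝ} (hf : Continuous f) {C : ℝ} (hC : 0 ≤ C) {z : ℕ → B} (hz : Cen A z)
    (hsa : ∀ n, IsSelfAdjoint (z n))
    (hbd : ∀ n, ∀ t ∈ spectrum ℝ (z n), ‖f t‖ ≤ C) : Cen A fun n => _root_.cfc f (z n) := by
  obtain ⟨R, hR⟩ := hz.bdd
  exact ⟨⟨C, fun n => norm_cfc_le hC (hbd n)⟩, hz.cen.cfc hf hR hsa⟩

theorem Cen.map (σ : B ≃⋆ₐ[ℂ] B) (hσ : ∀ a ∈ A, σ.symm a ∈ A) {z : ℕ → B} (hz : Cen A z) :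
    Cen A fun n => σ (z n) := by
  obtain ⟨R, hR⟩ := hz.bdd
  refine ⟨⟨R, fun n => (StarAlgEquiv.norm_map σ _).trans_le (hR n)⟩, fun a ha => ?_⟩
  refine squeeze_zero (fun n => norm_nonneg _) (fun n => le_of_eq ?_) (hz.cen _ (hσ a ha))
  rw [← StarAlgEquiv.norm_map σ (z n * σ.symm a - σ.symm a * z n)]
  simp [map_sub, map_mul]

theorem Tame.zero (S : Setup P A d) : Tame A P d fun _ => (0 : B) :=
  ⟨⟨⟨0, fun _ => by simp⟩, fun a _ => by simp⟩, small_of_norm S (by simp)⟩

theorem Tame.mulL (S : Setup P A d) {y z : ℕ → B} (hy : Cen A y) (hz : Tame A P d z) :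
    Tame A P d fun n => y n * z n := by
  obtain ⟨R, hR⟩ := hy.bdd
  exact ⟨hy.mul hz.toCen, hz.small.mul_left S hR⟩

theorem Tame.mulR (S : Setup P A d) {y z : ℕ → B} (hy : Cen A y) (hz : Tame A P d z) :
    Tame A P d fun n => z n * y n := by
  obtain ⟨R, hR⟩ := hy.bdd
  obtain ⟨T, hT⟩ := hz.bdd
  exact ⟨hz.toCen.mul hy, hz.small.mul_right S (R := max R T)
    (fun n => (hR n).trans (le_max_left _ _)) (fun n => (hT n).trans (le_max_right _ _)) hy.cen⟩

theorem Tame.add (S : Setup P A d) {y z : ℕ → B} (hy : Tame A P d y) (hz : Tame A P d z) :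
    Tame A P d fun n => y n + z n :=
  ⟨hy.toCen.add hz.toCen, hy.small.add S hz.small⟩

theorem Tame.smul (S : Setup P A d) (r : ℂ) {z : ℕ → B} (hz : Tame A P d z) :
    Tame A P d fun n => r • z n := by
  simpa using hz.mulL S (Cen.const_one.smul r)

theorem Tame.star (S : Setup P A d) {z : ℕ → B} (hz : Tame A P d z) :
    Tame A P d fun n => Star.star (z n) := by
  obtain ⟨R, hR⟩ := hz.bdd
  exact ⟨hz.toCen.star S, hz.small.star S hR hz.cen⟩

theorem Tame.map (S : Setup P A d) (σ : B ≃⋆ₐ[ℂ] B) (hσA : ∀ a ∈ A, σ a ∈ A ∧ σ.symm a ∈ A)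
    (hσP : ∀ p ∈ P, σ p ∈ P ∧ σ.symm p ∈ P) {z : ℕ → B} (hz : Tame A P d z) :
    Tame A P d fun n => σ (z n) := by
  obtain ⟨R, hR⟩ := hz.bdd
  exact ⟨hz.toCen.map σ fun a ha => (hσA a ha).2, hz.small.map S hR hz.cen σ hσA hσP⟩

theorem Tame.sum (S : Setup P A d) {ι : Type*} (s : Finset ι) (z : ι → ℕ → B)
    (hz : ∀ i ∈ s, Tame A P d (z i)) : Tame A P d fun n => ∑ i ∈ s, z i n := by
  classical
  induction s using Finset.induction_on with
  | empty => simpa using Tame.zero S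
  | insert i s hi ih =>
    simpa [Finset.sum_insert hi] using (hz i (Finset.mem_insert_self i s)).add S
      (ih fun j hj => hz j (Finset.mem_insert_of_mem hj))

/-- A small central unit for finitely many small central sequences. -/
theorem exists_unit (S : Setup P A d) {ι : Type*} [Fintype ι] (Y : ι → ℕ → B)
    (hY : ∀ i, Tame A P d (Y i)) {δ : ℝ} (hδ : 0 < δ) :
    ∃ q : ℕ → B, Tame A P d q ∧ (∀ n, 0 ≤ q n ∧ ‖q n‖ ≤ 1) ∧
      ∀ i n, ‖(1 - q n) * Y i n‖ ≤ δ := by
  classical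
  set h : ℕ → B := fun n => ∑ i, Y i n * Star.star (Y i n) with hh
  have hh0 : ∀ n, 0 ≤ h n := fun n => Finset.sum_nonneg fun i _ => mul_star_self_nonneg _
  have hsa : ∀ n, IsSelfAdjoint (h n) := fun n => IsSelfAdjoint.of_nonneg (hh0 n)
  have hT : Tame A P d h := Tame.sum S Finset.univ (fun i n => Y i n * Star.star (Y i n))
    fun i _ => ((hY i).star S).mulL S (hY i).toCen
  set η := δ ^ 2 with hη_def
  have hη : 0 < η := by positivity
  have hne : ∀ t : ℝ, max t 0 + η ≠ 0 := fun t => by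
    have := le_max_right t 0
    linarith
  have hg : Continuous fun t : ℝ => 1 / (max t 0 + η) :=
    continuous_const.div (by fun_prop) hne
  set k : ℕ → B := fun n => cfc (fun t : ℝ => 1 / (max t 0 + η)) (h n)
  have hk : Cen A k := hT.toCen.cfc hg (C := 1 / η) (by positivity) hsa fun n t _ => by
    have h0 := le_max_right t 0
    rw [Real.norm_eq_abs, abs_of_pos (div_pos one_pos (by linarith))]
    exact one_div_le_one_div_of_le hη (by linarith)
  set q : ℕ → B := fun n => cfc (fun t : ℝ => t * (1 / (max t 0 + η))) (h n) with hq_def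
  have hq : q = fun n => k n * h n := by
    funext n
    simp only [hq_def, k]
    nth_rewrite 3 [← cfc_id' ℝ (h n) (hsa n)]
    rw [← cfc_mul _ _ (h n) hg.continuousOn continuous_id'.continuousOn]
    simp only [mul_comm]
  have hnn : ∀ n, ∀ t ∈ spectrum ℝ (h n), 0 ≤ t := fun n t ht =>
    spectrum_nonneg_of_nonneg (hh0 n) ht
  refine ⟨q, by rw [hq]; exact hT.mulL S hk, fun n => ⟨?_, ?_⟩, fun i n => ?_⟩
  · exact cfc_nonneg fun t ht => by
      have := hnn n t ht
      positivity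
  · refine norm_cfc_le zero_le_one fun t ht => ?_
    have h0 := hnn n t ht
    rw [Real.norm_eq_abs, max_eq_left h0, mul_one_div, abs_of_nonneg (by positivity),
      div_le_one (by positivity)]
    linarith
  · have hqs : IsSelfAdjoint (q n) := cfc_predicate _ (h n)
    have key : ‖(1 - q n) * h n * (1 - q n)‖ ≤ η := norm_one_sub_le (hh0 n) hη
    have hle : Y i n * Star.star (Y i n) ≤ h n :=
      Finset.single_le_sum (f := fun j => Y j n * Star.star (Y j n))
        (fun j _ => mul_star_self_nonneg _) (Finset.mem_univ i)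
    have h1 := ((IsSelfAdjoint.one B).sub hqs).conjugate_le_conjugate hle
    have h2 := (CStarAlgebra.norm_le_norm_of_nonneg_of_le
      (((IsSelfAdjoint.one B).sub hqs).conjugate_nonneg (mul_star_self_nonneg _)) h1).trans key
    have h3 : ‖(1 - q n) * Y i n‖ * ‖(1 - q n) * Y i n‖ ≤ η := by
      rw [← CStarRing.norm_self_mul_star, star_mul, star_sub, star_one, hqs.star_eq]
      simpa [mul_assoc] using h2
    exact abs_le_of_sq_le_sq' (by rw [sq]; exact h3) hδ.le |>.2

/-- If `q` is a unit for `p` up to `δ`, then `p ≤ q` up to `2δ`. -/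
theorem le_of_unit {p q : B} (hp0 : 0 ≤ p) (hp1 : ‖p‖ ≤ 1) (hq0 : 0 ≤ q) (hq1 : ‖q‖ ≤ 1) {δ : ℝ}
    (h : ‖(1 - q) * p‖ ≤ δ) : p ≤ q + algebraMap ℝ B (2 * δ) := by
  have hps : IsSelfAdjoint p := IsSelfAdjoint.of_nonneg hp0
  have hqs : IsSelfAdjoint q := IsSelfAdjoint.of_nonneg hq0
  have hδ : 0 ≤ δ := (norm_nonneg _).trans h
  have hp1' : p ≤ 1 := (CStarAlgebra.norm_le_one_iff_of_nonneg p hp0).1 hp1
  have hq1' : q ≤ 1 := (CStarAlgebra.norm_le_one_iff_of_nonneg q hq0).1 hq1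
  have h1 : q * p * q ≤ q := by
    refine (hqs.conjugate_le_conjugate hp1').trans ?_
    rw [mul_one]
    have hs := CFC.sqrt_mul_sqrt_self q hq0
    have : q * q = CFC.sqrt q * q * CFC.sqrt q :=
      calc q * q = CFC.sqrt q * CFC.sqrt q * (CFC.sqrt q * CFC.sqrt q) := by rw [hs]
        _ = CFC.sqrt q * (CFC.sqrt q * CFC.sqrt q) * CFC.sqrt q := by simp only [mul_assoc]
        _ = _ := by rw [hs]
    rw [this]
    refine ((CFC.sqrt_nonneg q).isSelfAdjoint.conjugate_le_conjugate hq1').trans_eq ?_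
    rw [mul_one, CFC.sqrt_mul_sqrt_self q hq0]
  have h2 : ‖p - q * p * q‖ ≤ 2 * δ := by
    have e : p - q * p * q = (1 - q) * p + q * Star.star ((1 - q) * p) := by
      rw [star_mul, star_sub, star_one, hps.star_eq, hqs.star_eq]
      noncomm_ring
    rw [e]
    refine (norm_add_le _ _).trans ?_
    have := (norm_mul_le q (Star.star ((1 - q) * p))).trans
      (mul_le_of_le_one_left (norm_nonneg _) hq1)
    rw [norm_star] at this
    linarith
  have h3 : p - q * p * q ≤ algebraMap ℝ B (2 * δ) :=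
    (IsSelfAdjoint.le_algebraMap_norm_self (hps.sub (hps.conjugate_self hqs))).trans
      (algebraMap_mono B h2)
  calc p = q * p * q + (p - q * p * q) := by abel
    _ ≤ q + algebraMap ℝ B (2 * δ) := add_le_add h1 h3

/-- A two-sided order bound gives a norm bound. -/
theorem norm_le_of_between {x : B} {ε : ℝ} (hε : 0 ≤ ε) (h1 : x ≤ algebraMap ℝ B ε)
    (h2 : -algebraMap ℝ B ε ≤ x) : ‖x‖ ≤ 3 * ε := by
  obtain hB | hB := subsingleton_or_nontrivial B
  · rw [Subsingleton.elim x 0, norm_zero]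
    positivity
  have h4 : 0 ≤ x + algebraMap ℝ B ε := neg_le_iff_add_nonneg.1 h2
  have h5 : x + algebraMap ℝ B ε ≤ algebraMap ℝ B (2 * ε) := by
    rw [two_mul, map_add]
    exact add_le_add h1 le_rfl
  have hn := CStarAlgebra.norm_le_norm_of_nonneg_of_le h4 h5
  rw [norm_algebraMap', Real.norm_eq_abs, abs_of_nonneg (by linarith)] at hn
  have := norm_le_add_norm_add x (algebraMap ℝ B ε)
  rw [norm_algebraMap', Real.norm_eq_abs, abs_of_nonneg hε] at this
  linarith

/-- An averaged chain of units is nearly invariant. -/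
theorem exists_invariant (S : Setup P A d) {ι κ : Type} [Fintype ι] [Fintype κ] (Y : ι → ℕ → B)
    (hY : ∀ i, Tame A P d (Y i)) (σ : κ → ℕ → B ≃⋆ₐ[ℂ] B)
    (hσ : ∀ k q, Tame A P d q → Tame A P d (fun n => σ k n (q n)) ∧
      Tame A P d fun n => (σ k n).symm (q n)) {δ : ℝ} (hδ : 0 < δ) :
    ∃ Q : ℕ → B, Tame A P d Q ∧ (∀ n, 0 ≤ Q n ∧ ‖Q n‖ ≤ 1) ∧
      (∀ i n, ‖(1 - Q n) * Y i n‖ ≤ δ) ∧ ∀ k n, ‖σ k n (Q n) - Q n‖ ≤ δ := by
  classical
  set δ0 := δ / 12 with hδ0
  have hδ0' : 0 < δ0 := by positivity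
  let Step := {q : ℕ → B // Tame A P d q ∧ ∀ n, 0 ≤ q n ∧ ‖q n‖ ≤ 1}
  have next' : ∀ q : Step, ∃ q' : Step, (∀ i n, ‖(1 - q'.1 n) * Y i n‖ ≤ δ0) ∧
      (∀ k n, ‖(1 - q'.1 n) * σ k n (q.1 n)‖ ≤ δ0) ∧
      ∀ k n, ‖(1 - q'.1 n) * (σ k n).symm (q.1 n)‖ ≤ δ0 := by
    intro q
    obtain ⟨q', h1, h2, h3⟩ := exists_unit S
      (Sum.elim Y (Sum.elim (fun k n => σ k n (q.1 n)) fun k n => (σ k n).symm (q.1 n)))
      (by rintro (i | k | k)
          · exact hY i
          · exact (hσ k _ q.2.1).1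
          · exact (hσ k _ q.2.1).2) hδ0'
    exact ⟨⟨q', h1, h2⟩, fun i n => h3 (.inl i) n, fun k n => h3 (.inr (.inl k)) n,
      fun k n => h3 (.inr (.inr k)) n⟩
  choose next hnY hnσ hnσ' using next'
  let q0 : Step := ⟨fun _ => 0, Tame.zero S, fun _ => by simp⟩
  set q : ℕ → ℕ → B := fun i => (next^[i + 1] q0).1 with hq_def
  have hq : ∀ i, Tame A P d (q i) ∧ ∀ n, 0 ≤ q i n ∧ ‖q i n‖ ≤ 1 := fun i =>
    (next^[i + 1] q0).2
  have hqY : ∀ j i n, ‖(1 - q j n) * Y i n‖ ≤ δ0 := fun j i n => by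
    simp only [hq_def, Function.iterate_succ_apply']
    exact hnY _ i n
  have hqσ : ∀ j k n, ‖(1 - q (j + 1) n) * σ k n (q j n)‖ ≤ δ0 ∧
      ‖(1 - q (j + 1) n) * (σ k n).symm (q j n)‖ ≤ δ0 := fun j k n => by
    simp only [hq_def, Function.iterate_succ_apply' next (j + 1)]
    exact ⟨hnσ _ k n, hnσ' _ k n⟩
  obtain ⟨M, hM⟩ := exists_nat_gt (6 / δ)
  have hM0 : (0 : ℝ) < M := lt_trans (by positivity) hM
  have hMδ : (M : ℝ)⁻¹ ≤ δ / 6 := by
    rw [inv_le_comm₀ hM0 (by positivity), inv_div]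
    exact hM.le
  set r : ℝ := (M : ℝ)⁻¹ with hr
  have hr0 : 0 ≤ r := by positivity
  have hrM : r * M = 1 := inv_mul_cancel₀ hM0.ne'
  refine ⟨fun n => r • ∑ j ∈ Finset.range M, q j n, ?_, fun n => ⟨?_, ?_⟩, fun i n => ?_,
    fun k n => ?_⟩
  · simpa using (Tame.sum S (Finset.range M) q fun j _ => (hq j).1).smul S (r : ℂ)
  · exact smul_nonneg hr0 (Finset.sum_nonneg fun j _ => ((hq j).2 n).1)
  · rw [norm_smul, Real.norm_eq_abs, abs_of_nonneg hr0]
    refine (mul_le_mul_of_nonneg_left ((norm_sum_le _ _).trans (Finset.sum_le_sum fun j _ =>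
      ((hq j).2 n).2)) hr0).trans_eq ?_
    simp [hrM]
  · have e : (1 - r • ∑ j ∈ Finset.range M, q j n) * Y i n =
        r • ∑ j ∈ Finset.range M, (1 - q j n) * Y i n := by
      simp only [sub_mul, one_mul, smul_mul_assoc, Finset.sum_sub_distrib, Finset.sum_mul,
        smul_sub, Finset.sum_const, Finset.card_range]
      rw [← Nat.cast_smul_eq_nsmul ℝ, smul_smul, hrM, one_smul]
    rw [e, norm_smul, Real.norm_eq_abs, abs_of_nonneg hr0]
    refine (mul_le_mul_of_nonneg_left ((norm_sum_le _ _).trans (Finset.sum_le_sum fun j _ =>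
      hqY j i n)) hr0).trans ?_
    rw [Finset.sum_const, Finset.card_range, nsmul_eq_mul, ← mul_assoc, hrM, one_mul]
    linarith
  · set Q := r • ∑ j ∈ Finset.range M, q j n
    set c := r + 2 * δ0 with hc
    have main : ∀ τ : B ≃⋆ₐ[ℂ] B, (∀ j, ‖(1 - q (j + 1) n) * τ (q j n)‖ ≤ δ0) →
        τ Q ≤ Q + algebraMap ℝ B c := by
      intro τ hτ
      have hτle : ∀ j, τ (q j n) ≤ q (j + 1) n + algebraMap ℝ B (2 * δ0) := fun j =>
        le_of_unit (by simpa using OrderHomClass.mono τ ((hq j).2 n).1)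
          ((StarAlgEquiv.norm_map τ _).trans_le ((hq j).2 n).2)
          ((hq (j + 1)).2 n).1 ((hq (j + 1)).2 n).2 (hτ j)
      have h1 : τ Q ≤ r • ∑ j ∈ Finset.range M, (q (j + 1) n + algebraMap ℝ B (2 * δ0)) := by
        have : τ Q = r • ∑ j ∈ Finset.range M, τ (q j n) := by
          simp only [Q, ← Complex.coe_smul, map_smul, map_sum]
        rw [this]
        exact smul_le_smul_of_nonneg_left (Finset.sum_le_sum fun j _ => hτle j) hr0
      have h2 : ∑ j ∈ Finset.range M, q (j + 1) n ≤ (∑ j ∈ Finset.range M, q j n) + 1 := by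
        have e1 := Finset.sum_range_succ' (fun j => q j n) M
        rw [Finset.sum_range_succ] at e1
        calc ∑ j ∈ Finset.range M, q (j + 1) n
            = (∑ j ∈ Finset.range M, q j n) + q M n - q 0 n := by rw [e1]; abel
          _ ≤ (∑ j ∈ Finset.range M, q j n) + q M n := sub_le_self _ ((hq 0).2 n).1
          _ ≤ _ := add_le_add le_rfl
              ((CStarAlgebra.norm_le_one_iff_of_nonneg _ ((hq M).2 n).1).1 ((hq M).2 n).2)
      refine h1.trans ?_
      rw [Finset.sum_add_distrib, smul_add]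
      refine (add_le_add (smul_le_smul_of_nonneg_left h2 hr0) le_rfl).trans_eq ?_
      rw [smul_add, Finset.sum_const, Finset.card_range, ← Nat.cast_smul_eq_nsmul ℝ, smul_smul,
        hrM, one_smul, add_assoc, hc, map_add, Algebra.algebraMap_eq_smul_one r]
    have u1 := main (σ k n) fun j => (hqσ j k n).1
    have u2 := OrderHomClass.mono (σ k n) (main (σ k n).symm fun j => (hqσ j k n).2)
    have hAM : (σ k n) (algebraMap ℝ B c) = algebraMap ℝ B c := by
      simp [Algebra.algebraMap_eq_smul_one, ← Complex.coe_smul]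
    rw [map_add, StarAlgEquiv.apply_symm_apply, hAM] at u2
    refine (norm_le_of_between (ε := c) (by positivity) (sub_le_iff_le_add'.2 u1) ?_).trans ?_
    · exact neg_le_sub_iff_le_add.2 u2
    · rw [hc, hδ0]; linarith

/-- The unitary whose real part is the real part of a contraction. -/
theorem exists_unitary (S : Setup P A d) {u : ℕ → B} (hu1 : ∀ n, ‖u n‖ ≤ 1) (hu : CentralTo A u) :
    ∃ w : ℕ → unitary B, Cen A (fun n => (w n : B)) ∧
      ∀ n, (w n : B) + Star.star (w n : B) = u n + Star.star (u n) := by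
  set h : ℕ → B := fun n => (2 : ℝ)⁻¹ • (u n + Star.star (u n)) with hh
  have hsa : ∀ n, IsSelfAdjoint (h n) := fun n => by
    simp [IsSelfAdjoint, hh, star_smul, add_comm]
  have h1 : ∀ n, ‖h n‖ ≤ 1 := fun n => by
    rw [hh, norm_smul, norm_inv, Real.norm_two]
    have := (norm_add_le (u n) (Star.star (u n))).trans (add_le_add (hu1 n)
      ((norm_star (u n)).trans_le (hu1 n)))
    linarith
  have hc : Cen A h := by
    have h0 : Cen A u := ⟨⟨1, hu1⟩, hu⟩
    have := (h0.add (h0.star S)).smul (((2 : ℝ)⁻¹ : ℝ) : ℂ)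
    simpa only [hh, Complex.coe_smul] using this
  let w : ℕ → unitary B := fun n => selfAdjoint.unitarySelfAddISMul ⟨h n, hsa n⟩ (h1 n)
  have hnn : ∀ n, 0 ≤ 1 - h n * h n := fun n => by
    rw [sub_nonneg, ← CStarAlgebra.norm_le_one_iff_of_nonneg _ (hsa n).mul_self_nonneg]
    exact (norm_mul_le _ _).trans (mul_le_one₀ (h1 n) (norm_nonneg _) (h1 n))
  have hw : ∀ n, (w n : B) = h n + Complex.I • cfc Real.sqrt (1 - h n * h n) := fun n => by
    change h n + Complex.I • CFC.sqrt (1 - h n ^ 2) = _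
    rw [sq, CFC.sqrt_eq_real_sqrt _ (hnn n), cfcₙ_eq_cfc]
  refine ⟨w, ?_, fun n => ?_⟩
  · simp only [hw]
    refine hc.add (Cen.smul _ ((Cen.const_one.sub (hc.mul hc)).cfc (C := 1) Real.continuous_sqrt
      zero_le_one (fun n => IsSelfAdjoint.of_nonneg (hnn n)) fun n t ht => ?_))
    have h0 := spectrum_nonneg_of_nonneg (hnn n) ht
    rw [Real.norm_eq_abs, abs_of_nonneg (Real.sqrt_nonneg t), Real.sqrt_le_one]
    have := (CStarAlgebra.norm_le_one_iff_of_nonneg _ (hnn n)).2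
      (sub_le_self _ (hsa n).mul_self_nonneg)
    obtain ⟨z₀, hz₀, -⟩ := S.d_nondeg
    have hB : Nontrivial B := ⟨z₀, 0, hz₀⟩
    exact (Real.le_norm_self t).trans ((spectrum.norm_le_norm_of_mem ht).trans this)
  · have hs : Star.star (cfc Real.sqrt (1 - h n * h n)) = cfc Real.sqrt (1 - h n * h n) :=
      (cfc_predicate Real.sqrt (1 - h n * h n) : IsSelfAdjoint _).star_eq
    rw [hw, star_add, (hsa n).star_eq, star_smul, hs, Complex.star_def, Complex.conj_I]
    simp only [hh]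
    module

/-- Extraction of a diagonal sequence. -/
theorem exists_diag (Pr : ℕ → ℕ → Prop) (h : ∀ j, ∀ᶠ n in atTop, Pr j n) :
    ∃ J : ℕ → ℕ, Tendsto J atTop atTop ∧ ∀ᶠ n in atTop, Pr (J n) n := by
  classical
  choose N hN using fun j => eventually_atTop.1 (h j)
  refine ⟨fun n => Nat.findGreatest (fun j => N j ≤ n) n,
    tendsto_atTop.2 fun j => eventually_atTop.2 ⟨max (N j) j, fun n hn => ?_⟩,
    eventually_atTop.2 ⟨N 0, fun n hn => ?_⟩⟩
  · exact Nat.le_findGreatest (le_trans (le_max_right _ _) hn) (le_trans (le_max_left _ _) hn)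
  · exact hN _ n (Nat.findGreatest_spec (P := fun j => N j ≤ n) (Nat.zero_le n) hn)

/-- The lift for finitely many group elements and a given tolerance. -/
theorem exists_approx_lift (S : Setup P A d) {G : Type*} [Group G]
    (α : G → B ≃⋆ₐ[ℂ] B) (h1 : ∀ a, α 1 a = a) (hmul : ∀ g h a, α (g * h) a = α g (α h a))
    (hαA : ∀ g, ∀ a ∈ A, α g a ∈ A) (hαP : ∀ g, ∀ p ∈ P, α g p ∈ P)
    {v : ℕ → B} (hv1 : ∀ n, ‖v n‖ ≤ 1) (hv : CentralTo A v)
    (hv2 : Small P d fun n => v n * v n)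
    (hv3 : Small P d fun n => star (v n) * v n + v n * star (v n) - 1)
    (hvα : ∀ g, Small P d fun n => α g (v n) - v n)
    {K : ℕ} (g : Fin K → G) {δ : ℝ} (hδ : 0 < δ) :
    ∃ c : ℕ → B, (∀ n, ‖c n‖ ≤ 1) ∧ (∀ n, ‖c n * c n‖ ≤ 5 * δ) ∧
      (∀ i n, ‖α (g i) (c n) - c n‖ ≤ 3 * δ) ∧ CentralTo A c ∧
      Small P d fun n => star (c n) * c n + c n * star (c n) - 1 := by
  obtain ⟨z₀, hz₀, -⟩ := S.d_nondeg
  have : Nontrivial B := ⟨z₀, 0, hz₀⟩
  have hsymm : ∀ g a, (α g).symm a = α g⁻¹ a := fun g a => by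
    nth_rewrite 1 [show a = α g (α g⁻¹ a) by rw [← hmul, mul_inv_cancel, h1]]
    exact (α g).symm_apply_apply _
  have hAA : ∀ g, ∀ a ∈ A, α g a ∈ A ∧ (α g).symm a ∈ A := fun g a ha =>
    ⟨hαA g a ha, by rw [hsymm]; exact hαA _ a ha⟩
  have hPP : ∀ g, ∀ p ∈ P, α g p ∈ P ∧ (α g).symm p ∈ P := fun g a ha =>
    ⟨hαP g a ha, by rw [hsymm]; exact hαP _ a ha⟩
  have cv : Cen A v := ⟨⟨1, hv1⟩, hv⟩
  have cv' : Cen A fun n => (-Complex.I) • v n := cv.smul _
  obtain ⟨w₁, hw₁, hre₁⟩ := exists_unitary S hv1 hv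
  obtain ⟨w₂, hw₂, hre₂⟩ := exists_unitary S (u := fun n => (-Complex.I) • v n)
    (fun n => by rw [norm_smul, norm_neg, Complex.norm_I, one_mul]; exact hv1 n) cv'.cen
  let Y : Unit ⊕ Fin K → ℕ → B :=
    Sum.elim (fun _ n => v n * v n) fun i n => α (g i) (v n) - v n
  have hY : ∀ i, Tame A P d (Y i) := by
    rintro (_ | i)
    · exact ⟨cv.mul cv, hv2⟩
    · exact ⟨(cv.map (α (g i)) fun a ha => (hAA (g i) a ha).2).sub cv, hvα (g i)⟩
  let σ : Fin K ⊕ Bool → ℕ → B ≃⋆ₐ[ℂ] B :=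
    Sum.elim (fun i _ => α (g i))
      fun b n => Unitary.conjStarAlgAut ℂ B (if b then w₁ n else w₂ n)
  have hσ : ∀ k q, Tame A P d q → Tame A P d (fun n => σ k n (q n)) ∧
      Tame A P d fun n => (σ k n).symm (q n) := by
    rintro (i | b) q hq
    · refine ⟨hq.map S (α (g i)) (hAA _) (hPP _), ?_⟩
      have := hq.map S (α (g i)⁻¹) (hAA _) (hPP _)
      simpa [σ, hsymm] using this
    · have hw : Cen A fun n => ((if b then w₁ n else w₂ n : unitary B) : B) := by
        cases b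
        · simpa using hw₂
        · simpa using hw₁
      constructor
      · simpa [σ] using (hq.mulL S hw).mulR S (hw.star S)
      · simpa [σ] using (hq.mulL S (hw.star S)).mulR S hw
  obtain ⟨Q, hQ, hQ1, hQY, hQσ⟩ := exists_invariant S Y hY σ hσ hδ
  set p : ℕ → B := fun n => 1 - Q n with hp_def
  have hp : ∀ n, ‖p n‖ ≤ 1 := fun n => by
    have h0 : 0 ≤ p n := sub_nonneg.2
      ((CStarAlgebra.norm_le_one_iff_of_nonneg _ (hQ1 n).1).1 (hQ1 n).2)
    exact (CStarAlgebra.norm_le_one_iff_of_nonneg _ h0).2 (sub_le_self _ (hQ1 n).1)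
  have le1 : ∀ {x y : B}, ‖x‖ ≤ 1 → ‖x * y‖ ≤ ‖y‖ := fun hx =>
    (norm_mul_le _ _).trans (mul_le_of_le_one_left (norm_nonneg _) hx)
  have le2 : ∀ {x y : B}, ‖y‖ ≤ 1 → ‖x * y‖ ≤ ‖x‖ := fun hy =>
    (norm_mul_le _ _).trans (mul_le_of_le_one_right (norm_nonneg _) hy)
  have hcomm : ∀ n, ‖p n * v n - v n * p n‖ ≤ 2 * δ := by
    intro n
    have hw : ∀ w : unitary B, ‖Unitary.conjStarAlgAut ℂ B w (Q n) - Q n‖ ≤ δ →
        ‖Q n * (w : B) - w * Q n‖ ≤ δ ∧
          ‖Q n * Star.star (w : B) - Star.star (w : B) * Q n‖ ≤ δ := by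
      intro w hw
      have hu1 : ‖(w : B)‖ ≤ 1 := (CStarRing.norm_coe_unitary w).le
      have e : (w : B) * Q n - Q n * w =
          (Unitary.conjStarAlgAut ℂ B w (Q n) - Q n) * w := by
        rw [Unitary.conjStarAlgAut_apply, sub_mul, mul_assoc _ _ (w : B),
          Unitary.coe_star_mul_self, mul_one]
      have h1' : ‖Q n * (w : B) - w * Q n‖ ≤ δ := by
        rw [norm_sub_rev, e]
        exact (le2 hu1).trans hw
      refine ⟨h1', ?_⟩
      have e2 : Q n * Star.star (w : B) - Star.star (w : B) * Q n =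
          Star.star (w * Q n - Q n * (w : B)) := by
        rw [star_sub, star_mul, star_mul, (IsSelfAdjoint.of_nonneg (hQ1 n).1).star_eq]
      rw [e2, norm_star, norm_sub_rev]
      exact h1'
    obtain ⟨a1, a2⟩ := hw (w₁ n) (by simpa [σ] using hQσ (.inr true) n)
    obtain ⟨b1, b2⟩ := hw (w₂ n) (by simpa [σ] using hQσ (.inr false) n)
    have hv' : v n = (2 : ℂ)⁻¹ • ((w₁ n : B) + Star.star (w₁ n : B)) +
        (Complex.I * (2 : ℂ)⁻¹) • ((w₂ n : B) + Star.star (w₂ n : B)) := by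
      rw [hre₁, hre₂, star_smul, Complex.star_def, map_neg, Complex.conj_I, neg_neg]
      match_scalars <;> norm_num [mul_comm Complex.I, mul_assoc, Complex.I_mul_I]
    have e : p n * v n - v n * p n = -(Q n * v n - v n * Q n) := by
      simp only [hp_def]
      noncomm_ring
    rw [e, norm_neg, hv']
    have e2 : ∀ x y : B, Q n * ((2 : ℂ)⁻¹ • x + (Complex.I * (2 : ℂ)⁻¹) • y) -
        ((2 : ℂ)⁻¹ • x + (Complex.I * (2 : ℂ)⁻¹) • y) * Q n =
          (2 : ℂ)⁻¹ • (Q n * x - x * Q n) + (Complex.I * (2 : ℂ)⁻¹) • (Q n * y - y * Q n) := by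
      intro x y
      simp only [mul_add, add_mul, mul_smul_comm, smul_mul_assoc, smul_sub]
      abel
    rw [e2]
    refine (norm_add_le _ _).trans ?_
    rw [norm_smul, norm_smul, norm_mul, Complex.norm_I, one_mul, norm_inv, RCLike.norm_two]
    have c1 : ‖Q n * ((w₁ n : B) + Star.star (w₁ n : B)) -
        ((w₁ n : B) + Star.star (w₁ n : B)) * Q n‖ ≤ 2 * δ := by
      rw [mul_add, add_mul, add_sub_add_comm]
      exact (norm_add_le _ _).trans (by linarith)
    have c2 : ‖Q n * ((w₂ n : B) + Star.star (w₂ n : B)) -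
        ((w₂ n : B) + Star.star (w₂ n : B)) * Q n‖ ≤ 2 * δ := by
      rw [mul_add, add_mul, add_sub_add_comm]
      exact (norm_add_le _ _).trans (by linarith)
    linarith
  set c : ℕ → B := fun n => p n * v n * p n with hc_def
  have cp : Cen A p := Cen.const_one.sub hQ.toCen
  have cc : Cen A c := (cp.mul cv).mul cp
  refine ⟨c, fun n => ?_, fun n => ?_, fun i n => ?_, cc.cen, ?_⟩
  · exact (le2 (hp n)).trans ((le1 (hp n)).trans (hv1 n))
  · have e : c n * c n = p n * (v n * v n) * (p n * p n * p n) +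
        p n * v n * (p n * (p n * v n - v n * p n) + (p n * v n - v n * p n) * p n) * p n := by
      simp only [hc_def]
      noncomm_ring
    rw [e]
    refine (norm_add_le _ _).trans ?_
    have a1 : ‖p n * (v n * v n) * (p n * p n * p n)‖ ≤ δ := by
      refine (le2 ((le2 (hp n)).trans ((le2 (hp n)).trans (hp n)))).trans ?_
      simpa [Y, hp_def] using hQY (.inl ()) n
    have a2 := (le2 (x := p n * v n * (p n * (p n * v n - v n * p n) +
        (p n * v n - v n * p n) * p n)) (hp n)).trans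
      ((le1 ((le2 (hv1 n)).trans (hp n))).trans
        ((norm_add_le _ _).trans (add_le_add ((le1 (hp n)).trans (hcomm n))
          ((le2 (hp n)).trans (hcomm n)))))
    linarith
  · have hQ' : ‖α (g i) (p n) - p n‖ ≤ δ := by
      simp only [hp_def, map_sub, map_one, sub_sub_sub_cancel_left]
      rw [norm_sub_rev]
      exact hQσ (.inl i) n
    have e : α (g i) (c n) - c n =
        (α (g i) (p n) - p n) * α (g i) (v n) * α (g i) (p n) +
        p n * α (g i) (v n) * (α (g i) (p n) - p n) +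
        p n * (α (g i) (v n) - v n) * p n := by
      simp only [hc_def, map_mul]
      noncomm_ring
    rw [e]
    have nv : ‖α (g i) (v n)‖ ≤ 1 := (StarAlgEquiv.norm_map _ _).trans_le (hv1 n)
    have np : ‖α (g i) (p n)‖ ≤ 1 := (StarAlgEquiv.norm_map _ _).trans_le (hp n)
    have a1 := (le2 (x := (α (g i) (p n) - p n) * α (g i) (v n)) np).trans ((le2 nv).trans hQ')
    have a2 := (le1 (y := α (g i) (p n) - p n) ((le2 nv).trans (hp n))).trans hQ'
    have a3 : ‖p n * (α (g i) (v n) - v n) * p n‖ ≤ δ :=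
      (le2 (hp n)).trans (by simpa [Y, hp_def] using hQY (.inr i) n)
    exact (norm_add₃_le).trans (by linarith)
  · have hD : Tame A P d fun n => c n - v n := by
      have t := ((hQ.mulR S cv).smul S (-1)).add S ((hQ.mulL S (cp.mul cv)).smul S (-1))
      have e : (fun n => c n - v n) =
          fun n => (-1 : ℂ) • (Q n * v n) + (-1 : ℂ) • (p n * v n * Q n) := by
        funext n
        simp only [hc_def, hp_def, neg_smul, one_smul]
        noncomm_ring
      rw [e]
      exact t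
    have t := ((((hD.star S).mulR S cc).add S (hD.mulL S (cv.star S))).add S
      (hD.mulR S (cc.star S))).add S ((hD.star S).mulL S cv)
    have := hv3.add S t.small
    have e : (fun n => Star.star (c n) * c n + c n * Star.star (c n) - 1) = fun n =>
        Star.star (v n) * v n + v n * Star.star (v n) - 1 +
          (Star.star (c n - v n) * c n + Star.star (v n) * (c n - v n) +
            (c n - v n) * Star.star (c n) + v n * Star.star (c n - v n)) := by
      funext n
      simp only [star_sub]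
      noncomm_ring
    rw [e]
    exact this

end Lift

open Lift in
/-- The lifting. -/
theorem exists_lift (S : Setup P A d) {G : Type*} [Group G] [Countable G]
    (α : G → B ≃⋆ₐ[ℂ] B) (h1 : ∀ a, α 1 a = a) (hmul : ∀ g h a, α (g * h) a = α g (α h a))
    (hαA : ∀ g, ∀ a ∈ A, α g a ∈ A) (hαP : ∀ g, ∀ p ∈ P, α g p ∈ P)
    {v : ℕ → B} (hv1 : ∀ n, ‖v n‖ ≤ 1) (hv : CentralTo A v)
    (hv2 : Small P d fun n => v n * v n)
    (hv3 : Small P d fun n => star (v n) * v n + v n * star (v n) - 1)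
    (hvα : ∀ g, Small P d fun n => α g (v n) - v n) :
    ∃ c : ℕ → B, (∀ n, ‖c n‖ ≤ 1) ∧ CentralTo A c ∧
      Tendsto (fun n => ‖c n * c n‖) atTop (𝓝 0) ∧
      (∀ g, Tendsto (fun n => ‖α g (c n) - c n‖) atTop (𝓝 0)) ∧
      Small P d fun n => star (c n) * c n + c n * star (c n) - 1 := by
  obtain ⟨e, he⟩ := exists_surjective_nat G
  have : SecondCountableTopology B := UniformSpace.secondCountable_of_separable B
  have : Nonempty A := ⟨0⟩
  obtain ⟨a, ha⟩ := TopologicalSpace.exists_dense_seq A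
  set δ : ℕ → ℝ := fun j => 1 / ((j : ℝ) + 1) with hδ
  have hδ0 : ∀ j, 0 < δ j := fun j => by positivity
  have hδt : Tendsto δ atTop (𝓝 0) := tendsto_one_div_add_atTop_nhds_zero_nat
  choose c hc1 hc2 hcα hcc hc3 using fun j : ℕ => exists_approx_lift S α h1 hmul hαA hαP hv1 hv
    hv2 hv3 hvα (fun i : Fin (j + 1) => e i) (hδ0 j)
  obtain ⟨J, hJ, hev⟩ := exists_diag
    (fun j n => (∀ i : Fin (j + 1), ‖c j n * (a i : B) - (a i : B) * c j n‖ < δ j) ∧
      ∀ τ, IsNormTrace P d τ →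
        tn P τ ((star (c j n) * c j n + c j n * star (c j n) - 1) * (d * d)) < δ j)
    fun j => (eventually_all.2 fun i : Fin (j + 1) =>
      (hcc j _ (a i).2).eventually (gt_mem_nhds (hδ0 j))).and (hc3 j _ (hδ0 j))
  have hJδ : Tendsto (fun n => δ (J n)) atTop (𝓝 0) := hδt.comp hJ
  refine ⟨fun n => c (J n) n, fun n => hc1 _ n, fun x hx => ?_,
    squeeze_zero (fun n => norm_nonneg _) (fun n => hc2 _ n) (by simpa using hJδ.const_mul 5),
    fun g => ?_, fun ε hε => ?_⟩
  · rw [Metric.tendsto_atTop]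
    intro ε hε
    obtain ⟨i, hi⟩ := ha.exists_dist_lt (⟨x, hx⟩ : A) (ε := ε / 4) (by linarith)
    have hi' : ‖x - (a i : B)‖ < ε / 4 := by
      rwa [Subtype.dist_eq, dist_eq_norm] at hi
    rw [← eventually_atTop]
    filter_upwards [hev, tendsto_atTop.1 hJ i,
      hJδ.eventually (gt_mem_nhds (show 0 < ε / 4 by linarith))] with n hn hin hδn
    rw [Real.dist_eq, sub_zero, abs_of_nonneg (norm_nonneg _)]
    have h5 := hn.1 ⟨i, by omega⟩
    have e1 : c (J n) n * x - x * c (J n) n = (c (J n) n * (a i : B) - (a i : B) * c (J n) n) +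
        (c (J n) n * (x - (a i : B)) - (x - (a i : B)) * c (J n) n) := by noncomm_ring
    rw [e1]
    have a1 := (norm_mul_le (c (J n) n) (x - (a i : B))).trans
      (mul_le_of_le_one_left (norm_nonneg _) (hc1 _ n))
    have a2 := (norm_mul_le (x - (a i : B)) (c (J n) n)).trans
      (mul_le_of_le_one_right (norm_nonneg _) (hc1 _ n))
    have a3 := norm_sub_le (c (J n) n * (x - (a i : B))) ((x - (a i : B)) * c (J n) n)
    refine (norm_add_le _ _).trans_lt ?_
    dsimp only at h5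
    linarith
  · obtain ⟨i, rfl⟩ := he g
    refine squeeze_zero' (Eventually.of_forall fun n => norm_nonneg _) ?_
      (by simpa using hJδ.const_mul 3)
    filter_upwards [tendsto_atTop.1 hJ i] with n hn
    exact hcα (J n) ⟨i, by omega⟩ n
  · filter_upwards [hev, hJδ.eventually (gt_mem_nhds hε)] with n hn hδn τ hτ
    exact (hn.2 τ hτ).trans hδn

end Vale.Agent.P095.SI
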