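import Vale.Agent.P095.SI.Core
import Vale.Agent.P095.SI.Lift

/-! P095: averaging over the cosets of the kernel of the action on central sequences. -/

open Filter Topology
open scoped ComplexOrder

namespace Vale.Agent.P095.SI

variable {B : Type*} [CStarAlgebra B] [PartialOrder B] [StarOrderedRing B]
  [TopologicalSpace.SeparableSpace B] {A P : Submodule ℂ B} {d : B}

/-- Maximal sequences for a family of eventually satisfiable conditions. -/
theorem exists_diag {β : Type*} [Inhabited β] (Q : ℕ → ℕ → β → Prop)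
    (hmono : ∀ m n b, Q (m + 1) n b → Q m n b) (h : ∀ m, ∀ᶠ n in atTop, ∃ b, Q m n b) :
    ∃ s : ℕ → β, (∀ n, s n = default ∨ ∃ m, Q m n (s n)) ∧ ∀ m, ∀ᶠ n in atTop, Q m n (s n) := by
  classical
  let f : ℕ → ℕ := fun n => Nat.findGreatest (fun m => ∃ b, Q m n b) n
  let s : ℕ → β := fun n => if hb : ∃ b, Q (f n) n b then hb.choose else default
  have hle : ∀ n b j i, j ≤ i → Q i n b → Q j n b := by
    intro n b j i hji
    induction hji with
    | refl => exact id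
    | step _ ih => exact fun hq => ih (hmono _ _ _ hq)
  refine ⟨s, fun n => ?_, fun m => ?_⟩
  · by_cases hb : ∃ b, Q (f n) n b
    · exact Or.inr ⟨f n, by simp only [s, dif_pos hb]; exact hb.choose_spec⟩
    · exact Or.inl (by simp only [s, dif_neg hb])
  · filter_upwards [h m, eventually_ge_atTop m] with n hn hnm
    have hb : ∃ b, Q (f n) n b := Nat.findGreatest_spec (P := fun m => ∃ b, Q m n b) hnm hn
    have hm : m ≤ f n := Nat.le_findGreatest hnm hn
    refine hle n _ m (f n) hm ?_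
    simp only [s, dif_pos hb]
    exact hb.choose_spec

section Coset

variable {G : Type*} [Group G] [DecidableEq G] (N : Subgroup G) (F : Finset G)

open Classical in
/-- The share of `F` in a coset. -/
noncomputable def share (C : G ⧸ N) : ℝ :=
  ((F.filter fun f => (QuotientGroup.mk f : G ⧸ N) = C).card : ℝ) / F.card

theorem share_nonneg (C : G ⧸ N) : 0 ≤ share N F C := by
  unfold share; positivity

theorem share_eq_zero {C : G ⧸ N} (h : ∀ f ∈ F, (QuotientGroup.mk f : G ⧸ N) ≠ C) :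
    share N F C = 0 := by
  classical
  rw [share, Finset.filter_eq_empty_iff.2 (fun f hf => h f hf)]
  simp

theorem sum_share (hF : F.Nonempty) (U : Finset (G ⧸ N))
    (hU : ∀ f ∈ F, (QuotientGroup.mk f : G ⧸ N) ∈ U) : ∑ C ∈ U, share N F C = 1 := by
  classical
  have h1 := Finset.card_eq_sum_card_fiberwise (f := fun f : G => (QuotientGroup.mk f : G ⧸ N))
    (s := F) (t := U) hU
  simp only [share, ← Finset.sum_div, ← Nat.cast_sum, ← h1]
  exact div_self (Nat.cast_ne_zero.2 hF.card_ne_zero)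

theorem sum_sq_sqrt_share_le (hF : F.Nonempty) (U : Finset (G ⧸ N)) (k : G) {ε : ℝ}
    (hk : (((F.image (k * ·)) \ F).card : ℝ) ≤ ε * F.card) :
    ∑ C ∈ U, (Real.sqrt (share N F (k⁻¹ • C)) - Real.sqrt (share N F C)) ^ 2 ≤ 2 * ε := by
  classical
  set F' := F.image (k * ·)
  have hinj : Function.Injective (k * ·) := mul_right_injective k
  have hcard : F'.card = F.card := Finset.card_image_of_injective _ hinj
  have hF0 : (0 : ℝ) < F.card := by exact_mod_cast hF.card_pos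
  let cl : G → G ⧸ N := fun f => QuotientGroup.mk f
  have hsh : ∀ C, share N F (k⁻¹ • C) = ((F'.filter fun f => cl f = C).card : ℝ) / F.card := by
    intro C
    rw [share, Finset.filter_image, Finset.card_image_of_injective _ hinj]
    congr 3
    refine Finset.filter_congr fun f _ => ?_
    rw [eq_inv_smul_iff]
    rfl
  have hsplit : ∀ C, (((F'.filter fun f => cl f = C).card : ℝ) -
      (F.filter fun f => cl f = C).card) =
      ((F' \ F).filter fun f => cl f = C).card - ((F \ F').filter fun f => cl f = C).card := by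
    intro C
    have e1 : ∀ S T : Finset G, ((S.filter fun f => cl f = C).card : ℝ) =
        ((S \ T).filter fun f => cl f = C).card + ((S ∩ T).filter fun f => cl f = C).card := by
      intro S T
      rw [← Nat.cast_add, ← Finset.card_union_of_disjoint, ← Finset.filter_union,
        Finset.sdiff_union_inter]
      exact Finset.disjoint_filter_filter (Finset.disjoint_sdiff_inter S T)
    rw [e1 F' F, e1 F F', Finset.inter_comm F F']
    ring
  calc ∑ C ∈ U, (Real.sqrt (share N F (k⁻¹ • C)) - Real.sqrt (share N F C)) ^ 2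
      ≤ ∑ C ∈ U, |share N F (k⁻¹ • C) - share N F C| := by
        refine Finset.sum_le_sum fun C _ => ?_
        set a := Real.sqrt (share N F (k⁻¹ • C))
        set b := Real.sqrt (share N F C)
        rw [← Real.sq_sqrt (share_nonneg N F (k⁻¹ • C)), ← Real.sq_sqrt (share_nonneg N F C)]
        rw [← sq_abs (a - b), sq, sq_sub_sq, abs_mul, mul_comm]
        refine mul_le_mul_of_nonneg_right ?_ (abs_nonneg _)
        rw [abs_of_nonneg (add_nonneg (Real.sqrt_nonneg _) (Real.sqrt_nonneg _))]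
        exact abs_sub_le_iff.2 ⟨by linarith [Real.sqrt_nonneg (share N F C)],
          by linarith [Real.sqrt_nonneg (share N F (k⁻¹ • C))]⟩
    _ ≤ ∑ C ∈ U, ((((F' \ F).filter fun f => cl f = C).card : ℝ) +
          ((F \ F').filter fun f => cl f = C).card) / F.card := by
        refine Finset.sum_le_sum fun C _ => ?_
        have h2 : share N F C = ((F.filter fun f => cl f = C).card : ℝ) / F.card := rfl
        rw [hsh, h2, ← sub_div, hsplit, abs_div, abs_of_pos hF0]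
        refine div_le_div_of_nonneg_right ?_ hF0.le
        exact (abs_sub _ _).trans (by simp)
    _ ≤ (((F' \ F).card : ℝ) + (F \ F').card) / F.card := by
        rw [← Finset.sum_div]
        refine div_le_div_of_nonneg_right ?_ hF0.le
        rw [Finset.sum_add_distrib, ← Nat.cast_sum, ← Nat.cast_sum]
        gcongr <;> (rw [Finset.sum_card_fiberwise_eq_card_filter]; exact Finset.card_filter_le _ _)
    _ ≤ 2 * ε := by
        have h3 : (F \ F').card = (F' \ F).card := by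
          have h4 := Finset.card_sdiff_add_card F F'
          have h5 := Finset.card_sdiff_add_card F' F
          rw [Finset.union_comm] at h5
          omega
        rw [h3, div_le_iff₀ hF0]
        linarith

end Coset

/-- The kernel of the action on central sequences. -/
def kernelSubgroup {G : Type*} [Group G] (α : G → B ≃⋆ₐ[ℂ] B) (h1 : ∀ a, α 1 a = a)
    (hmul : ∀ g h a, α (g * h) a = α g (α h a)) (hαA : ∀ g, ∀ a ∈ A, α g a ∈ A) : Subgroup G where
  carrier := {g | TrivOn A (α g)}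
  one_mem' := by
    intro a _ ε hε
    exact ⟨∅, by simp, 1, one_pos, fun x _ _ => by simp [h1, hε.le]⟩
  mul_mem' := by
    intro g h hg hh a ha ε hε
    have hinv : α g (α g⁻¹ a) = a := by rw [← hmul, mul_inv_cancel, h1]
    obtain ⟨X, hX, δ, hδ, H⟩ := hh (α g⁻¹ a) (hαA _ a ha) (ε / 2) (half_pos hε)
    obtain ⟨X', hX', δ', hδ', H'⟩ := hg a ha (ε / 2) (half_pos hε)
    classical
    refine ⟨X ∪ X', fun y hy => (Finset.mem_union.1 hy).elim (hX y) (hX' y), min δ δ',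
      lt_min hδ hδ', fun x hx hy => ?_⟩
    obtain ⟨p1, p2⟩ := H x hx fun y hy' =>
      (hy y (Finset.mem_union_left _ hy')).trans_le (min_le_left _ _)
    obtain ⟨q1, q2⟩ := H' x hx fun y hy' =>
      (hy y (Finset.mem_union_right _ hy')).trans_le (min_le_right _ _)
    have e1 : α (g * h) x - x = α g (α h x - x) + (α g x - x) := by rw [hmul, map_sub]; abel
    constructor
    · rw [e1, add_mul]
      refine (norm_add_le _ _).trans (le_trans (add_le_add (le_of_eq_of_le ?_ p1) q1) (by linarith))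
      rw [← StarAlgEquiv.norm_map (α g) ((α h x - x) * α g⁻¹ a), map_mul, hinv]
    · rw [e1, mul_add]
      refine (norm_add_le _ _).trans (le_trans (add_le_add (le_of_eq_of_le ?_ p2) q2) (by linarith))
      rw [← StarAlgEquiv.norm_map (α g) (α g⁻¹ a * (α h x - x)), map_mul, hinv]
  inv_mem' := by
    intro g hg a ha ε hε
    obtain ⟨X, hX, δ, hδ, H⟩ := hg (α g a) (hαA _ a ha) ε hε
    refine ⟨X, hX, δ, hδ, fun x hx hy => ?_⟩
    obtain ⟨p1, p2⟩ := H x hx hy
    have hinv : ∀ z, α g⁻¹ (α g z) = z := fun z => by rw [← hmul, inv_mul_cancel, h1]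
    have e1 : α g⁻¹ x - x = -α g⁻¹ (α g x - x) := by rw [map_sub, hinv]; abel
    constructor
    · rw [e1, neg_mul, norm_neg]
      refine le_of_eq_of_le ?_ p1
      rw [← StarAlgEquiv.norm_map (α g⁻¹) ((α g x - x) * α g a), map_mul (α g⁻¹), hinv]
    · rw [e1, mul_neg, norm_neg]
      refine le_of_eq_of_le ?_ p2
      rw [← StarAlgEquiv.norm_map (α g⁻¹) (α g a * (α g x - x)), map_mul (α g⁻¹), hinv]

section Comb

variable {ι : Type*} (σ : ι → B ≃⋆ₐ[ℂ] B) (U : Finset ι) (w : ι → ℝ) (s₀ : B)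

/-- A weighted sum of translates. -/
noncomputable def comb : B := ∑ C ∈ U, (w C : ℂ) • σ C s₀

variable {σ U w s₀} {ε₀ : ℝ}

theorem norm_gram_sub_le [DecidableEq ι] (hw : ∀ C, |w C| ≤ 1) (hε : 0 ≤ ε₀)
    (hcross : ∀ C ∈ U, ∀ C' ∈ U, C ≠ C' → ‖star (σ C s₀) * σ C' s₀‖ ≤ ε₀) :
    ‖star (comb σ U w s₀) * comb σ U w s₀ -
      ∑ C ∈ U, ((w C ^ 2 : ℝ) : ℂ) • σ C (star s₀ * s₀)‖ ≤ U.card * U.card * ε₀ := by
  have hexp : star (comb σ U w s₀) * comb σ U w s₀ =
      ∑ C ∈ U, ∑ C' ∈ U, ((w C * w C' : ℝ) : ℂ) • (star (σ C s₀) * σ C' s₀) := by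
    simp [comb, star_sum, Finset.sum_mul_sum, smul_smul, mul_comm, -Complex.coe_smul]
  rw [hexp, ← Finset.sum_sub_distrib]
  refine (norm_sum_le _ _).trans ?_
  rw [mul_assoc, ← nsmul_eq_mul]
  refine (Finset.sum_le_card_nsmul _ _ (U.card • ε₀) fun C hC => ?_).trans (by simp)
  have hd : ((w C ^ 2 : ℝ) : ℂ) • σ C (star s₀ * s₀) =
      ((w C * w C : ℝ) : ℂ) • (star (σ C s₀) * σ C s₀) := by
    rw [map_mul, map_star, sq]
  rw [hd, ← Finset.add_sum_erase U _ hC, add_sub_cancel_left]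
  refine (norm_sum_le _ _).trans ?_
  refine (Finset.sum_le_card_nsmul _ _ ε₀ fun C' hC' => ?_).trans
    (nsmul_le_nsmul_left hε (Finset.card_erase_le))
  obtain ⟨hne, hC'U⟩ := Finset.mem_erase.1 hC'
  rw [norm_smul, Complex.norm_real, Real.norm_eq_abs, abs_mul]
  calc |w C| * |w C'| * ‖star (σ C s₀) * σ C' s₀‖ ≤ 1 * 1 * ε₀ :=
        mul_le_mul (mul_le_mul (hw C) (hw C') (abs_nonneg _) one_pos.le)
          (hcross C hC C' hC'U hne.symm) (norm_nonneg _) (by norm_num)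
    _ = ε₀ := by ring

theorem norm_comb_sq_le [DecidableEq ι] (hw : ∀ C, |w C| ≤ 1) (hε : 0 ≤ ε₀)
    (hcross : ∀ C ∈ U, ∀ C' ∈ U, C ≠ C' → ‖star (σ C s₀) * σ C' s₀‖ ≤ ε₀)
    (hs : ‖star s₀ * s₀‖ ≤ 3) :
    ‖comb σ U w s₀‖ ^ 2 ≤ 3 * ∑ C ∈ U, w C ^ 2 + U.card * U.card * ε₀ := by
  have h1 := norm_gram_sub_le hw hε hcross
  have h2 : ‖∑ C ∈ U, ((w C ^ 2 : ℝ) : ℂ) • σ C (star s₀ * s₀)‖ ≤ 3 * ∑ C ∈ U, w C ^ 2 := by
    rw [Finset.mul_sum]
    refine (norm_sum_le _ _).trans (Finset.sum_le_sum fun C _ => ?_)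
    rw [norm_smul, Complex.norm_real, Real.norm_eq_abs, abs_of_nonneg (sq_nonneg _),
      StarAlgEquiv.norm_map, mul_comm (3 : ℝ)]
    exact mul_le_mul_of_nonneg_left hs (sq_nonneg _)
  have h3 := norm_le_insert' (star (comb σ U w s₀) * comb σ U w s₀)
    (∑ C ∈ U, ((w C ^ 2 : ℝ) : ℂ) • σ C (star s₀ * s₀))
  rw [CStarRing.norm_star_mul_self] at h3
  rw [sq]
  linarith

theorem norm_comb_comm_le (hw : ∀ C, |w C| ≤ 1) {x : B} {y : ι → B} (hy : ∀ C, σ C (y C) = x)
    (h : ∀ C ∈ U, ‖s₀ * y C - y C * s₀‖ ≤ ε₀) :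
    ‖comb σ U w s₀ * x - x * comb σ U w s₀‖ ≤ U.card * ε₀ := by
  simp only [comb, Finset.sum_mul, Finset.mul_sum, ← Finset.sum_sub_distrib]
  rw [← nsmul_eq_mul]
  refine (norm_sum_le _ _).trans (Finset.sum_le_card_nsmul _ _ _ fun C hC => ?_)
  have e1 : (w C : ℂ) • σ C s₀ * x - x * (w C : ℂ) • σ C s₀ =
      (w C : ℂ) • σ C (s₀ * y C - y C * s₀) := by
    rw [map_sub, map_mul, map_mul, hy, smul_mul_assoc, mul_smul_comm, smul_sub]
  rw [e1, norm_smul, StarAlgEquiv.norm_map, Complex.norm_real, Real.norm_eq_abs]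
  exact (mul_le_mul (hw C) (h C hC) (norm_nonneg _) one_pos.le).trans_eq (one_mul _)

theorem norm_comb_square_le [DecidableEq ι] (hw : ∀ C, |w C| ≤ 1) (hε : 0 ≤ ε₀)
    (hw2 : ∑ C ∈ U, w C ^ 2 = 1)
    (hcross : ∀ C ∈ U, ∀ C' ∈ U, C ≠ C' → ‖star (σ C s₀) * σ C' s₀‖ ≤ ε₀)
    {x e' e : B} {y : ι → B} (hy : ∀ C, σ C (y C) = x)
    (h : ∀ C ∈ U, ‖(star s₀ * s₀ - e) * y C‖ ≤ ε₀) (he : ∀ C ∈ U, ‖σ C e - e'‖ ≤ ε₀) :
    ‖(star (comb σ U w s₀) * comb σ U w s₀ - e') * x‖ ≤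
      (U.card * U.card + 1) * ε₀ * ‖x‖ + ε₀ := by
  set S := ∑ C ∈ U, ((w C ^ 2 : ℝ) : ℂ) • σ C (star s₀ * s₀) with hS
  have h1 : ‖(star (comb σ U w s₀) * comb σ U w s₀ - S) * x‖ ≤ U.card * U.card * ε₀ * ‖x‖ :=
    (norm_mul_le _ _).trans
      (mul_le_mul_of_nonneg_right (norm_gram_sub_le hw hε hcross) (norm_nonneg _))
  have h2 : ‖(S - e') * x‖ ≤ ε₀ * ‖x‖ + ε₀ := by
    have e1 : e' = ∑ C ∈ U, ((w C ^ 2 : ℝ) : ℂ) • e' := by
      rw [← Finset.sum_smul, ← Complex.ofReal_sum, hw2]; simp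
    rw [hS, e1, ← Finset.sum_sub_distrib, Finset.sum_mul]
    refine (norm_sum_le _ _).trans ?_
    calc _ ≤ ∑ C ∈ U, w C ^ 2 * (ε₀ * ‖x‖ + ε₀) := by
          refine Finset.sum_le_sum fun C hC => ?_
          have e2 : (((w C ^ 2 : ℝ) : ℂ) • σ C (star s₀ * s₀) - ((w C ^ 2 : ℝ) : ℂ) • e') * x =
              ((w C ^ 2 : ℝ) : ℂ) •
                ((σ C e - e') * x + σ C ((star s₀ * s₀ - e) * y C)) := by
            rw [map_mul (σ C) (star s₀ * s₀ - e), hy, map_sub, ← add_mul, ← smul_sub,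
              smul_mul_assoc, sub_add_sub_comm, add_comm (σ C e), add_sub_add_right_eq_sub]
          rw [e2, norm_smul, Complex.norm_real, Real.norm_eq_abs, abs_of_nonneg (sq_nonneg _)]
          refine mul_le_mul_of_nonneg_left ((norm_add_le _ _).trans (add_le_add ?_ ?_))
            (sq_nonneg _)
          · exact (norm_mul_le _ _).trans (mul_le_mul_of_nonneg_right (he C hC) (norm_nonneg _))
          · rw [StarAlgEquiv.norm_map]; exact h C hC
      _ = _ := by rw [← Finset.sum_mul, hw2, one_mul]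
  calc _ = ‖(star (comb σ U w s₀) * comb σ U w s₀ - S) * x + (S - e') * x‖ := by
        rw [← add_mul, sub_add_sub_cancel]
    _ ≤ _ := (norm_add_le _ _).trans (by linarith)

theorem norm_comb_unit_le (hw : ∀ C, |w C| ≤ 1) {p : B} (hs : ‖s₀‖ ≤ 2)
    (hp : ∀ C ∈ U, ‖p - σ C p‖ ≤ ε₀) (h : ‖p * s₀ - s₀‖ ≤ ε₀) :
    ‖p * comb σ U w s₀ - comb σ U w s₀‖ ≤ U.card * (3 * ε₀) := by
  simp only [comb, Finset.mul_sum, ← Finset.sum_sub_distrib]
  rw [← nsmul_eq_mul]
  refine (norm_sum_le _ _).trans (Finset.sum_le_card_nsmul _ _ _ fun C hC => ?_)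
  have e1 : p * (w C : ℂ) • σ C s₀ - (w C : ℂ) • σ C s₀ =
      (w C : ℂ) • ((p - σ C p) * σ C s₀ + σ C (p * s₀ - s₀)) := by
    rw [map_sub, map_mul, sub_mul, mul_smul_comm, ← smul_sub, sub_add_sub_cancel]
  rw [e1, norm_smul, Complex.norm_real, Real.norm_eq_abs]
  refine (mul_le_mul (hw C) ((norm_add_le _ _).trans (add_le_add ((norm_mul_le _ _).trans
    (mul_le_mul (hp C hC) (le_of_eq_of_le (StarAlgEquiv.norm_map _ _) hs) (norm_nonneg _)
      ((norm_nonneg _).trans (hp C hC)))) (le_of_eq_of_le (StarAlgEquiv.norm_map _ _) h)))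
    (norm_nonneg _) one_pos.le).trans_eq (by ring)

end Comb

/-- The two halves of a prepared matrix unit are asymptotically invariant. -/
theorem Prep.tendsto_halves {G : Type*} {α : G → B ≃⋆ₐ[ℂ] B} (D : Prep P A d α) (g : G) :
    Tendsto (fun n => ‖α g (star (D.c n) * D.c n) - star (D.c n) * D.c n‖) atTop (𝓝 0) ∧
      Tendsto (fun n => ‖α g (D.e n) - (1 - star (D.c n) * D.c n - D.c n * star (D.c n))‖)
        atTop (𝓝 0) := by
  have hb : ∀ x y : B, ‖x‖ ≤ 1 → ‖y‖ ≤ 1 →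
      ‖star x * x - star y * y‖ ≤ 2 * ‖x - y‖ ∧ ‖x * star x - y * star y‖ ≤ 2 * ‖x - y‖ := by
    intro x y hx hy
    have hsx : ‖star x - star y‖ = ‖x - y‖ := by rw [← star_sub, norm_star]
    constructor
    · rw [show star x * x - star y * y = (star x - star y) * x + star y * (x - y) by noncomm_ring]
      refine (norm_add_le _ _).trans ((add_le_add (norm_mul_le _ _) (norm_mul_le _ _)).trans ?_)
      rw [hsx, norm_star]
      nlinarith [norm_nonneg (x - y)]
    · rw [show x * star x - y * star y = (x - y) * star x + y * (star x - star y) by noncomm_ring]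
      refine (norm_add_le _ _).trans ((add_le_add (norm_mul_le _ _) (norm_mul_le _ _)).trans ?_)
      rw [hsx, norm_star]
      nlinarith [norm_nonneg (x - y)]
  have hle : ∀ n, ‖α g (D.c n)‖ ≤ 1 := fun n => by
    rw [StarAlgEquiv.norm_map]; exact D.c_norm n
  have t1 : Tendsto (fun n => 2 * ‖α g (D.c n) - D.c n‖) atTop (𝓝 0) := by
    simpa using (D.c_inv g).const_mul 2
  refine ⟨squeeze_zero (fun _ => norm_nonneg _) (fun n => ?_) t1,
    squeeze_zero (fun _ => norm_nonneg _) (fun n => ?_) (by simpa using D.e_eq.add (t1.add t1))⟩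
  · rw [map_mul, map_star]
    exact (hb _ _ (hle n) (D.c_norm n)).1
  · have e1 : α g (D.e n) - (1 - star (D.c n) * D.c n - D.c n * star (D.c n)) =
        α g (D.e n - (1 - star (D.c n) * D.c n - D.c n * star (D.c n))) -
          ((star (α g (D.c n)) * α g (D.c n) - star (D.c n) * D.c n) +
            (α g (D.c n) * star (α g (D.c n)) - D.c n * star (D.c n))) := by
      simp only [map_sub, map_one, map_mul, map_star]
      abel
    rw [e1]
    exact (norm_sub_le _ _).trans (add_le_add (StarAlgEquiv.norm_map _ _).le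
      ((norm_add_le _ _).trans (add_le_add (hb _ _ (hle n) (D.c_norm n)).1
        (hb _ _ (hle n) (D.c_norm n)).2)))

section Move

variable {G : Type*} [Group G] [DecidableEq G] (N : Subgroup G) (F : Finset G)

/-- Weights of the cosets. -/
noncomputable def cosetWt (C : G ⧸ N) : ℝ := Real.sqrt (share N F C)

theorem abs_cosetWt_le (hF : F.Nonempty) (C : G ⧸ N) : |cosetWt N F C| ≤ 1 := by
  classical
  rw [cosetWt, abs_of_nonneg (Real.sqrt_nonneg _)]
  refine Real.sqrt_le_one.2 ?_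
  rw [share, div_le_one (by exact_mod_cast hF.card_pos)]
  exact_mod_cast Finset.card_filter_le _ _

open Classical in
theorem map_comb_sub (α : G → B ≃⋆ₐ[ℂ] B) (hmul : ∀ g h a, α (g * h) a = α g (α h a))
    (U : Finset (G ⧸ N)) (k : G) (hU : F.image (fun f => (QuotientGroup.mk f : G ⧸ N)) ⊆ U)
    (hkU : (F.image (fun f => (QuotientGroup.mk f : G ⧸ N))).image (k • ·) ⊆ U) (s₀ : B) :
    α k (comb (fun C => α C.out) U (cosetWt N F) s₀) - comb (fun C => α C.out) U (cosetWt N F) s₀ =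
      ∑ C ∈ U, (cosetWt N F C : ℂ) • (α (k * C.out) s₀ - α (k • C).out s₀) +
        comb (fun C => α C.out) U (fun C => cosetWt N F (k⁻¹ • C) - cosetWt N F C) s₀ := by
  set R := F.image fun f => (QuotientGroup.mk f : G ⧸ N)
  have hz : ∀ C ∉ R, cosetWt N F C = 0 := fun C hC => by
    rw [cosetWt, share_eq_zero N F (fun f hf h => hC (Finset.mem_image.2 ⟨f, hf, h⟩)),
      Real.sqrt_zero]
  have hre : ∑ C ∈ U, (cosetWt N F C : ℂ) • α (k • C).out s₀ =
      ∑ C ∈ U, (cosetWt N F (k⁻¹ • C) : ℂ) • α C.out s₀ := by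
    rw [← Finset.sum_subset hU fun C _ hC => by simp [hz C hC]]
    calc ∑ C ∈ R, (cosetWt N F C : ℂ) • α (k • C).out s₀
        = ∑ C ∈ R.image (k • ·), (cosetWt N F (k⁻¹ • C) : ℂ) • α C.out s₀ := by
          rw [Finset.sum_image fun a _ b _ h => MulAction.injective k h]
          simp
      _ = _ := Finset.sum_subset hkU fun C _ hC => by
          rw [hz (k⁻¹ • C) fun h => hC (Finset.mem_image.2 ⟨_, h, smul_inv_smul k C⟩)]
          simp
  simp only [comb, map_sum, map_smul, ← hmul, smul_sub, Finset.sum_sub_distrib,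
    Complex.ofReal_sub, sub_smul, hre]
  abel

theorem kernel_move (α : G → B ≃⋆ₐ[ℂ] B) (hmul : ∀ g h a, α (g * h) a = α g (α h a))
    (U : Finset (G ⧸ N)) (hw : ∀ C, |cosetWt N F C| ≤ 1) (k : G) {s₀ x : B} {η : ℝ}
    {y : G ⧸ N → B} (hy : ∀ C, α C.out (y C) = x)
    (h : ∀ C ∈ U, ‖(α ((k • C).out⁻¹ * (k * C.out)) ((2⁻¹ : ℂ) • s₀) - (2⁻¹ : ℂ) • s₀) *
      y (k • C)‖ ≤ η) :
    ‖(∑ C ∈ U, (cosetWt N F C : ℂ) • (α (k * C.out) s₀ - α (k • C).out s₀)) * x‖ ≤
      U.card * (2 * η) := by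
  rw [Finset.sum_mul, ← nsmul_eq_mul]
  refine (norm_sum_le _ _).trans (Finset.sum_le_card_nsmul _ _ _ fun C hC => ?_)
  have e : (cosetWt N F C : ℂ) • (α (k * C.out) s₀ - α (k • C).out s₀) * x =
      ((cosetWt N F C * 2 : ℝ) : ℂ) • α (k • C).out
        ((α ((k • C).out⁻¹ * (k * C.out)) ((2⁻¹ : ℂ) • s₀) - (2⁻¹ : ℂ) • s₀) * y (k • C)) := by
    rw [map_mul (α (k • C).out), hy, map_sub, ← hmul, ← mul_assoc, mul_inv_cancel, one_mul,
      map_smul, map_smul, ← smul_sub, smul_mul_assoc, smul_mul_assoc, smul_smul]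
    congr 1
    push_cast
    ring
  rw [e, norm_smul, StarAlgEquiv.norm_map, Complex.norm_real, Real.norm_eq_abs, abs_mul, abs_two]
  calc _ ≤ 1 * 2 * η :=
        mul_le_mul (mul_le_mul_of_nonneg_right (hw C) two_pos.le) (h C hC) (norm_nonneg _)
          (by norm_num)
    _ = 2 * η := by ring

end Move

/-- Averaging the comparison elements over cosets of the kernel. -/
theorem exists_average (S : Setup P A d) (hcp : HasCPApprox A) (hcomp : Weak.WeakComp P d)
    (hτ : ∃ τ, IsNormTrace P d τ) {G : Type*} [Group G] [DecidableEq G]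
    (α : G → B ≃⋆ₐ[ℂ] B) (h1 : ∀ a, α 1 a = a) (hmul : ∀ g h a, α (g * h) a = α g (α h a))
    (hG : ∀ (K : Finset G) (ε : ℝ), 0 < ε → ∃ F : Finset G, F.Nonempty ∧ ∀ g ∈ K,
      (((F.image (g * ·)) \ F).card : ℝ) ≤ ε * F.card)
    (hαA : ∀ g, ∀ a ∈ A, α g a ∈ A) (T : Tower A α d) (D : Prep P A d α)
    (X : Finset B) (hX : ∀ x ∈ X, x ∈ A) (K : Finset G) {ε : ℝ} (hε : 0 < ε) :
    ∀ᶠ n in atTop, ∃ s : B, ‖s‖ ≤ 2 ∧ ∀ x ∈ X, ‖s * x - x * s‖ ≤ ε ∧
      ‖(star s * s - (1 - star (D.c n) * D.c n - D.c n * star (D.c n))) * x‖ ≤ ε ∧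
      ‖(star (D.c n) * D.c n * s - s) * x‖ ≤ ε ∧ ∀ k ∈ K, ‖(α k s - s) * x‖ ≤ ε := by
  classical
  let N := kernelSubgroup α h1 hmul hαA
  obtain ⟨M, hM, hMX⟩ : ∃ M : ℝ, 1 ≤ M ∧ ∀ x ∈ X, ‖x‖ ≤ M :=
    ⟨1 + ∑ x ∈ X, ‖x‖, le_add_of_nonneg_right (Finset.sum_nonneg fun _ _ => norm_nonneg _),
      fun x hx => by
        linarith [Finset.single_le_sum (f := fun x : B => ‖x‖) (fun _ _ => norm_nonneg _) hx]⟩
  set ε₁ : ℝ := min 1 ε / (8 * M) with hε₁
  have he1 : 0 < ε₁ := by positivity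
  obtain ⟨F, hF, hFK⟩ := hG K (ε₁ ^ 2) (by positivity)
  let R : Finset (G ⧸ N) := F.image fun f => (QuotientGroup.mk f : G ⧸ N)
  let U : Finset (G ⧸ N) := R ∪ K.biUnion fun k => R.image (k • ·)
  let σ : G ⧸ N → B ≃⋆ₐ[ℂ] B := fun C => α C.out
  let w : G ⧸ N → ℝ := cosetWt N F
  have hwabs : ∀ C, |w C| ≤ 1 := abs_cosetWt_le N F hF
  have hw2 : ∑ C ∈ U, w C ^ 2 = 1 := by
    rw [← sum_share N F hF U fun f hf => Finset.mem_union_left _ (Finset.mem_image_of_mem _ hf)]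
    exact Finset.sum_congr rfl fun C _ => Real.sq_sqrt (share_nonneg N F C)
  let inv : G ⧸ N → B → B := fun C x => α C.out⁻¹ x
  have hinv : ∀ C x, σ C (inv C x) = x := fun C x => by
    show α _ (α _ x) = x
    rw [← hmul, mul_inv_cancel, h1]
  have hinvA : ∀ C x, x ∈ A → inv C x ∈ A := fun C x hx => hαA _ x hx
  let nn : G → G ⧸ N → G := fun k C => (k • C).out⁻¹ * (k * C.out)
  have hnn : ∀ k C, TrivOn A (α (nn k C)) := fun k C => by
    refine (QuotientGroup.eq (s := N)).1 ?_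
    rw [QuotientGroup.out_eq', ← smul_eq_mul, ← MulAction.Quotient.smul_mk,
      QuotientGroup.out_eq']
  have hX' : ∀ q : G × (G ⧸ N) × B, q.2.2 ∈ X → ∃ (X' : Finset B), (∀ y ∈ X', y ∈ A) ∧
      ∃ δ > (0 : ℝ), ∀ z : B, ‖z‖ ≤ 1 → (∀ y ∈ X', ‖z * y - y * z‖ < δ) →
        ‖(α (nn q.1 q.2.1) z - z) * inv (q.1 • q.2.1) q.2.2‖ ≤ ε₁ / (U.card + 1) := by
    intro q hq
    obtain ⟨X', h1', δ, hδ, h2⟩ := hnn q.1 q.2.1 (inv (q.1 • q.2.1) q.2.2)
      (hinvA _ _ (hX _ hq)) (ε₁ / (U.card + 1)) (by positivity)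
    exact ⟨X', h1', δ, hδ, fun z hz hy => (h2 z hz hy).1⟩
  choose! X' hX'A δ hδ hX'T using hX'
  let Q : Finset (G × (G ⧸ N) × B) := K ×ˢ U ×ˢ X
  have hQ : ∀ q ∈ Q, q.2.2 ∈ X := fun q hq =>
    (Finset.mem_product.1 (Finset.mem_product.1 hq).2).2
  obtain ⟨δ₀, hδ₀, hδ₀le⟩ : ∃ δ₀ > (0 : ℝ), ∀ q ∈ Q, δ₀ ≤ δ q := by
    rcases Q.eq_empty_or_nonempty with h | h
    · exact ⟨1, one_pos, by simp [h]⟩
    · exact ⟨Q.inf' h δ, (Finset.lt_inf'_iff h).2 fun q hq => hδ q (hQ q hq),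
        fun q hq => Finset.inf'_le _ hq⟩
  let X₁ : Finset B := (Q.biUnion X') ∪ U.biUnion fun C => X.image (inv C)
  have hX₁ : ∀ x ∈ X₁, x ∈ A := by
    intro x hx
    rcases Finset.mem_union.1 hx with h | h <;> obtain ⟨q, hq, hxq⟩ := Finset.mem_biUnion.1 h
    · exact hX'A q (hQ q hq) x hxq
    · obtain ⟨y, hy, rfl⟩ := Finset.mem_image.1 hxq
      exact hinvA _ _ (hX y hy)
  let K₁ : Finset G := (U ×ˢ U).filter (fun p => p.1 ≠ p.2) |>.image fun p => p.1.out⁻¹ * p.2.out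
  have hK₁ : ∀ g ∈ K₁, ¬ TrivOn A (α g) := by
    intro g hg htr
    obtain ⟨p, hp, rfl⟩ := Finset.mem_image.1 hg
    have : (QuotientGroup.mk p.1.out : G ⧸ N) = QuotientGroup.mk p.2.out :=
      QuotientGroup.eq.2 htr
    rw [QuotientGroup.out_eq', QuotientGroup.out_eq'] at this
    exact (Finset.mem_filter.1 hp).2 this
  obtain ⟨u, hu⟩ : ∃ u : ℝ, u = U.card := ⟨_, rfl⟩
  have hu0 : 0 ≤ u := hu ▸ U.card.cast_nonneg
  set ε₀ : ℝ := min δ₀ (ε₁ ^ 2) / (u + 1) ^ 2 with hε₀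
  have he0 : 0 < ε₀ := by positivity
  have hb : ∀ r, 0 ≤ r → r ≤ (u + 1) ^ 2 → r * ε₀ ≤ min δ₀ (ε₁ ^ 2) := fun r _ hr => by
    calc r * ε₀ ≤ (u + 1) ^ 2 * ε₀ := mul_le_mul_of_nonneg_right hr he0.le
      _ = _ := by rw [hε₀]; field_simp
  have he1' : ε₁ ≤ 1 / 8 := by
    rw [hε₁, div_le_iff₀ (by positivity)]
    linarith [min_le_left (1 : ℝ) ε]
  have hsq : ε₁ ^ 2 ≤ ε₁ := by nlinarith
  have hMε : 8 * (M * ε₁) ≤ ε := by
    have : 8 * (M * ε₁) = min 1 ε := by rw [hε₁]; field_simp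
    linarith [min_le_right (1 : ℝ) ε]
  have hε₁ε : ε₁ ≤ M * ε₁ := le_mul_of_one_le_left he1.le hM
  have hc1 := (hb 1 zero_le_one (by nlinarith))
  have hcu := (hb u hu0 (by nlinarith)).trans (min_le_right _ _)
  have hcu2 := (hb (u * u + 1) (by positivity) (by nlinarith)).trans (min_le_right _ _)
  have hev : ∀ᶠ n in atTop, ∀ C ∈ U,
      ‖σ C (star (D.c n) * D.c n) - star (D.c n) * D.c n‖ < ε₀ ∧
      ‖σ C (D.e n) - (1 - star (D.c n) * D.c n - D.c n * star (D.c n))‖ < ε₀ :=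
    U.eventually_all.2 fun C _ => ((D.tendsto_halves _).1.eventually_lt_const he0).and
      ((D.tendsto_halves _).2.eventually_lt_const he0)
  filter_upwards [exists_s0 S hcp hcomp hτ T D X₁ hX₁ K₁ hK₁ he0, hev] with n hs hpe
  obtain ⟨s₀, hs3, hsX, hsp, hsK⟩ := hs
  have hs2 : ‖s₀‖ ≤ 2 := by
    have h3 := hs3
    rw [CStarRing.norm_star_mul_self] at h3
    nlinarith [norm_nonneg s₀]
  have hcross : ∀ C ∈ U, ∀ C' ∈ U, C ≠ C' → ‖star (σ C s₀) * σ C' s₀‖ ≤ ε₀ := by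
    intro C hC C' hC' hne
    have e1 : star (σ C s₀) * σ C' s₀ = α C.out (star s₀ * α (C.out⁻¹ * C'.out) s₀) := by
      show star (α _ s₀) * α _ s₀ = _
      rw [map_mul, map_star, ← hmul, ← mul_assoc, mul_inv_cancel, one_mul]
    rw [e1, StarAlgEquiv.norm_map]
    exact hsK _ (Finset.mem_image.2
      ⟨(C, C'), Finset.mem_filter.2 ⟨Finset.mem_product.2 ⟨hC, hC'⟩, hne⟩, rfl⟩)
  have hxX₁ : ∀ x ∈ X, ∀ C ∈ U, inv C x ∈ X₁ := fun x hx C hC =>
    Finset.mem_union_right _ (Finset.mem_biUnion.2 ⟨C, hC, Finset.mem_image_of_mem _ hx⟩)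
  refine ⟨comb σ U w s₀, ?_, fun x hx => ⟨?_, ?_, ?_, fun k hk => ?_⟩⟩
  · have h := norm_comb_sq_le hwabs he0.le hcross hs3
    rw [hw2, ← hu] at h
    nlinarith [norm_nonneg (comb σ U w s₀)]
  · have h := norm_comb_comm_le (w := w) hwabs (hinv · x) fun C hC => (hsX _ (hxX₁ x hx C hC)).1
    rw [← hu] at h
    linarith
  · have h := norm_comb_square_le hwabs he0.le hw2 hcross (hinv · x)
      (fun C hC => (hsX _ (hxX₁ x hx C hC)).2) (fun C hC => (hpe C hC).2.le)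
    rw [← hu] at h
    have h1' : (u * u + 1) * ε₀ * ‖x‖ ≤ ε₁ * M :=
      mul_le_mul (hcu2.trans hsq) (hMX x hx) (norm_nonneg _) he1.le
    linarith [hc1.trans (min_le_right _ _)]
  · have h := norm_comb_unit_le (σ := σ) (U := U) hwabs hs2
      (fun C hC => by rw [norm_sub_rev]; exact (hpe C hC).1.le) hsp
    rw [← hu] at h
    refine (norm_mul_le _ _).trans ((mul_le_mul (h.trans (?_ : u * (3 * ε₀) ≤ 3 * ε₁))
      (hMX x hx) (norm_nonneg _) (by linarith)).trans (by linarith))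
    linarith
  · have hsub : R ⊆ U ∧ R.image (k • ·) ⊆ U :=
      ⟨Finset.subset_union_left, (Finset.subset_biUnion_of_mem
        (fun k : G => R.image (k • ·)) hk).trans Finset.subset_union_right⟩
    rw [map_comb_sub N F α hmul U k hsub.1 hsub.2, add_mul]
    have h10 := kernel_move N F α hmul U hwabs k (s₀ := s₀) (hinv · x)
      (η := ε₁ / (U.card + 1)) fun C hC => by
        have hq : (k, C, x) ∈ Q := Finset.mem_product.2 ⟨hk, Finset.mem_product.2 ⟨hC, hx⟩⟩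
        refine hX'T (k, C, x) hx _ ?_ fun y hy => ?_
        · rw [norm_smul, norm_inv, Complex.norm_ofNat]; linarith
        · have h11 := (hsX y (Finset.mem_union_left _ (Finset.mem_biUnion.2 ⟨_, hq, hy⟩))).1
          rw [smul_mul_assoc, mul_smul_comm, ← smul_sub, norm_smul, norm_inv, Complex.norm_ofNat]
          linarith [hδ₀le _ hq, hc1.trans (min_le_left _ _)]
    have h12 := norm_comb_sq_le (w := fun C => cosetWt N F (k⁻¹ • C) - cosetWt N F C)
      (fun C => abs_sub_le_iff.2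
        ⟨by linarith [(abs_le.1 (hwabs (k⁻¹ • C))).2, Real.sqrt_nonneg (share N F C),
            show cosetWt N F C = Real.sqrt (share N F C) from rfl],
          by linarith [(abs_le.1 (hwabs C)).2, Real.sqrt_nonneg (share N F (k⁻¹ • C)),
            show cosetWt N F (k⁻¹ • C) = Real.sqrt (share N F (k⁻¹ • C)) from rfl]⟩)
      he0.le hcross hs3
    have h13 : ∑ C ∈ U, (cosetWt N F (k⁻¹ • C) - cosetWt N F C) ^ 2 ≤ 2 * ε₁ ^ 2 :=
      sum_sq_sqrt_share_le N F hF U k (hFK k hk)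
    rw [← hu] at h12 h10
    have h14 : (U.card : ℝ) * (2 * (ε₁ / (U.card + 1))) ≤ 2 * ε₁ := by
      rw [mul_div, mul_div, div_le_iff₀ (by positivity)]
      linarith
    rw [← hu] at h14
    have h15 : ‖comb σ U (fun C => cosetWt N F (k⁻¹ • C) - cosetWt N F C) s₀‖ ≤ 3 * ε₁ := by
      nlinarith [norm_nonneg (comb σ U (fun C => cosetWt N F (k⁻¹ • C) - cosetWt N F C) s₀)]
    refine (norm_add_le _ _).trans ((add_le_add h10 ((norm_mul_le _ _).trans
      (mul_le_mul h15 (hMX x hx) (norm_nonneg _) (by linarith)))).trans ?_)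
    linarith

theorem hasInvariantPair_of_matrixUnit (S : Setup P A d) (hcp : HasCPApprox A)
    (hcomp : Weak.WeakComp P d) (hτ : ∃ τ, IsNormTrace P d τ)
    {G : Type*} [Group G] [DecidableEq G] [Countable G]
    (α : G → B ≃⋆ₐ[ℂ] B) (h1 : ∀ a, α 1 a = a) (hmul : ∀ g h a, α (g * h) a = α g (α h a))
    (hG : ∀ (K : Finset G) (ε : ℝ), 0 < ε → ∃ F : Finset G, F.Nonempty ∧ ∀ g ∈ K,
      (((F.image (g * ·)) \ F).card : ℝ) ≤ ε * F.card)
    (hαA : ∀ g, ∀ a ∈ A, α g a ∈ A) (hαP : ∀ g, ∀ p ∈ P, α g p ∈ P)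
    {v : ℕ → B} (hv1 : ∀ n, ‖v n‖ ≤ 1) (hv : CentralTo A v)
    (hv2 : Small P d fun n => v n * v n)
    (hv3 : Small P d fun n => star (v n) * v n + v n * star (v n) - 1)
    (hvα : ∀ g, Small P d fun n => α g (v n) - v n) :
    HasInvariantPair A α := by
  classical
  have hA := S.simple
  have hα' : ∀ g, ∀ a ∈ A, α g a ∈ A ∧ (α g).symm a ∈ A := fun g a ha => by
    refine ⟨hαA g a ha, ?_⟩
    have : (α g).symm a = α g⁻¹ a := by
      rw [StarAlgEquiv.symm_apply_eq, ← hmul, mul_inv_cancel, h1]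
    rw [this]; exact hαA _ a ha
  obtain ⟨c₀, hc1, hc, hc2, hcα, hc3⟩ := exists_lift S α h1 hmul hαA hαP hv1 hv hv2 hv3 hvα
  obtain ⟨D⟩ := exists_prep S α hc1 hc hc2 hcα hc3
  obtain ⟨T⟩ := exists_tower hA α hαA (fun g hg => orthFor_of_not_trivOn hA (α g) (hα' g) hg)
    (S.le S.d_mem) S.d_nonneg S.d_norm S.d_nondeg
  have main := fun X hX K ε (hε : (0 : ℝ) < ε) =>
    exists_average S hcp hcomp hτ α h1 hmul hG hαA T D X hX K hε
  -- diagonalisation
  have hsep : TopologicalSpace.IsSeparable (A : Set B) := TopologicalSpace.IsSeparable.of_separableSpace _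
  obtain ⟨C₀, hC₀A, hC₀c, hC₀d⟩ := hsep.exists_countable_dense_subset
  obtain ⟨e, he⟩ := (hC₀c.insert (0 : B)).exists_eq_range (Set.insert_nonempty _ _)
  obtain ⟨k, hk⟩ := exists_surjective_nat G
  have heA : ∀ i, e i ∈ A := fun i => by
    rcases Set.mem_insert_iff.1 (he ▸ Set.mem_range_self i) with h | h
    · rw [h]; exact zero_mem A
    · exact hC₀A h
  let Good : ℕ → ℕ → B → Prop := fun m n s => ‖s‖ ≤ 2 ∧ ∀ i ≤ m,
    ‖s * e i - e i * s‖ ≤ 1 / (m + 1) ∧
      ‖(star s * s - (1 - star (D.c n) * D.c n - D.c n * star (D.c n))) * e i‖ ≤ 1 / (m + 1) ∧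
      ‖(star (D.c n) * D.c n * s - s) * e i‖ ≤ 1 / (m + 1) ∧
      ∀ j ≤ m, ‖(α (k j) s - s) * e i‖ ≤ 1 / (m + 1)
  let _ : Inhabited B := ⟨0⟩
  obtain ⟨s, hs1, hs⟩ := exists_diag Good
    (fun m n b ⟨h0, h⟩ => ⟨h0, fun i hi => by
      obtain ⟨a1, a2, a3, a4⟩ := h i (hi.trans m.le_succ)
      have hle : (1 : ℝ) / ((m + 1 : ℕ) + 1) ≤ 1 / (m + 1) := by
        push_cast; gcongr; linarith
      exact ⟨a1.trans hle, a2.trans hle, a3.trans hle,
        fun j hj => (a4 j (hj.trans m.le_succ)).trans hle⟩⟩)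
    (fun m => (main ((Finset.range (m + 1)).image e) (by simp [heA]) ((Finset.range (m + 1)).image k)
      (1 / (m + 1)) (by positivity)).mono fun n ⟨b, hb0, hb⟩ => ⟨b, hb0, fun i hi => by
        obtain ⟨a1, a2, a3, a4⟩ := hb (e i) (Finset.mem_image_of_mem e (by simp; omega))
        exact ⟨a1, a2, a3, fun j hj => a4 _ (Finset.mem_image_of_mem k (by simp; omega))⟩⟩)
  have hsn : ∀ n, ‖s n‖ ≤ 2 := fun n => (hs1 n).elim (fun h => by
    rw [h]; show ‖(0 : B)‖ ≤ 2; simp) fun ⟨_, h⟩ => h.1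
  -- from the dense sequence to all of `A`
  have ext : ∀ (L : ℕ → B → B) (R : ℝ), (∀ n a b, ‖L n a - L n b‖ ≤ R * ‖a - b‖) → 0 ≤ R →
      (∀ i, ∀ᶠ m : ℕ in atTop, ∀ᶠ n in atTop, ‖L n (e i)‖ ≤ 1 / ((m : ℝ) + 1)) →
      ∀ a ∈ A, Tendsto (fun n => ‖L n a‖) atTop (𝓝 0) := by
    intro L R hL hR hi a ha
    rw [Metric.tendsto_atTop]
    intro δ hδ
    obtain ⟨b, hb, hab⟩ := Metric.mem_closure_iff.1 (hC₀d ha) (δ / (2 * (R + 1))) (by positivity)
    obtain ⟨i, rfl⟩ : b ∈ Set.range e := he ▸ Set.mem_insert_of_mem _ hb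
    obtain ⟨m, hm1, hm2⟩ := ((hi i).and ((tendsto_one_div_add_atTop_nhds_zero_nat
      (𝕜 := ℝ)).eventually_lt_const (half_pos hδ))).exists
    obtain ⟨M, hM⟩ := eventually_atTop.1 hm1
    refine ⟨M, fun n hn => ?_⟩
    rw [dist_zero_right, norm_norm]
    rw [dist_eq_norm] at hab
    have h1' : R * ‖a - e i‖ ≤ δ / 2 := by
      calc R * ‖a - e i‖ ≤ (R + 1) * (δ / (2 * (R + 1))) :=
            mul_le_mul (by linarith) hab.le (norm_nonneg _) (by linarith)
        _ = δ / 2 := by field_simp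
    linarith [hM n hn, hL n a (e i), norm_le_insert' (L n a) (L n (e i))]
  have hev : ∀ i, ∀ᶠ m in atTop, ∀ᶠ n in atTop, Good m n (s n) ∧ i ≤ m :=
    fun i => (eventually_ge_atTop i).mono fun m hm => (hs m).mono fun n h => ⟨h, hm⟩
  have lipR : ∀ (y : B) (R : ℝ), ‖y‖ ≤ R → ∀ a b : B, ‖y * a - y * b‖ ≤ R * ‖a - b‖ :=
    fun y R hy a b => by
      rw [← mul_sub]; exact (norm_mul_le _ _).trans (by gcongr)
  have hc' : ∀ n, ‖star (D.c n) * D.c n‖ ≤ 1 := fun n => by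
    rw [CStarRing.norm_star_mul_self]; exact mul_le_one₀ (D.c_norm n) (norm_nonneg _) (D.c_norm n)
  have hc'' : ∀ n, ‖D.c n * star (D.c n)‖ ≤ 1 := fun n => by
    rw [CStarRing.norm_self_mul_star]; exact mul_le_one₀ (D.c_norm n) (norm_nonneg _) (D.c_norm n)
  refine ⟨D.c, s, D.c_norm, hsn, D.c_central, ?_, fun a ha => ⟨?_, ?_, ?_, fun g => ⟨?_, ?_⟩⟩⟩
  · exact ext (fun n a => s n * a - a * s n) 4 (fun n a b => by
      calc _ = ‖s n * (a - b) - (a - b) * s n‖ := by rw [mul_sub, sub_mul]; congr 1; abel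
        _ ≤ 2 * ‖a - b‖ + ‖a - b‖ * 2 := (norm_sub_le _ _).trans (add_le_add
            ((norm_mul_le _ _).trans (by gcongr; exact hsn n))
            ((norm_mul_le _ _).trans (by gcongr; exact hsn n)))
        _ = _ := by ring) (by norm_num)
      (fun i => (hev i).mono fun m h => h.mono fun n ⟨h, hi⟩ => (h.2 i hi).1)
  · refine squeeze_zero (fun _ => norm_nonneg _) (fun n => norm_mul_le _ _) ?_
    simpa using D.c_sq.mul_const ‖a‖
  · exact ext (fun n a => (star (s n) * s n - (1 - star (D.c n) * D.c n - D.c n * star (D.c n))) * a)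
      (4 + ‖(1 : B)‖ + 2) (fun n => lipR _ _ (by
        refine (norm_sub_le _ _).trans ?_
        rw [CStarRing.norm_star_mul_self]
        have := norm_sub_le (1 - star (D.c n) * D.c n) (D.c n * star (D.c n))
        have := norm_sub_le (1 : B) (star (D.c n) * D.c n)
        nlinarith [hsn n, norm_nonneg (s n), hc' n, hc'' n])) (by positivity)
      (fun i => (hev i).mono fun m h => h.mono fun n ⟨h, hi⟩ => (h.2 i hi).2.1) a ha
  · exact ext (fun n a => (star (D.c n) * D.c n * s n - s n) * a) 4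
      (fun n => lipR _ _ (by
        refine (norm_sub_le _ _).trans ?_
        have := (norm_mul_le (star (D.c n) * D.c n) (s n)).trans
          (mul_le_mul (hc' n) (hsn n) (norm_nonneg _) one_pos.le)
        linarith [hsn n])) (by norm_num)
      (fun i => (hev i).mono fun m h => h.mono fun n ⟨h, hi⟩ => (h.2 i hi).2.2.1) a ha
  · refine squeeze_zero (fun _ => norm_nonneg _) (fun n => norm_mul_le _ _) ?_
    simpa using (D.c_inv g).mul_const ‖a‖
  · obtain ⟨j, rfl⟩ := hk g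
    exact ext (fun n a => (α (k j) (s n) - s n) * a) 4
      (fun n => lipR _ _ (by
        refine (norm_sub_le _ _).trans ?_
        rw [StarAlgEquiv.norm_map]; linarith [hsn n])) (by norm_num)
      (fun i => ((hev i).and (eventually_ge_atTop j)).mono fun m ⟨h, hj⟩ =>
        h.mono fun n ⟨h, hi⟩ => (h.2 i hi).2.2.2 j hj) a ha

end Vale.Agent.P095.SI
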