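import Vale.Agent.P095.SI.Trace

/-! P095: strict comparison with a bound on the implementing element. -/

open Filter Topology
open scoped ComplexOrder ENNReal

namespace Vale.Agent.P095.SI

variable {B : Type*} [CStarAlgebra B] [PartialOrder B] [StarOrderedRing B]
  {A P : Submodule ℂ B} {d : B}

/-- The spectrum of `q* q` lies in `[0, 1]` for a contraction `q`. -/
theorem spectrum_gram {q : B} (hq : ‖q‖ ≤ 1) {t : ℝ} (ht : t ∈ spectrum ℝ (star q * q)) :
    0 ≤ t ∧ t ≤ 1 := by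
  refine ⟨spectrum_nonneg_of_nonneg (star_mul_self_nonneg q) ht, ?_⟩
  rcases subsingleton_or_nontrivial B with hB | hB
  · simp [spectrum.of_subsingleton] at ht
  refine (Real.le_norm_self t).trans ((spectrum.norm_le_norm_of_mem ht).trans ?_)
  rw [CStarRing.norm_star_mul_self]
  nlinarith [norm_nonneg q]

omit [PartialOrder B] [StarOrderedRing B] in
/-- Twisting `q* q` by a nonnegative function is taking the Gram element of another element. -/
theorem gram_mul_cfc {q : B} {θ : ℝ → ℝ} (hθ : Continuous θ)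
    (h0 : ∀ t ∈ spectrum ℝ (star q * q), 0 ≤ θ t) :
    star (q * cfc (fun t => Real.sqrt (θ t)) (star q * q)) *
        (q * cfc (fun t => Real.sqrt (θ t)) (star q * q)) =
      star q * q * cfc θ (star q * q) := by
  have hc : IsSelfAdjoint (star q * q) := IsSelfAdjoint.star_mul_self q
  set s := cfc (fun t => Real.sqrt (θ t)) (star q * q) with hs
  have hss : IsSelfAdjoint s := cfc_predicate _ _
  have hcomm : Commute s (star q * q) := (Commute.refl (star q * q)).cfc_real _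
  calc star (q * s) * (q * s) = s * (star q * q) * s := by
        rw [star_mul, hss.star_eq]; noncomm_ring
    _ = star q * q * (s * s) := by rw [hcomm.eq, mul_assoc]
    _ = _ := by
      congr 1
      rw [hs, ← cfc_mul _ _ _ (by fun_prop) (by fun_prop)]
      exact cfc_congr fun t ht => Real.mul_self_sqrt (h0 t ht)

/-- `t * cutWeight η k t = min (1, k (t - η)₊)` for nonnegative `t`. -/
noncomputable def cutWeight (η : ℝ) (k : ℕ) (t : ℝ) : ℝ :=
  max 0 (t - η) / max t η * ((k : ℝ) / max 1 (k * max 0 (t - η)))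

theorem continuous_cutWeight {η : ℝ} (hη : 0 < η) (k : ℕ) : Continuous (cutWeight η k) :=
  ((by fun_prop : Continuous fun t : ℝ => max 0 (t - η)).div (by fun_prop)
    fun _ => (lt_of_lt_of_le hη (le_max_right _ _)).ne').mul
    (continuous_const.div (by fun_prop) fun _ => (lt_of_lt_of_le one_pos (le_max_left _ _)).ne')

theorem mul_cut {η : ℝ} (hη : 0 < η) (t : ℝ) :
    t * (max 0 (t - η) / max t η) = max 0 (t - η) := by
  rcases le_total η t with h | h
  · rw [max_eq_left h, mul_comm, div_mul_cancel₀ _ (hη.trans_le h).ne']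
  · rw [max_eq_left (sub_nonpos.2 h), zero_div, mul_zero]

theorem mul_cutWeight {η : ℝ} (hη : 0 < η) (k : ℕ) (t : ℝ) :
    t * cutWeight η k t =
      max 0 (t - η) * ((k : ℝ) / max 1 (k * max 0 (t - η))) := by
  rw [cutWeight, ← mul_assoc, mul_cut hη]

theorem cutWeight_nonneg {η : ℝ} (hη : 0 < η) (k : ℕ) (t : ℝ) : 0 ≤ cutWeight η k t :=
  mul_nonneg (div_nonneg (le_max_left _ _) (hη.le.trans (le_max_right _ _)))
    (div_nonneg (Nat.cast_nonneg _) (zero_le_one.trans (le_max_left _ _)))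

theorem cutWeight_le {η : ℝ} (hη : 0 < η) (k : ℕ) {t : ℝ} : cutWeight η k t ≤ 1 / η := by
  have hu := le_max_left 0 (t - η)
  have h2 : max 0 (t - η) * ((k : ℝ) / max 1 (k * max 0 (t - η))) ≤ 1 := by
    rw [← mul_div_assoc, div_le_one (lt_of_lt_of_le one_pos (le_max_left _ _)), mul_comm]
    exact le_max_right _ _
  rw [cutWeight, div_mul_eq_mul_div]
  exact div_le_div₀ zero_le_one h2 hη (le_max_right _ _)

theorem mul_max_sub_cutWeight_le {δ : ℝ} (hδ : 0 < δ) {k : ℕ} (hk : 0 < k) {t : ℝ} (ht0 : 0 ≤ t)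
    (ht : t ≤ 1) : t * max 0 (1 - cutWeight δ k t) ≤ δ + 1 / k := by
  have hk' : (0 : ℝ) < k := Nat.cast_pos.2 hk
  have hk1 : 0 < 1 / (k : ℝ) := by positivity
  rw [mul_max_of_nonneg _ _ ht0, mul_zero, mul_sub, mul_one, mul_cutWeight hδ]
  refine max_le (by linarith) ?_
  rcases le_total 1 ((k : ℝ) * max 0 (t - δ)) with h | h
  · rw [max_eq_right h, ← mul_div_assoc, mul_comm, div_self (by linarith)]
    linarith
  · rw [max_eq_left h, div_one]
    have h1 : max 0 (t - δ) ≤ 1 / k := by rw [le_div_iff₀ hk']; linarith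
    have := le_max_right 0 (t - δ)
    have := mul_nonneg (le_max_left 0 (t - δ)) hk'.le
    linarith

omit [PartialOrder B] [StarOrderedRing B] in
theorem mem_gram (hP : IsBimod P) {q : B} (hq : q ∈ P) (b : B) : star q * q * b ∈ P :=
  (hP b _ (hP (star q) q hq).1).2

omit [PartialOrder B] [StarOrderedRing B] in
theorem tip_eq_apply (τ : P →ₗ[ℂ] ℂ) {p q x : B} (hx : x ∈ P) (e : star p * q = x) :
    tip P τ p q = τ ⟨x, hx⟩ := by
  subst e
  exact dif_pos hx

/-- The trace of `q* q` twisted by a function. -/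
noncomputable def wTr (P : Submodule ℂ B) (τ : P →ₗ[ℂ] ℂ) (q : B) (θ : ℝ → ℝ) : ℝ :=
  (tip P τ q (q * cfc θ (star q * q))).re

section wTr

variable (S : Setup P A d) {τ : P →ₗ[ℂ] ℂ} (hτ : IsNormTrace P d τ) {q : B} (hq : q ∈ P)

include S hq

omit [StarOrderedRing B] in
theorem wTr_eq (θ : ℝ → ℝ) :
    wTr P τ q θ = (τ ⟨_, mem_gram S.bimod hq (cfc θ (star q * q))⟩).re := by
  rw [wTr, tip_eq_apply τ _ (mul_assoc _ _ _).symm]

omit [StarOrderedRing B] in
theorem wTr_sub {θ θ' : ℝ → ℝ} (hθ : Continuous θ) (hθ' : Continuous θ') :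
    wTr P τ q (fun t => θ t - θ' t) = wTr P τ q θ - wTr P τ q θ' := by
  rw [wTr_eq S hq, wTr_eq S hq, wTr_eq S hq, ← Complex.sub_re, ← map_sub]
  refine congrArg (fun x => (τ x).re) (Subtype.ext ?_)
  change _ = star q * q * cfc θ _ - star q * q * cfc θ' _
  rw [← mul_sub, ← cfc_sub _ _ _ hθ.continuousOn hθ'.continuousOn]

include hτ

theorem wTr_eq_sq {θ : ℝ → ℝ} (hθ : Continuous θ)
    (h0 : ∀ t ∈ spectrum ℝ (star q * q), 0 ≤ θ t) :
    wTr P τ q θ = tn P τ (q * cfc (fun t => Real.sqrt (θ t)) (star q * q)) ^ 2 := by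
  set s := cfc (fun t => Real.sqrt (θ t)) (star q * q)
  have h := congrArg Complex.re (tn_sq_eq S.bimod S.star_mem hτ.1 ((S.bimod s q hq).2))
  rw [← Complex.ofReal_pow, Complex.ofReal_re] at h
  rw [h, wTr_eq S hq]
  rw [tip_eq_apply τ _ (gram_mul_cfc hθ h0)]

theorem wTr_mono {θ θ' : ℝ → ℝ} (hθ : Continuous θ) (hθ' : Continuous θ')
    (h : ∀ t ∈ spectrum ℝ (star q * q), θ t ≤ θ' t) : wTr P τ q θ ≤ wTr P τ q θ' := by
  rw [← sub_nonneg, ← wTr_sub S hq hθ' hθ,
    wTr_eq_sq S hτ hq (θ := fun t => θ' t - θ t) (hθ'.sub hθ) fun t ht => sub_nonneg.2 (h t ht)]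
  exact sq_nonneg _

theorem wTr_const {a : ℝ} : wTr P τ q (fun _ => a) = a * tn P τ q ^ 2 := by
  have h := congrArg Complex.re (tn_sq_eq S.bimod S.star_mem hτ.1 hq)
  rw [← Complex.ofReal_pow, Complex.ofReal_re] at h
  rw [h, wTr_eq S hq, tip_eq_apply τ (S.bimod (star q) q hq).1 rfl, ← Complex.re_ofReal_mul,
    ← smul_eq_mul (a : ℂ), ← map_smul]
  refine congrArg (fun x => (τ x).re) (Subtype.ext ?_)
  change star q * q * cfc (fun _ => a) _ = (a : ℂ) • (star q * q)
  rw [cfc_const a _, Algebra.algebraMap_eq_smul_one, mul_smul_comm, mul_one, Complex.coe_smul]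

omit [StarOrderedRing B] hτ in
theorem dimTr_cut_eq {η : ℝ} (hη : 0 < η) :
    dimTr P τ (cfc (fun t => max 0 (t - η)) (star q * q)) =
      ⨆ k : ℕ, ENNReal.ofReal (wTr P τ q (cutWeight η k)) := by
  have hc : IsSelfAdjoint (star q * q) := IsSelfAdjoint.star_mul_self q
  refine iSup_congr fun k => ?_
  have hh : Continuous fun t : ℝ => (k : ℝ) / max 1 (k * t) :=
    continuous_const.div (by fun_prop) fun _ => (lt_of_lt_of_le one_pos (le_max_left _ _)).ne'
  have e : cfc (fun t => max 0 (t - η)) (star q * q) *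
      cfc (fun t : ℝ => (k : ℝ) / max 1 (k * t)) (cfc (fun t => max 0 (t - η)) (star q * q)) =
      star q * q * cfc (cutWeight η k) (star q * q) := by
    rw [← cfc_comp' (fun t : ℝ => (k : ℝ) / max 1 (k * t)) (fun t => max 0 (t - η)) _
      hh.continuousOn (by fun_prop),
      ← cfc_mul (fun t => max 0 (t - η)) (fun t => (k : ℝ) / max 1 (k * max 0 (t - η))) _
        (by fun_prop)
        (hh.comp (by fun_prop : Continuous fun t : ℝ => max 0 (t - η))).continuousOn]
    nth_rw 2 [← cfc_id' ℝ (star q * q)]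
    rw [← cfc_mul _ _ _ (by fun_prop) (continuous_cutWeight hη k).continuousOn]
    exact cfc_congr fun t _ => (mul_cutWeight hη k t).symm
  have hm := mem_gram S.bimod hq (cfc (cutWeight η k) (star q * q))
  rw [← e] at hm
  rw [dif_pos hm, wTr_eq S hq]
  exact congrArg (fun x => ENNReal.ofReal (τ x).re) (Subtype.ext e)

theorem dimTr_cut_le {η : ℝ} (hη : 0 < η) :
    dimTr P τ (cfc (fun t => max 0 (t - η)) (star q * q)) ≤
      ENNReal.ofReal (tn P τ q ^ 2 / η) := by
  rw [dimTr_cut_eq S hq hη]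
  refine iSup_le fun k => ENNReal.ofReal_le_ofReal ?_
  refine (wTr_mono S hτ hq (continuous_cutWeight hη k) continuous_const
    fun t _ => cutWeight_le hη k).trans_eq ?_
  rw [wTr_const S hτ hq, one_div, inv_mul_eq_div]

theorem le_dimTr_cut (hqn : ‖q‖ ≤ 1) (hd : d * q = q) {δ : ℝ} (hδ : 0 < δ) :
    ENNReal.ofReal (tn P τ q ^ 2 - δ) ≤
      dimTr P τ (cfc (fun t => max 0 (t - δ)) (star q * q)) := by
  rw [dimTr_cut_eq S hq hδ]
  refine le_of_tendsto' (ENNReal.tendsto_ofReal ((tendsto_const_nhds.sub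
    (tendsto_one_div_add_atTop_nhds_zero_nat (𝕜 := ℝ))).trans (by rw [sub_zero]))) fun k => ?_
  refine le_iSup_of_le (k + 1) (ENNReal.ofReal_le_ofReal ?_)
  set ψ := cutWeight δ (k + 1)
  have hψ : Continuous ψ := continuous_cutWeight hδ _
  have hθ : Continuous fun t => max 0 (1 - ψ t) := by fun_prop
  have h1 : wTr P τ q (fun _ => 1) - wTr P τ q ψ ≤ wTr P τ q fun t => max 0 (1 - ψ t) :=
    (wTr_sub S hq continuous_const hψ).symm.trans_le
      (wTr_mono S hτ hq (by fun_prop) hθ fun t _ => le_max_right _ _)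
  rw [wTr_const S hτ hq, one_mul, wTr_eq_sq S hτ hq hθ fun t _ => le_max_left _ _] at h1
  set X := q * cfc (fun t => Real.sqrt (max 0 (1 - ψ t))) (star q * q) with hX
  have hbound : ‖X‖ ^ 2 ≤ δ + 1 / (k + 1) := by
    rw [sq, ← CStarRing.norm_star_mul_self, hX, gram_mul_cfc hθ fun t _ => le_max_left _ _]
    nth_rw 1 [← cfc_id' ℝ (star q * q)]
    rw [← cfc_mul _ _ _ (by fun_prop) hθ.continuousOn]
    refine norm_cfc_le (by positivity) fun t ht => ?_
    obtain ⟨ht0, ht1⟩ := spectrum_gram hqn ht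
    rw [Real.norm_of_nonneg (mul_nonneg ht0 (le_max_left _ _))]
    exact (mul_max_sub_cutWeight_le hδ k.succ_pos ht0 ht1).trans_eq (by push_cast; rfl)
  have hXd : tn P τ X ≤ ‖X‖ := by
    have := tn_mul_right S.bimod S.star_mem hτ.1 X S.d_mem
    rwa [show d * X = X by rw [hX, ← mul_assoc, hd], tn_d S hτ, one_mul] at this
  have := pow_le_pow_left₀ (tn_nonneg X) hXd 2
  linarith

end wTr

/-- `q₁* q₁` is below `q₂* q₂` up to `η`, with a bounded element, when the traces say so. -/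
theorem exists_compare (S : Setup P A d) (hcomp : StrictComp P d) {q₁ q₂ : B} (h₁ : q₁ ∈ P)
    (h₂ : q₂ ∈ P) (hn₁ : ‖q₁‖ ≤ 1) (hn₂ : ‖q₂‖ ≤ 1) (hd : d * q₂ = q₂) {η δ : ℝ} (hη : 0 < η)
    (hη1 : η ≤ 1) (hδ : 0 < δ)
    (hlt : ∀ τ, IsNormTrace P d τ → tn P τ q₁ ^ 2 / η < tn P τ q₂ ^ 2 - δ) :
    ∃ r : B, ‖star r * (star q₂ * q₂) * r - star q₁ * q₁‖ ≤ 2 * η ∧
      ‖r‖ ≤ 2 / Real.sqrt δ := by
  have hmem : ∀ (q : B), q ∈ P → ∀ e : ℝ, 0 < e →
      cfc (fun t => max 0 (t - e)) (star q * q) ∈ P := fun q hq e he => by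
    have hg : Continuous fun t : ℝ => max 0 (t - e) / max t e :=
      (by fun_prop : Continuous fun t : ℝ => max 0 (t - e)).div (by fun_prop)
        fun _ => (lt_of_lt_of_le he (le_max_right _ _)).ne'
    have := mem_gram S.bimod hq (cfc (fun t : ℝ => max 0 (t - e) / max t e) (star q * q))
    nth_rw 1 [← cfc_id' ℝ (star q * q) (IsSelfAdjoint.star_mul_self q)] at this
    rwa [← cfc_mul _ _ _ (by fun_prop) hg.continuousOn,
      cfc_congr fun t _ => mul_cut he t] at this
  have hnorm : ∀ (q : B), ‖q‖ ≤ 1 → ∀ e : ℝ, 0 < e →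
      ‖cfc (fun t => max 0 (t - e)) (star q * q)‖ ≤ 1 := fun q hq e he =>
    norm_cfc_le zero_le_one fun t ht => by
      rw [Real.norm_of_nonneg (le_max_left _ _)]
      exact max_le zero_le_one (by linarith [(spectrum_gram hq ht).2])
  set a' := cfc (fun t => max 0 (t - η)) (star q₁ * q₁) with ha'
  set b' := cfc (fun t => max 0 (t - δ)) (star q₂ * q₂) with hb'
  obtain ⟨r₀, hr₀⟩ := hcomp a' b' (hmem q₁ h₁ η hη) (hmem q₂ h₂ δ hδ)
    (cfc_nonneg fun t _ => le_max_left _ _) (hnorm q₁ hn₁ η hη)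
    (cfc_nonneg fun t _ => le_max_left _ _) (hnorm q₂ hn₂ δ hδ)
    (fun τ hτ => ((dimTr_cut_le S hτ h₁ hη).trans_lt
      ((ENNReal.ofReal_lt_ofReal_iff_of_nonneg (by positivity)).2 (hlt τ hτ))).trans_le
        (le_dimTr_cut S hτ h₂ hn₂ hd hδ)) η hη
  set h : ℝ → ℝ := fun t => (Real.sqrt (max t δ))⁻¹ with hh
  have hmd : ∀ t, 0 < max t δ := fun t => lt_of_lt_of_le hδ (le_max_right _ _)
  have hhc : Continuous h :=
    (by fun_prop : Continuous fun t : ℝ => Real.sqrt (max t δ)).inv₀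
      fun t => (Real.sqrt_pos.2 (hmd t)).ne'
  set s : ℝ → ℝ := fun t => Real.sqrt (max 0 (t - δ)) with hs
  have hsc : Continuous s := by fun_prop
  set c := star q₂ * q₂ with hc
  have hca : IsSelfAdjoint c := IsSelfAdjoint.star_mul_self q₂
  refine ⟨cfc h c * (cfc s c * r₀), ?_, ?_⟩
  · have e : star (cfc h c * (cfc s c * r₀)) * c * (cfc h c * (cfc s c * r₀)) =
        star r₀ * b' * r₀ := by
      rw [star_mul, star_mul, (cfc_predicate h c).star_eq, (cfc_predicate s c).star_eq]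
      have e2 : cfc s c * (cfc h c * c * cfc h c) * cfc s c = b' := by
        nth_rw 3 [← cfc_id' ℝ c]
        rw [← cfc_mul h (fun x => x) c hhc.continuousOn (by fun_prop),
          ← cfc_mul _ h c (by fun_prop) hhc.continuousOn,
          ← cfc_mul s _ c hsc.continuousOn (by fun_prop),
          ← cfc_mul _ s c (by fun_prop) hsc.continuousOn]
        refine cfc_congr fun t _ => ?_
        simp only [hs, hh]
        calc _ = (Real.sqrt (max 0 (t - δ)) * Real.sqrt (max 0 (t - δ))) * t /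
              (Real.sqrt (max t δ) * Real.sqrt (max t δ)) := by field_simp
          _ = max 0 (t - δ) := by
            rw [Real.mul_self_sqrt (le_max_left _ _), Real.mul_self_sqrt (hmd t).le]
            rw [mul_comm _ t, mul_div_assoc, mul_cut hδ]
      rw [← e2]
      noncomm_ring
    rw [e]
    have hdiff : ‖a' - star q₁ * q₁‖ ≤ η := by
      rw [ha']
      nth_rw 2 [← cfc_id' ℝ (star q₁ * q₁)]
      rw [← cfc_sub _ _ _ (by fun_prop) (by fun_prop)]
      refine norm_cfc_le hη.le fun t ht => ?_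
      rw [Real.norm_eq_abs, abs_le]
      have := (spectrum_gram hn₁ ht).1
      rcases le_total t η with h | h
      · rw [max_eq_left (sub_nonpos.2 h)]; constructor <;> linarith
      · rw [max_eq_right (sub_nonneg.2 h)]; constructor <;> linarith
    calc _ ≤ ‖star r₀ * b' * r₀ - a'‖ + ‖a' - star q₁ * q₁‖ := norm_sub_le_norm_sub_add_norm_sub ..
      _ ≤ 2 * η := by linarith
  · have h1 : ‖cfc h c‖ ≤ (Real.sqrt δ)⁻¹ := norm_cfc_le (by positivity) fun t _ => by
      rw [Real.norm_of_nonneg (inv_nonneg.2 (Real.sqrt_nonneg _))]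
      exact inv_anti₀ (Real.sqrt_pos.2 hδ) (Real.sqrt_le_sqrt (le_max_right _ _))
    have h2 : ‖cfc s c * r₀‖ ≤ 2 := by
      have e : star (cfc s c * r₀) * (cfc s c * r₀) = star r₀ * b' * r₀ := by
        rw [star_mul, (cfc_predicate s c).star_eq, mul_assoc, ← mul_assoc (cfc s c),
          ← cfc_mul s s c hsc.continuousOn hsc.continuousOn, ← mul_assoc,
          cfc_congr fun t _ => show s t * s t = max 0 (t - δ) from
            Real.mul_self_sqrt (le_max_left _ _)]
      have hn := CStarRing.norm_star_mul_self (x := cfc s c * r₀)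
      rw [e] at hn
      have := hnorm q₁ hn₁ η hη
      have := norm_le_norm_add_norm_sub' (star r₀ * b' * r₀) a'
      nlinarith [norm_nonneg (cfc s c * r₀)]
    calc _ ≤ ‖cfc h c‖ * ‖cfc s c * r₀‖ := norm_mul_le _ _
      _ ≤ (Real.sqrt δ)⁻¹ * 2 := by gcongr
      _ = _ := by rw [div_eq_mul_inv, mul_comm]

end Vale.Agent.P095.SI
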