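import Vale.Agent.P095.SI.Kernel.Cut

/-!
P095: an automorphism that moves some central sequence of a simple ideal moves positive elements
away from themselves below every element, and orthogonal families exist below every element.
-/

open Filter Topology
open scoped ComplexOrder

namespace Vale.Agent.P095.SI

variable {B : Type*} [CStarAlgebra B] [PartialOrder B] [StarOrderedRing B]
  [TopologicalSpace.SeparableSpace B] {A : Submodule ℂ B}

/-- If `σ` is nontrivial on central sequences, it moves elements away from themselves. -/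
theorem orthFor_of_not_trivOn (hA : IsSimpleIdeal A) (σ : B ≃⋆ₐ[ℂ] B)
    (hσ : ∀ a ∈ A, σ a ∈ A ∧ σ.symm a ∈ A) (h : ¬ TrivOn A σ) : OrthFor A σ := by
  obtain ⟨ω, hω, z, hzC, hz, c, hc, hzc⟩ := Ker.exists_moved_positive hA σ hσ h
  obtain ⟨g, hgC, hg, L, hL, ρ, hρ0, hρ1, hgL, M, hM, hgM⟩ :=
    Ker.exists_shrunk hA σ hσ hω hzC hz hc hzc
  intro e he _ _ hne x ε hε
  set ρ' := (ρ + 1) / 2 with hρ'
  have hρρ : ρ < ρ' := by rw [hρ']; linarith
  have hρ'0 : 0 < ρ' := hρ0.trans_lt hρρ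
  have key : ∀ j : ℕ, ∃ z, e * z = z ∧ 0 ≤ z ∧ ‖z‖ = 1 ∧
      ‖z * x * σ z‖ ≤ ρ' ^ j * (‖x‖ + 1) := by
    intro j
    induction j with
    | zero =>
      obtain ⟨z, h1, h2, h3⟩ := Ker.exists_start hne
      refine ⟨z, h1, h2, h3, ?_⟩
      calc ‖z * x * σ z‖ ≤ ‖z‖ * ‖x‖ * ‖σ z‖ :=
            (norm_mul_le _ _).trans (mul_le_mul_of_nonneg_right (norm_mul_le _ _) (norm_nonneg _))
        _ ≤ _ := by rw [StarAlgEquiv.norm_map, h3]; simp
    | succ j ih =>
      obtain ⟨z, h1, h2, h3, h4⟩ := ih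
      obtain ⟨z', g1, g2, g3, g4⟩ := Ker.shrink_step hA σ hσ hω hgC hg hL hρ0 hρρ hM hgL hgM he
        (by positivity) h1 h2 h3 h4
      exact ⟨z', g1, g2, g3, g4.trans_eq (by ring)⟩
  obtain ⟨j, hj⟩ := exists_pow_lt_of_lt_one (show (0 : ℝ) < ε / (‖x‖ + 1) by positivity)
    (show ρ' < 1 by rw [hρ']; linarith)
  obtain ⟨z, h1, h2, h3, h4⟩ := key j
  rw [lt_div_iff₀ (by positivity)] at hj
  exact ⟨z, h1, h2, h3, h4.trans hj.le⟩

/-- A central sequence `c` with `c² → 0` which is nonzero against `A` gives almost orthogonal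
families below every element. -/
theorem exists_orth_family (hA : IsSimpleIdeal A) {c : ℕ → B} (hc1 : ∀ n, ‖c n‖ ≤ 1)
    (hc : CentralTo A c) (hc2 : Tendsto (fun n => ‖c n * c n‖) atTop (𝓝 0))
    (hne : ∃ a ∈ A, ¬ Tendsto (fun n => ‖c n * a‖) atTop (𝓝 0))
    {e : B} (he : e ∈ A) (he0 : 0 ≤ e) (he1 : ‖e‖ ≤ 1) (hne' : Nondeg e) (T : ℕ) {η : ℝ}
    (hη : 0 < η) :
    ∃ z : Fin T → B, (∀ t, e * z t = z t ∧ ‖z t‖ = 1) ∧
      ∀ s t, s ≠ t → ‖star (z s) * z t‖ ≤ η := by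
  obtain ⟨a, ha, hna⟩ := hne
  obtain ⟨ε, hε, hfr⟩ : ∃ ε > (0 : ℝ), ∃ᶠ n in atTop, ε ≤ ‖c n * a‖ := by
    by_contra hcon
    push Not at hcon
    refine hna (Metric.tendsto_nhds.2 fun ε hε => ?_)
    simpa [Real.dist_eq, abs_of_nonneg] using hcon ε hε
  obtain ⟨ω, hωle⟩ : ∃ ω : Ultrafilter ℕ, (↑ω : Filter ℕ) ≤ atTop ⊓ 𝓟 {n | ε ≤ ‖c n * a‖} :=
    haveI := frequently_iff_neBot.1 hfr
    ⟨Ultrafilter.of _, Ultrafilter.of_le _⟩
  have hω : (↑ω : Filter ℕ) ≤ atTop := hωle.trans inf_le_left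
  obtain ⟨L, hL⟩ := Ker.exists_hasN hA hω hc1 hc
  have hL0 : 0 < L := hL.pos_of_not_tendsto hA ha hε
    (le_principal_iff.1 (hωle.trans inf_le_right))
  have hcs : CentralTo A fun n => Star.star (c n) := CentralTo.star hA hc
  have hN1 := hL.star_mul_self hA hω hc1 hc
  have hN2 : Ker.HasN ω A (fun n => c n * Star.star (c n)) (L ^ 2) := by
    have := (hL.star hA hω hc1 hc).star_mul_self hA hω (Ker.bounded_star hc1) hcs
    simpa only [star_star] using this
  have hb : ∀ n, ‖Star.star (c n) * c n‖ ≤ 1 ∧ ‖c n * Star.star (c n)‖ ≤ 1 := fun n => by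
    rw [CStarRing.norm_star_mul_self, CStarRing.norm_self_mul_star]
    exact ⟨mul_le_one₀ (hc1 n) (norm_nonneg _) (hc1 n),
      mul_le_one₀ (hc1 n) (norm_nonneg _) (hc1 n)⟩
  have h12 : Tendsto (fun n => ‖Star.star (c n) * c n * (c n * Star.star (c n))‖)
      (↑ω : Filter ℕ) (𝓝 0) := by
    refine squeeze_zero (fun n => norm_nonneg _) (fun n => ?_) (hc2.mono_left hω)
    rw [show Star.star (c n) * c n * (c n * Star.star (c n)) =
      Star.star (c n) * (c n * c n) * Star.star (c n) by noncomm_ring]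
    refine (norm_mul_le _ _).trans ((mul_le_of_le_one_right (norm_nonneg _)
      ((norm_star _).trans_le (hc1 n))).trans ?_)
    exact (norm_mul_le _ _).trans
      (mul_le_of_le_one_left (norm_nonneg _) ((norm_star _).trans_le (hc1 n)))
  have key : ∀ (T : ℕ) (η : ℝ), 0 < η → ∃ z : Fin (T + 1) → B,
      (∀ t, e * z t = z t ∧ 0 ≤ z t ∧ ‖z t‖ = 1) ∧ ∀ s t, s ≠ t → ‖z s * z t‖ ≤ η := by
    intro T
    induction T with
    | zero =>
      intro η _
      obtain ⟨z, hz⟩ := Ker.exists_start hne'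
      exact ⟨fun _ => z, fun _ => hz, fun s t hst =>
        absurd (Subsingleton.elim (α := Fin 1) s t) hst⟩
    | succ T ih =>
      intro η hη
      obtain ⟨z, hz, hzz⟩ := ih (η / 2) (half_pos hη)
      exact Ker.split_family hA hω (CentralTo.mul (Ker.bounded_star hc1) hc1 hcs hc)
        (CentralTo.mul hc1 (Ker.bounded_star hc1) hc hcs)
        (fun n => ⟨star_mul_self_nonneg _, (hb n).1⟩) (fun n => ⟨mul_star_self_nonneg _, (hb n).2⟩)
        h12 (pow_pos hL0 2) hN1 hN2 he z hz (half_lt_self hη) hη hzz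
  obtain ⟨z, hz, hzz⟩ := key T η hη
  refine ⟨fun t => z t.castSucc, fun t => ⟨(hz _).1, (hz _).2.2⟩, fun s t hst => ?_⟩
  rw [(IsSelfAdjoint.of_nonneg (hz s.castSucc).2.1).star_eq]
  exact hzz _ _ fun h => hst (Fin.castSucc_injective _ h)

end Vale.Agent.P095.SI
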