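import Vale.Agent.P095.SI.Trace

/-! P095: the defect and the large part of a lifted matrix unit. -/

open Filter Topology
open scoped ComplexOrder

namespace Vale.Agent.P095.SI

variable {B : Type*} [CStarAlgebra B] [PartialOrder B] [StarOrderedRing B]
  {A P : Submodule ℂ B} {d : B}

/-- The data consumed by the comparison argument. -/
structure Prep (P A : Submodule ℂ B) (d : B) {G : Type*} (α : G → B ≃⋆ₐ[ℂ] B) where
  c : ℕ → B
  e : ℕ → B
  f : ℕ → B
  c_norm : ∀ n, ‖c n‖ ≤ 1
  c_central : CentralTo A c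
  c_sq : Tendsto (fun n => ‖c n * c n‖) atTop (𝓝 0)
  c_inv : ∀ g, Tendsto (fun n => ‖α g (c n) - c n‖) atTop (𝓝 0)
  e_nonneg : ∀ n, 0 ≤ e n
  e_norm : ∀ n, ‖e n‖ ≤ 1
  e_central : CentralTo A e
  e_eq : Tendsto (fun n => ‖e n - (1 - star (c n) * c n - c n * star (c n))‖) atTop (𝓝 0)
  e_small : Small P d e
  f_nonneg : ∀ n, 0 ≤ f n
  f_norm : ∀ n, ‖f n‖ ≤ 1
  f_central : CentralTo A f
  f_unit : Tendsto (fun n => ‖star (c n) * c n * f n - f n‖) atTop (𝓝 0)
  f_large : ∃ γ > (0 : ℝ), ∀ᶠ n in atTop, ∀ τ, IsNormTrace P d τ → γ ≤ tn P τ (f n * d)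


/-- The normalising factor, `min √2 (1/√t)`. -/
private noncomputable def kf (t : ℝ) : ℝ := (Real.sqrt (max t (1/2)))⁻¹

private noncomputable def rf (t : ℝ) : ℝ := (max t (1 - t))⁻¹

private noncomputable def gf (t : ℝ) : ℝ := max 0 (2 * t - 1)

private noncomputable def mf (t : ℝ) : ℝ := (kf t - kf 0) * (max t (1/2))⁻¹

private theorem continuous_kf : Continuous kf := by
  unfold kf
  refine Continuous.inv₀ (by fun_prop) fun t => ?_
  have : (0 : ℝ) < max t (1/2) := lt_of_lt_of_le (by norm_num) (le_max_right _ _)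
  positivity

private theorem continuous_rf : Continuous rf := by
  unfold rf
  refine Continuous.inv₀ (by fun_prop) fun t => ?_
  rcases le_total t (1/2) with h | h
  · exact (lt_of_lt_of_le (by linarith : (0:ℝ) < 1 - t) (le_max_right _ _)).ne'
  · exact (lt_of_lt_of_le (by linarith : (0:ℝ) < t) (le_max_left _ _)).ne'

private theorem continuous_mf : Continuous mf := by
  unfold mf
  refine (continuous_kf.sub continuous_const).mul (Continuous.inv₀ (by fun_prop) fun t => ?_)
  exact (lt_of_lt_of_le (by norm_num : (0:ℝ) < 1/2) (le_max_right _ _)).ne'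

private theorem kf_sq (t : ℝ) : kf t * kf t = (max t (1/2))⁻¹ := by
  rw [kf, ← mul_inv, Real.mul_self_sqrt]
  exact (lt_of_lt_of_le (by norm_num : (0:ℝ) < 1/2) (le_max_right _ _)).le

private theorem kf_bounds (t : ℝ) : 0 ≤ kf t ∧ kf t ≤ 2 := by
  have h0 : 0 ≤ kf t := by rw [kf]; positivity
  refine ⟨h0, ?_⟩
  have h := kf_sq t
  have : (max t (1/2))⁻¹ ≤ (2 : ℝ) := by
    rw [inv_le_comm₀ (lt_of_lt_of_le (by norm_num) (le_max_right _ _)) (by norm_num)]
    exact le_trans (by norm_num) (le_max_right _ _)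
  nlinarith

private theorem mf_bound (t : ℝ) : |mf t| ≤ 4 := by
  rw [mf, abs_mul]
  have h1 : |kf t - kf 0| ≤ 2 := by
    rw [abs_le]; constructor <;> linarith [kf_bounds t, kf_bounds 0]
  have h2 : |(max t (1/2))⁻¹| ≤ 2 := by
    have h := lt_of_lt_of_le (by norm_num : (0:ℝ) < 1/2) (le_max_right t (1/2))
    rw [abs_of_pos (inv_pos.2 h), inv_le_comm₀ h (by norm_num)]
    exact le_trans (by norm_num) (le_max_right _ _)
  calc |kf t - kf 0| * |(max t (1/2))⁻¹| ≤ 2 * 2 := by gcongr
    _ = 4 := by norm_num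

private theorem rf_bound (t : ℝ) : |rf t| ≤ 2 := by
  have h : (1:ℝ)/2 ≤ max t (1 - t) := by
    rcases le_total t (1/2) with h | h
    · exact le_trans (by linarith) (le_max_right _ _)
    · exact le_trans h (le_max_left _ _)
  rw [rf, abs_of_pos (inv_pos.2 (by linarith)), inv_le_comm₀ (by linarith) (by norm_num)]
  linarith

private theorem mf_eq (t : ℝ) : mf t * t = kf t - kf 0 := by
  rcases le_total t (1/2) with h | h
  · have : kf t = kf 0 := by
      unfold kf; rw [max_eq_right h, max_eq_right (by norm_num : (0:ℝ) ≤ 1/2)]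
    simp [mf, this]
  · have : t ≠ 0 := by linarith
    rw [mf, max_eq_left h]
    field_simp

private theorem kf_sq_sub (t : ℝ) : kf t * kf t - 1 = rf t * (1 - t) := by
  rw [kf_sq, rf]
  rcases le_total t (1/2) with h | h
  · have : 1 - t ≠ 0 := by linarith
    rw [max_eq_right h, max_eq_right (by linarith)]
    field_simp
    ring
  · have : t ≠ 0 := by linarith
    rw [max_eq_left h, max_eq_left (by linarith)]
    field_simp

private theorem gf_sub (t : ℝ) : gf t - t = -(rf t * (t - t * t)) := by
  rcases le_total t (1/2) with h | h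
  · have : 1 - t ≠ 0 := by linarith
    rw [gf, rf, max_eq_left (by linarith : 2 * t - 1 ≤ 0), max_eq_right (by linarith : t ≤ 1 - t)]
    field_simp
    ring
  · have : t ≠ 0 := by linarith
    rw [gf, rf, max_eq_right (by linarith : 0 ≤ 2 * t - 1), max_eq_left (by linarith : 1 - t ≤ t)]
    field_simp
    ring

private theorem kf_mul_gf (t : ℝ) : kf t * kf t * t * gf t = gf t := by
  rw [kf_sq]
  rcases le_total t (1/2) with h | h
  · rw [gf, max_eq_left (by linarith : 2 * t - 1 ≤ 0)]; simp
  · have : t ≠ 0 := by linarith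
    rw [max_eq_left h]
    field_simp

section Element

variable {c : B}

private theorem spectrum_Icc (hc : ‖c‖ ≤ 1) {t : ℝ} (ht : t ∈ spectrum ℝ (star c * c)) :
    0 ≤ t ∧ t ≤ 1 := by
  have h0 : 0 ≤ t := spectrum_nonneg_of_nonneg (star_mul_self_nonneg c) ht
  have h := norm_apply_le_norm_cfc (fun x : ℝ => x) (star c * c) ht
  rw [cfc_id' ℝ (star c * c), CStarRing.norm_star_mul_self, Real.norm_eq_abs, abs_of_nonneg h0] at h
  exact ⟨h0, h.trans (mul_le_one₀ hc (norm_nonneg _) hc)⟩

omit [PartialOrder B] [StarOrderedRing B] in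
private theorem norm_k (x : B) : ‖cfc kf x‖ ≤ 2 :=
  norm_cfc_le (by norm_num) fun t _ => by
    rw [Real.norm_eq_abs, abs_of_nonneg (kf_bounds t).1]; exact (kf_bounds t).2

omit [PartialOrder B] [StarOrderedRing B] in
private theorem norm_r (x : B) : ‖cfc rf x‖ ≤ 2 :=
  norm_cfc_le (by norm_num) fun t _ => by rw [Real.norm_eq_abs]; exact rf_bound t

omit [PartialOrder B] [StarOrderedRing B] in
private theorem norm_m (x : B) : ‖cfc mf x‖ ≤ 4 :=
  norm_cfc_le (by norm_num) fun t _ => by rw [Real.norm_eq_abs]; exact mf_bound t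

omit [PartialOrder B] [StarOrderedRing B] in
private theorem cfc_sq_eq (c : B) : star (c * cfc kf (star c * c)) * (c * cfc kf (star c * c)) =
    cfc (fun t => kf t * kf t * t) (star c * c) := by
  have hk := continuous_kf
  have hsa : IsSelfAdjoint (cfc kf (star c * c)) := cfc_predicate kf (star c * c)
  have e1 : cfc kf (star c * c) * (star c * c) = cfc (fun t => kf t * t) (star c * c) := by
    rw [cfc_mul kf (fun t => t) (star c * c), cfc_id' ℝ (star c * c)]
  rw [star_mul, hsa.star_eq]
  calc _ = cfc kf (star c * c) * (star c * c) * cfc kf (star c * c) := by simp only [mul_assoc]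
    _ = cfc (fun t => kf t * t * kf t) (star c * c) := by
        rw [e1, cfc_mul (fun t => kf t * t) kf (star c * c)]
    _ = _ := cfc_congr fun t _ => by ring

private theorem c1_norm (hc : ‖c‖ ≤ 1) : ‖c * cfc kf (star c * c)‖ ≤ 1 := by
  have h : ‖cfc (fun t => kf t * kf t * t) (star c * c)‖ ≤ 1 := by
    refine norm_cfc_le zero_le_one fun t ht => ?_
    obtain ⟨h0, h1⟩ := spectrum_Icc hc ht
    have hm := lt_of_lt_of_le (by norm_num : (0:ℝ) < 1/2) (le_max_right t (1/2))
    rw [kf_sq, Real.norm_eq_abs, abs_of_nonneg (by positivity), ← div_eq_inv_mul, div_le_one hm]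
    exact le_max_left _ _
  rw [← cfc_sq_eq, CStarRing.norm_star_mul_self] at h
  nlinarith [norm_nonneg (c * cfc kf (star c * c))]

omit [PartialOrder B] [StarOrderedRing B] in
private theorem c1_unit (c : B) :
    star (c * cfc kf (star c * c)) * (c * cfc kf (star c * c)) * cfc gf (star c * c) =
      cfc gf (star c * c) := by
  have hk := continuous_kf
  have hg : Continuous gf := by unfold gf; fun_prop
  rw [cfc_sq_eq, ← cfc_mul (fun t => kf t * kf t * t) gf (star c * c)]
  exact cfc_congr fun t _ => kf_mul_gf t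

omit [PartialOrder B] [StarOrderedRing B] in
private theorem gf_eq (c : B) : cfc gf (star c * c) - star c * c =
    -(cfc rf (star c * c) * (star c * c - star c * c * (star c * c))) := by
  have hr := continuous_rf
  have hg : Continuous gf := by unfold gf; fun_prop
  have e1 : star c * c - star c * c * (star c * c) = cfc (fun t : ℝ => t - t * t) (star c * c) := by
    rw [cfc_sub (fun t : ℝ => t) (fun t => t * t) (star c * c),
      cfc_mul (fun t : ℝ => t) (fun t => t) (star c * c), cfc_id' ℝ (star c * c)]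
  have e2 : cfc gf (star c * c) - star c * c = cfc (fun t => gf t - t) (star c * c) := by
    rw [cfc_sub gf (fun t => t) (star c * c), cfc_id' ℝ (star c * c)]
  rw [e1, e2, ← cfc_mul rf (fun t => t - t * t) (star c * c),
    ← cfc_neg (fun t => rf t * (t - t * t)) (star c * c)]
  exact cfc_congr fun t _ => gf_sub t

omit [PartialOrder B] [StarOrderedRing B] in
private theorem c1_left (c : B) :
    star (c * cfc kf (star c * c)) * (c * cfc kf (star c * c)) - star c * c =
      cfc rf (star c * c) * (star c * c - star c * c * (star c * c)) := by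
  have hr := continuous_rf
  have hk := continuous_kf
  have e1 : star c * c - star c * c * (star c * c) = cfc (fun t : ℝ => t - t * t) (star c * c) := by
    rw [cfc_sub (fun t : ℝ => t) (fun t => t * t) (star c * c),
      cfc_mul (fun t : ℝ => t) (fun t => t) (star c * c), cfc_id' ℝ (star c * c)]
  have e2 : cfc (fun t => kf t * kf t * t) (star c * c) - star c * c =
      cfc (fun t => kf t * kf t * t - t) (star c * c) := by
    rw [cfc_sub (fun t => kf t * kf t * t) (fun t => t) (star c * c), cfc_id' ℝ (star c * c)]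
  rw [cfc_sq_eq, e1, e2, ← cfc_mul rf (fun t => t - t * t) (star c * c)]
  exact cfc_congr fun t _ => by linear_combination t * kf_sq_sub t

omit [PartialOrder B] [StarOrderedRing B] in
private theorem k_sq_eq (c : B) : cfc kf (star c * c) * cfc kf (star c * c) - 1 =
    cfc rf (star c * c) * (1 - star c * c) := by
  have hr := continuous_rf
  have hk := continuous_kf
  have e1 : (1 : B) - star c * c = cfc (fun t : ℝ => 1 - t) (star c * c) := by
    rw [cfc_sub (fun _ : ℝ => 1) (fun t => t) (star c * c), cfc_const_one ℝ (star c * c),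
      cfc_id' ℝ (star c * c)]
  rw [e1, ← cfc_mul rf (fun t => 1 - t) (star c * c), ← cfc_const_one ℝ (star c * c),
    ← cfc_mul kf kf (star c * c), ← cfc_sub (fun t => kf t * kf t) (fun _ => 1) (star c * c)]
  exact cfc_congr fun t _ => kf_sq_sub t

omit [PartialOrder B] [StarOrderedRing B] in
private theorem c1_right (c : B) :
    c * cfc kf (star c * c) * star (c * cfc kf (star c * c)) - c * star c =
      -(c * cfc rf (star c * c) * star c * (star c * c + c * star c - 1)) +
        c * cfc rf (star c * c) * star c * (star c * c) := by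
  have hsa : IsSelfAdjoint (cfc kf (star c * c)) := cfc_predicate kf (star c * c)
  rw [star_mul, hsa.star_eq]
  calc _ = c * (cfc kf (star c * c) * cfc kf (star c * c) - 1) * star c := by noncomm_ring
    _ = _ := by rw [k_sq_eq]; noncomm_ring

omit [PartialOrder B] [StarOrderedRing B] in
private theorem c1_sq (hc : ‖c‖ ≤ 1) :
    ‖c * cfc kf (star c * c) * (c * cfc kf (star c * c))‖ ≤ 12 * ‖c * c‖ := by
  have hk := continuous_kf
  have hm := continuous_mf
  have hK : cfc kf (star c * c) = cfc mf (star c * c) * (star c * c) + kf 0 • (1 : B) := by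
    rw [← Algebra.algebraMap_eq_smul_one, ← cfc_const (kf 0) (star c * c)]
    nth_rewrite 3 [← cfc_id' ℝ (star c * c)]
    rw [← cfc_mul mf (fun t => t) (star c * c),
      ← cfc_add (a := star c * c) (fun t => mf t * t) (fun _ => kf 0)]
    exact cfc_congr fun t ht => by
      rw [mf_eq t]; ring
  have hK2 := norm_k (star c * c)
  have h1 : ‖c * cfc kf (star c * c) * c‖ ≤ 6 * ‖c * c‖ := by
    have : c * cfc kf (star c * c) * c =
        c * cfc mf (star c * c) * star c * (c * c) + kf 0 • (c * c) := by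
      rw [hK]; simp only [mul_add, add_mul, mul_assoc, smul_mul_assoc, mul_smul_comm, one_mul]
    rw [this]
    refine (norm_add_le _ _).trans ?_
    have ha : ‖c * cfc mf (star c * c) * star c‖ ≤ 4 := by
      refine (norm_mul_le _ _).trans ?_
      rw [norm_star]
      calc _ ≤ ‖c‖ * ‖cfc mf (star c * c)‖ * ‖c‖ := by gcongr; exact norm_mul_le _ _
        _ ≤ 1 * 4 * 1 := by gcongr; exact norm_m _
        _ = 4 := by norm_num
    have hb : ‖kf 0 • (c * c)‖ ≤ 2 * ‖c * c‖ := by
      rw [norm_smul, Real.norm_eq_abs, abs_of_nonneg (kf_bounds 0).1]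
      gcongr; exact (kf_bounds 0).2
    calc _ ≤ ‖c * cfc mf (star c * c) * star c‖ * ‖c * c‖ + 2 * ‖c * c‖ := by
          gcongr; exact norm_mul_le _ _
      _ ≤ 4 * ‖c * c‖ + 2 * ‖c * c‖ := by gcongr
      _ = _ := by ring
  calc _ = ‖c * cfc kf (star c * c) * c * cfc kf (star c * c)‖ := by simp only [mul_assoc]
    _ ≤ (6 * ‖c * c‖) * 2 := (norm_mul_le _ _).trans (by gcongr)
    _ = _ := by ring

/-- Two orthogonal halves have sum below one. -/
private theorem halves_norm (hc : ‖c‖ ≤ 1) :
    ‖star c * c + c * star c‖ ≤ 1 + 2 * ‖c * c‖ := by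
  set x := star c * c + c * star c with hx
  have hx0 : 0 ≤ x := add_nonneg (star_mul_self_nonneg c) (mul_star_self_nonneg c)
  have hR : c * star c ≤ 1 := (CStarAlgebra.norm_le_one_iff_of_nonneg _ (mul_star_self_nonneg c)).1
    (by rw [CStarRing.norm_self_mul_star]; exact mul_le_one₀ hc (norm_nonneg _) hc)
  have hP : star c * c ≤ 1 := (CStarAlgebra.norm_le_one_iff_of_nonneg _ (star_mul_self_nonneg c)).1
    (by rw [CStarRing.norm_star_mul_self]; exact mul_le_one₀ hc (norm_nonneg _) hc)
  have h1 : star c * c * (star c * c) ≤ star c * c := by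
    simpa [mul_assoc] using star_left_conjugate_le_conjugate hR c
  have h2 : c * star c * (c * star c) ≤ c * star c := by
    simpa [mul_assoc] using star_right_conjugate_le_conjugate hP c
  have h3 : ‖star c * c * (star c * c) + c * star c * (c * star c)‖ ≤ ‖x‖ := by
    refine CStarAlgebra.norm_le_norm_of_nonneg_of_le (add_nonneg ?_ ?_) (add_le_add h1 h2)
    · simpa using star_mul_self_nonneg (star c * c)
    · simpa using star_mul_self_nonneg (c * star c)
  have hcs : ‖star c‖ ≤ 1 := by rwa [norm_star]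
  have h4 : ‖star c * c * (c * star c)‖ ≤ ‖c * c‖ := by
    calc _ = ‖star c * (c * c) * star c‖ := by simp only [mul_assoc]
      _ ≤ ‖star c‖ * ‖c * c‖ * ‖star c‖ := (norm_mul_le _ _).trans (by gcongr; exact norm_mul_le _ _)
      _ ≤ 1 * ‖c * c‖ * 1 := by gcongr
      _ = _ := by ring
  have h5 : ‖c * star c * (star c * c)‖ ≤ ‖c * c‖ := by
    calc _ = ‖c * star (c * c) * c‖ := by simp only [mul_assoc, star_mul]
      _ ≤ ‖c‖ * ‖star (c * c)‖ * ‖c‖ := (norm_mul_le _ _).trans (by gcongr; exact norm_mul_le _ _)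
      _ ≤ 1 * ‖c * c‖ * 1 := by rw [norm_star]; gcongr
      _ = _ := by ring
  have h6 : ‖x‖ * ‖x‖ ≤ ‖x‖ + 2 * ‖c * c‖ := by
    calc ‖x‖ * ‖x‖ = ‖star x * x‖ := CStarRing.norm_star_mul_self.symm
      _ = ‖(star c * c * (star c * c) + c * star c * (c * star c)) +
          (star c * c * (c * star c) + c * star c * (star c * c))‖ := by
          rw [(IsSelfAdjoint.of_nonneg hx0).star_eq, hx]; congr 1; noncomm_ring
      _ ≤ ‖x‖ + (‖c * c‖ + ‖c * c‖) :=
          (norm_add_le _ _).trans (add_le_add h3 ((norm_add_le _ _).trans (add_le_add h4 h5)))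
      _ = _ := by ring
  nlinarith [norm_nonneg (c * c), norm_nonneg x]

/-- The defect, cut to a positive contraction. -/
private theorem defect_cut (hc : ‖c‖ ≤ 1) :
    ‖cfc (fun t : ℝ => max 0 (1 - t)) (star c * c + c * star c) -
      (1 - star c * c - c * star c)‖ ≤ 2 * ‖c * c‖ := by
  set x := star c * c + c * star c with hx
  have hx0 : 0 ≤ x := add_nonneg (star_mul_self_nonneg c) (mul_star_self_nonneg c)
  have hsa := IsSelfAdjoint.of_nonneg hx0
  have he : (1 : B) - star c * c - c * star c = cfc (fun t : ℝ => 1 - t) x := by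
    rw [cfc_sub (fun _ : ℝ => 1) (fun t => t) x, cfc_const_one ℝ x, cfc_id' ℝ x, hx]
    noncomm_ring
  rw [he, ← cfc_sub (fun t : ℝ => max 0 (1 - t)) (fun t => 1 - t) x]
  refine norm_cfc_le (by positivity) fun t ht => ?_
  have h := norm_apply_le_norm_cfc (fun x : ℝ => x) x ht
  rw [cfc_id' ℝ x, Real.norm_eq_abs] at h
  have h2 := (le_abs_self t).trans (h.trans (halves_norm hc))
  rw [Real.norm_eq_abs]
  rcases le_total t 1 with h1 | h1
  · rw [max_eq_right (by linarith), sub_self, abs_zero]; positivity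
  · rw [max_eq_left (by linarith), abs_le]; constructor <;> linarith [norm_nonneg (c * c)]

end Element

omit [PartialOrder B] [StarOrderedRing B] in
private theorem centralTo_one : CentralTo A (fun _ => (1 : B)) := fun a _ => by
  simp

omit [PartialOrder B] [StarOrderedRing B] in
private theorem tendsto_norm_mul {x y : ℕ → B} {R : ℝ} (hx : ∀ n, ‖x n‖ ≤ R)
    (hy : Tendsto (fun n => ‖y n‖) atTop (𝓝 0)) :
    Tendsto (fun n => ‖x n * y n‖) atTop (𝓝 0) :=
  squeeze_zero (fun _ => norm_nonneg _)
    (fun n => (norm_mul_le _ _).trans (mul_le_mul_of_nonneg_right (hx n) (norm_nonneg _)))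
    (by simpa using hy.const_mul R)

theorem exists_prep (S : Setup P A d) {G : Type*} (α : G → B ≃⋆ₐ[ℂ] B) {c : ℕ → B}
    (hc1 : ∀ n, ‖c n‖ ≤ 1) (hc : CentralTo A c)
    (hc2 : Tendsto (fun n => ‖c n * c n‖) atTop (𝓝 0))
    (hcα : ∀ g, Tendsto (fun n => ‖α g (c n) - c n‖) atTop (𝓝 0))
    (hc3 : Small P d fun n => star (c n) * c n + c n * star (c n) - 1) :
    Nonempty (Prep P A d α) := by
  have hA := S.simple
  have hk := continuous_kf
  have hg : Continuous gf := by unfold gf; fun_prop
  have hcs : ∀ n, ‖star (c n)‖ ≤ 1 := fun n => by rw [norm_star]; exact hc1 n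
  have hPR : ∀ n, ‖star (c n) * c n‖ ≤ 1 := fun n => by
    rw [CStarRing.norm_star_mul_self]; exact mul_le_one₀ (hc1 n) (norm_nonneg _) (hc1 n)
  have hPc : CentralTo A fun n => star (c n) * c n := CentralTo.mul hcs hc1 (hc.star hA) hc
  have hKc : CentralTo A fun n => cfc kf (star (c n) * c n) :=
    CentralTo.cfc hk hPR (fun n => IsSelfAdjoint.star_mul_self _) hPc
  set w : ℕ → B := fun n => c n * cfc kf (star (c n) * c n) with hw
  have hw1 : ∀ n, ‖w n‖ ≤ 1 := fun n => c1_norm (hc1 n)
  have hwc : CentralTo A w :=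
    CentralTo.mul (R := 2) (fun n => (hc1 n).trans one_le_two) (fun n => norm_k _) hc hKc
  have hws : ∀ n, ‖star (w n)‖ ≤ 1 := fun n => by rw [norm_star]; exact hw1 n
  have hwP : ∀ n, ‖star (w n) * w n‖ ≤ 1 := fun n => by
    rw [CStarRing.norm_star_mul_self]; exact mul_le_one₀ (hw1 n) (norm_nonneg _) (hw1 n)
  have hwR : ∀ n, ‖w n * star (w n)‖ ≤ 1 := fun n => by
    rw [CStarRing.norm_self_mul_star]; exact mul_le_one₀ (hw1 n) (norm_nonneg _) (hw1 n)
  have hw2 : Tendsto (fun n => ‖w n * w n‖) atTop (𝓝 0) :=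
    squeeze_zero (fun _ => norm_nonneg _) (fun n => c1_sq (hc1 n))
      (by simpa using hc2.const_mul 12)
  -- small error terms
  have hmix : Tendsto (fun n => ‖star (c n) * c n * (c n * star (c n))‖) atTop (𝓝 0) := by
    refine squeeze_zero (fun _ => norm_nonneg _) (fun n => ?_) hc2
    calc _ = ‖star (c n) * (c n * c n) * star (c n)‖ := by simp only [mul_assoc]
      _ ≤ ‖star (c n)‖ * ‖c n * c n‖ * ‖star (c n)‖ :=
          (norm_mul_le _ _).trans (by gcongr; exact norm_mul_le _ _)
      _ ≤ 1 * ‖c n * c n‖ * 1 := by gcongr <;> exact hcs n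
      _ = _ := by ring
  have hQ : Small P d fun n => star (c n) * c n - star (c n) * c n * (star (c n) * c n) := by
    have h := (Small.mul_left S (R := 1)
      (y := fun n => -(star (c n) * c n)) (fun n => by rw [norm_neg]; exact hPR n) hc3).add S
      (small_of_norm S hmix)
    convert h using 2
    noncomm_ring
  have hL : Small P d fun n => cfc rf (star (c n) * c n) *
      (star (c n) * c n - star (c n) * c n * (star (c n) * c n)) :=
    Small.mul_left S (R := 2) (fun n => norm_r _) hQ
  have hneg : ∀ n : ℕ, ‖(-1 : B)‖ ≤ ‖(-1 : B)‖ := fun _ => le_rfl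
  have hRs : Small P d fun n => c n * cfc kf (star (c n) * c n) *
      star (c n * cfc kf (star (c n) * c n)) - c n * star (c n) := by
    have hb : ∀ n, ‖c n * cfc rf (star (c n) * c n) * star (c n)‖ ≤ 2 := fun n => by
      calc _ ≤ ‖c n‖ * ‖cfc rf (star (c n) * c n)‖ * ‖star (c n)‖ :=
            (norm_mul_le _ _).trans (by gcongr; exact norm_mul_le _ _)
        _ ≤ 1 * 2 * 1 := by gcongr <;> first | exact hc1 n | exact norm_r _ | exact hcs n
        _ = _ := by norm_num
    have h0 : Tendsto (fun n => ‖c n * cfc rf (star (c n) * c n) * star (c n) *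
        (star (c n) * c n)‖) atTop (𝓝 0) := by
      refine squeeze_zero (fun _ => norm_nonneg _) (fun n => ?_)
        (by simpa using hc2.const_mul 2)
      calc _ = ‖c n * cfc rf (star (c n) * c n) * (star (c n * c n) * c n)‖ := by
            simp only [mul_assoc, star_mul]
        _ ≤ ‖c n‖ * ‖cfc rf (star (c n) * c n)‖ * (‖star (c n * c n)‖ * ‖c n‖) :=
            (norm_mul_le _ _).trans (mul_le_mul (norm_mul_le _ _) (norm_mul_le _ _)
              (norm_nonneg _) (by positivity))
        _ ≤ 1 * 2 * (‖c n * c n‖ * 1) := by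
            rw [norm_star]; gcongr <;> first | exact hc1 n | exact norm_r _
        _ = _ := by ring
    have h := (Small.mul_left S hneg (Small.mul_left S hb hc3)).add S (small_of_norm S h0)
    convert h using 2 with n
    rw [c1_right, neg_one_mul]
  -- the defect
  set e : ℕ → B := fun n =>
    cfc (fun t : ℝ => max 0 (1 - t)) (star (w n) * w n + w n * star (w n)) with he
  have he_eq : Tendsto (fun n => ‖e n - (1 - star (w n) * w n - w n * star (w n))‖) atTop (𝓝 0) :=
    squeeze_zero (fun _ => norm_nonneg _) (fun n => defect_cut (hw1 n))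
      (by simpa using hw2.const_mul 2)
  have hes : Small P d e := by
    have h := (small_of_norm S he_eq).add S
      (Small.mul_left S hneg ((hc3.add S hL).add S hRs))
    convert h using 2 with n
    rw [← c1_left]
    simp only [hw]
    noncomm_ring
  have hsum : ∀ n, ‖star (w n) * w n + w n * star (w n)‖ ≤ 2 := fun n =>
    (norm_add_le _ _).trans ((add_le_add (hwP n) (hwR n)).trans (by norm_num))
  refine ⟨{
    c := w
    e := e
    f := fun n => cfc gf (star (c n) * c n)
    c_norm := hw1
    c_central := hwc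
    c_sq := hw2
    c_inv := ?_
    e_nonneg := fun n => cfc_nonneg fun t _ => le_max_left _ _
    e_norm := fun n => norm_cfc_le zero_le_one fun t ht => by
      have h0 : 0 ≤ t := spectrum_nonneg_of_nonneg
        (add_nonneg (star_mul_self_nonneg _) (mul_star_self_nonneg _)) ht
      rw [Real.norm_eq_abs, abs_of_nonneg (le_max_left _ _)]
      exact max_le zero_le_one (by linarith)
    e_central := CentralTo.cfc (by fun_prop) hsum
      (fun n => (IsSelfAdjoint.star_mul_self _).add (IsSelfAdjoint.mul_star_self _))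
      ((CentralTo.mul hws hw1 (hwc.star hA) hwc).add (CentralTo.mul hw1 hws hwc (hwc.star hA)))
    e_eq := he_eq
    e_small := hes
    f_nonneg := fun n => cfc_nonneg fun t _ => le_max_left _ _
    f_norm := fun n => norm_cfc_le zero_le_one fun t ht => by
      obtain ⟨h0, h1⟩ := spectrum_Icc (hc1 n) ht
      rw [gf, Real.norm_eq_abs, abs_of_nonneg (le_max_left _ _)]
      exact max_le zero_le_one (by linarith)
    f_central := CentralTo.cfc hg hPR (fun n => IsSelfAdjoint.star_mul_self _) hPc
    f_unit := by simp only [hw, c1_unit, sub_self, norm_zero]; exact tendsto_const_nhds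
    f_large := ?_ }⟩
  · intro g
    have hh : Tendsto (fun n => ‖α g (star (c n) * c n) - star (c n) * c n‖) atTop (𝓝 0) := by
      refine squeeze_zero (fun _ => norm_nonneg _) (fun n => ?_)
        (by simpa using (hcα g).add (hcα g))
      have hn : ‖α g (c n)‖ ≤ 1 := by
        rw [StarAlgEquiv.norm_map]; exact hc1 n
      calc _ = ‖star (α g (c n) - c n) * α g (c n) + star (c n) * (α g (c n) - c n)‖ := by
            rw [map_mul, map_star, star_sub]; congr 1; noncomm_ring
        _ ≤ ‖α g (c n) - c n‖ * 1 + 1 * ‖α g (c n) - c n‖ := by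
            refine (norm_add_le _ _).trans (add_le_add ?_ ?_) <;> refine (norm_mul_le _ _).trans ?_
            · rw [norm_star]; gcongr
            · gcongr; exact hcs n
        _ = _ := by ring
    have hK : Tendsto (fun n => ‖α g (cfc kf (star (c n) * c n)) - cfc kf (star (c n) * c n)‖)
        atTop (𝓝 0) := by
      rw [Metric.tendsto_nhds]
      intro ε hε
      obtain ⟨δ, hδ, H⟩ := norm_cfc_sub (B := B) hk 1 hε
      filter_upwards [Metric.tendsto_nhds.1 hh δ hδ] with n hn
      rw [dist_zero_right, norm_norm] at hn ⊢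
      have hsa := IsSelfAdjoint.star_mul_self (c n)
      have hmap : α g (cfc kf (star (c n) * c n)) = cfc kf (α g (star (c n) * c n)) :=
        StarAlgHomClass.map_cfc (α g : B →⋆ₐ[ℂ] B) kf (star (c n) * c n) hk.continuousOn
          ((StarAlgEquiv.isometry (α g)).continuous) hsa (hsa.map (α g))
      rw [hmap]
      exact H _ _ (hsa.map (α g)) hsa (by rw [StarAlgEquiv.norm_map]; exact hPR n) (hPR n) hn
    refine squeeze_zero (fun _ => norm_nonneg _) (fun n => ?_)
      (by simpa using ((hcα g).const_mul 2).add hK)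
    calc ‖α g (w n) - w n‖ = ‖(α g (c n) - c n) * α g (cfc kf (star (c n) * c n)) +
          c n * (α g (cfc kf (star (c n) * c n)) - cfc kf (star (c n) * c n))‖ := by
          simp only [hw, map_mul]; congr 1; noncomm_ring
      _ ≤ ‖α g (c n) - c n‖ * 2 +
          1 * ‖α g (cfc kf (star (c n) * c n)) - cfc kf (star (c n) * c n)‖ := by
          refine (norm_add_le _ _).trans (add_le_add ?_ ?_) <;> refine (norm_mul_le _ _).trans ?_
          · gcongr; rw [StarAlgEquiv.norm_map]; exact norm_k _
          · gcongr; exact hc1 n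
      _ = _ := by ring
  · obtain ⟨γ, hγ, hγd⟩ := exists_tn_sq_pos S
    have hdA : d ∈ A := S.le S.d_mem
    have hηl : Tendsto (fun n => 16 * (‖c n * d - d * c n‖ + ‖star (c n) * d - d * star (c n)‖))
        atTop (𝓝 0) := by
      simpa using ((hc d hdA).add ((hc.star hA) d hdA)).const_mul 16
    have hd : d * d ∈ P := (S.bimod d d S.d_mem).1
    have hdsa := IsSelfAdjoint.of_nonneg S.d_nonneg
    refine ⟨γ / 4, by linarith, ?_⟩
    filter_upwards [hc3 (γ / 8) (by linarith), hL (γ / 8) (by linarith),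
      Metric.tendsto_nhds.1 hηl ((γ / 8) ^ 2) (by positivity)] with n h3 hl hη τ hτ
    have hb := S.bimod
    have hs := S.star_mem
    have hm : ∀ b, b * (d * d) ∈ P := fun b => (hb b _ hd).1
    have h3' := h3 τ hτ
    have hl' := hl τ hτ
    set p := star (c n) * c n with hp
    set r := c n * star (c n) with hr
    have hrsa : IsSelfAdjoint r := IsSelfAdjoint.mul_star_self _
    have hflip := tn_flip hb hs hτ.1 (c n) S.d_mem hdsa
    have hswap : tn P τ (d * d * r) = tn P τ (r * (d * d)) := by
      rw [← tn_star hb hs hτ.1 (hm r), star_mul, star_mul, hdsa.star_eq, hrsa.star_eq]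
    rw [← hr, ← hp, hswap, tn_d S hτ] at hflip
    have hbound : 16 * ‖c n‖ ^ 3 * ‖d‖ * (‖c n * d - d * c n‖ + ‖star (c n) * d - d * star (c n)‖)
        * (1 : ℝ) ^ 2 ≤ 16 * (‖c n * d - d * c n‖ + ‖star (c n) * d - d * star (c n)‖) := by
      calc _ ≤ 16 * 1 ^ 3 * 1 *
            (‖c n * d - d * c n‖ + ‖star (c n) * d - d * star (c n)‖) * (1 : ℝ) ^ 2 := by
            gcongr
            · exact hc1 n
            · exact S.d_norm
        _ = _ := by ring
    rw [dist_zero_right, Real.norm_eq_abs] at hη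
    have hsq : tn P τ (r * (d * d)) ^ 2 ≤ tn P τ (p * (d * d)) ^ 2 + (γ / 8) ^ 2 := by
      linarith [(abs_le.1 hflip).1, le_abs_self (16 *
        (‖c n * d - d * c n‖ + ‖star (c n) * d - d * star (c n)‖))]
    have hA0 := tn_nonneg (P := P) (τ := τ) (p * (d * d))
    have hR : tn P τ (r * (d * d)) ≤ tn P τ (p * (d * d)) + γ / 8 := by
      nlinarith [tn_nonneg (P := P) (τ := τ) (r * (d * d))]
    have hge := hγd τ hτ
    have hsplit : tn P τ (d * d) ≤ tn P τ (p * (d * d)) + tn P τ (r * (d * d)) +
        tn P τ ((p + r - 1) * (d * d)) := by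
      calc tn P τ (d * d) = tn P τ
            (p * (d * d) + r * (d * d) + (-1 : ℂ) • ((p + r - 1) * (d * d))) := by
            rw [neg_one_smul]; congr 1; noncomm_ring
        _ ≤ _ := by
            refine (tn_add_le hb hs hτ.1 (P.add_mem (hm _) (hm _)) (P.smul_mem _ (hm _))).trans ?_
            refine add_le_add (tn_add_le hb hs hτ.1 (hm _) (hm _)) (le_of_eq ?_)
            rw [tn_smul hb hs hτ.1 _ (hm _), norm_neg, norm_one, one_mul]
    have hf : tn P τ (p * (d * d)) ≤ tn P τ (cfc gf p * (d * d)) +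
        tn P τ (cfc rf p * (p - p * p) * (d * d)) := by
      refine le_trans (le_of_eq ?_) (tn_add_le hb hs hτ.1 (hm _) (hm _))
      congr 1
      rw [← add_mul, show cfc rf p * (p - p * p) = -(cfc gf p - p) by rw [hp, gf_eq, neg_neg]]
      noncomm_ring
    have hfd : tn P τ (cfc gf p * (d * d)) ≤ tn P τ (cfc gf p * d) := by
      rw [← mul_assoc]
      exact (tn_mul_right hb hs hτ.1 d (hb _ _ S.d_mem).1).trans
        (mul_le_of_le_one_right (tn_nonneg _) S.d_norm)
    linarith

/-- A prepared sequence is nonzero against `A`. -/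
theorem Prep.c_ne (S : Setup P A d) (hT : ∃ τ, IsNormTrace P d τ) {G : Type*}
    {α : G → B ≃⋆ₐ[ℂ] B} (D : Prep P A d α) :
    ∃ a ∈ A, ¬ Tendsto (fun n => ‖D.c n * a‖) atTop (𝓝 0) := by
  obtain ⟨τ, hτ⟩ := hT
  obtain ⟨a, ha, -, ha1, had⟩ := S.d_unit
  refine ⟨a, ha, fun h0 => ?_⟩
  obtain ⟨γ, hγ, hl⟩ := D.f_large
  have ht : Tendsto (fun n => ‖star (D.c n) * D.c n * D.f n - D.f n‖ +
      ‖D.f n * a - a * D.f n‖ + ‖D.c n * a‖) atTop (𝓝 0) := by
    simpa using (D.f_unit.add (D.f_central a ha)).add h0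
  obtain ⟨n, hn, hsmall⟩ := (hl.and (Metric.tendsto_nhds.1 ht γ hγ)).exists
  rw [dist_zero_right, Real.norm_eq_abs, abs_of_nonneg (by positivity)] at hsmall
  have hb := S.bimod
  have hs := S.star_mem
  set c := D.c n
  set f := D.f n
  have hc : ‖star c‖ ≤ 1 := by rw [norm_star]; exact D.c_norm n
  have hP : ‖star c * c‖ ≤ 1 := by
    rw [CStarRing.norm_star_mul_self]; exact mul_le_one₀ (D.c_norm n) (norm_nonneg _) (D.c_norm n)
  have hfa : ‖f * a‖ ≤ ‖star c * c * f - f‖ * 1 + ‖f * a - a * f‖ + ‖c * a‖ := by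
    calc ‖f * a‖ = ‖-((star c * c * f - f) * a) + star c * c * (f * a - a * f) +
          star c * (c * a) * f‖ := by congr 1; noncomm_ring
      _ ≤ ‖(star c * c * f - f) * a‖ + ‖star c * c * (f * a - a * f)‖ +
          ‖star c * (c * a) * f‖ := by
          refine (norm_add_le _ _).trans (add_le_add ((norm_add_le _ _).trans ?_) le_rfl)
          rw [norm_neg]
      _ ≤ ‖star c * c * f - f‖ * 1 + 1 * ‖f * a - a * f‖ + 1 * ‖c * a‖ * 1 := by
          refine add_le_add (add_le_add ?_ ?_) ?_ <;> refine (norm_mul_le _ _).trans ?_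
          · gcongr
          · gcongr
          · gcongr
            · exact (norm_mul_le _ _).trans (by gcongr)
            · exact D.f_norm n
      _ = _ := by ring
  have h := tn_mul_left hb hs hτ.1 (f * a) S.d_mem
  rw [mul_assoc, had, tn_d S hτ, mul_one] at h
  linarith [hn τ hτ]

end Vale.Agent.P095.SI
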