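import Vale.Agent.P095.SI.Glimm
import Vale.Agent.P095.SI.Compare
import Vale.Agent.P095.SI.Prep
import Vale.Agent.P095.SI.Kernel
import Vale.Agent.P095.Weak.Bound

/-! P095: the comparison element for one group element, separated from finitely many translates. -/

open Filter Topology
open scoped ComplexOrder

namespace Vale.Agent.P095.SI

variable {B : Type*} [CStarAlgebra B]

theorem norm_sum_sum_le {ι κ : Type*} [Fintype ι] [Fintype κ] (F : ι → κ → B) {b : ℝ}
    (h : ∀ i j, ‖F i j‖ ≤ b) : ‖∑ i, ∑ j, F i j‖ ≤ Fintype.card ι * (Fintype.card κ * b) := by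
  refine (norm_sum_le _ _).trans ?_
  rw [← nsmul_eq_mul]
  refine Finset.sum_le_card_nsmul _ _ _ fun i _ => ?_
  refine (norm_sum_le _ _).trans ?_
  rw [← nsmul_eq_mul]
  exact Finset.sum_le_card_nsmul _ _ _ fun j _ => h i j

theorem norm_three_mul_le (a b c : B) {p q r : ℝ} (ha : ‖a‖ ≤ p) (hb : ‖b‖ ≤ q) (hc : ‖c‖ ≤ r) :
    ‖a * b * c‖ ≤ p * q * r := by
  have hp : 0 ≤ p := (norm_nonneg a).trans ha
  have hq : 0 ≤ q := (norm_nonneg b).trans hb
  exact (norm_mul_le _ _).trans (mul_le_mul ((norm_mul_le _ _).trans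
    (mul_le_mul ha hb (norm_nonneg _) hp)) hc (norm_nonneg _) (mul_nonneg hp hq))

section Expansion

variable {L : ℕ} (φ : B →ₗ[ℂ] ℂ) (a c : Fin L → B)

/-- Conjugation by `∑ a l z c l` acts as the factorised map, multiplied by the square of `z`. -/
theorem norm_conj_sub_le (hφ : ∀ y, ‖φ y‖ ≤ ‖y‖) {z e g v y : B} {M η θ : ℝ} (hM : 1 ≤ M)
    (ha : ∀ l, ‖a l‖ ≤ M) (hc : ∀ l, ‖c l‖ ≤ M) (hy : ‖y‖ ≤ M) (hz : ‖z‖ ≤ 2) (hη : 0 ≤ η)
    (hex : ∀ l m, ‖star z * (star (a l) * y * a m) * z - φ (star (a l) * y * a m) • (star z * z)‖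
      ≤ η * ‖z‖ * ‖z‖)
    (hg : g * g = e) (hg1 : ‖g‖ ≤ 1) (hv : ‖v‖ ≤ 1) (hzz : ‖star z * z - g * v * g‖ ≤ 2 * η)
    (hgc : ∀ l, ‖g * c l - c l * g‖ ≤ θ ∧ ‖g * star (c l) - star (c l) * g‖ ≤ θ)
    (hvc : ∀ l, ‖v * c l - c l‖ ≤ η)
    (hgΦ : ‖g * decMap φ a c y - decMap φ a c y * g‖ ≤ θ) :
    ‖star (∑ l, a l * z * c l) * y * (∑ l, a l * z * c l) - e * decMap φ a c y‖ ≤
      (L : ℝ) * (L * (7 * M ^ 5 * η + 2 * M ^ 4 * θ)) + θ := by
  have hexp : star (∑ l, a l * z * c l) * y * (∑ l, a l * z * c l) =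
      ∑ l, ∑ m, star (c l) * (star z * (star (a l) * y * a m) * z) * c m := by
    simp only [star_sum, star_mul, Finset.sum_mul, Finset.mul_sum]
    refine Finset.sum_comm.trans (Finset.sum_congr rfl fun l _ => Finset.sum_congr rfl fun m _ => ?_)
    simp only [mul_assoc]
  have hmid : g * decMap φ a c y * g =
      ∑ l, ∑ m, φ (star (a l) * y * a m) • (g * (star (c l) * c m) * g) := by
    simp only [decMap, Finset.mul_sum, Finset.sum_mul, mul_smul_comm, smul_mul_assoc]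
  have hφb : ∀ l m, ‖φ (star (a l) * y * a m)‖ ≤ M * M * M := fun l m =>
    (hφ _).trans (norm_three_mul_le _ _ _ ((norm_star _).le.trans (ha l)) hy (ha m))
  have hterm : ∀ l m, ‖star (c l) * (star z * (star (a l) * y * a m) * z) * c m -
      φ (star (a l) * y * a m) • (g * (star (c l) * c m) * g)‖ ≤
      7 * M ^ 5 * η + 2 * M ^ 4 * θ := by
    intro l m
    set t := φ (star (a l) * y * a m)
    have hsc : ‖star (c l)‖ ≤ M := (norm_star _).le.trans (hc l)
    have hθ : 0 ≤ θ := (norm_nonneg _).trans hgΦ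
    have e1 : star (c l) * (star z * (star (a l) * y * a m) * z) * c m -
        t • (g * (star (c l) * c m) * g) =
        star (c l) * (star z * (star (a l) * y * a m) * z - t • (star z * z)) * c m +
        t • (star (c l) * (star z * z - g * v * g) * c m +
          (star (c l) * g - g * star (c l)) * (v * g) * c m +
          g * star (c l) * v * (g * c m - c m * g) +
          g * star (c l) * ((v * c m - c m) * g)) := by
      simp only [smul_add, smul_sub, mul_sub, sub_mul, mul_smul_comm, smul_mul_assoc, mul_assoc]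
      abel
    rw [e1]
    have hgs : ‖g * star (c l)‖ ≤ M :=
      (norm_mul_le _ _).trans ((mul_le_mul hg1 hsc (norm_nonneg _) zero_le_one).trans_eq (one_mul M))
    have b0 : ‖star (c l) * (star z * (star (a l) * y * a m) * z - t • (star z * z)) * c m‖ ≤
        M * (η * 4) * M := by
      refine norm_three_mul_le _ _ _ hsc ((hex l m).trans ?_) (hc m)
      nlinarith [norm_nonneg z, mul_le_mul hz hz (norm_nonneg z) two_pos.le]
    have b1 : ‖star (c l) * (star z * z - g * v * g) * c m‖ ≤ M * (2 * η) * M :=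
      norm_three_mul_le _ _ _ hsc hzz (hc m)
    have b2 : ‖(star (c l) * g - g * star (c l)) * (v * g) * c m‖ ≤ θ * 1 * M :=
      norm_three_mul_le _ _ _ (by rw [norm_sub_rev]; exact (hgc l).2)
        ((norm_mul_le _ _).trans (mul_le_one₀ hv (norm_nonneg _) hg1)) (hc m)
    have b3 : ‖g * star (c l) * v * (g * c m - c m * g)‖ ≤ M * 1 * θ :=
      norm_three_mul_le _ _ _ hgs hv (hgc m).1
    have b4 : ‖g * star (c l) * ((v * c m - c m) * g)‖ ≤ M * (η * 1) :=
      (norm_mul_le _ _).trans (mul_le_mul hgs ((norm_mul_le _ _).trans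
        (mul_le_mul (hvc m) hg1 (norm_nonneg _) hη)) (norm_nonneg _) (by linarith))
    have hsum : ‖star (c l) * (star z * z - g * v * g) * c m +
        (star (c l) * g - g * star (c l)) * (v * g) * c m +
        g * star (c l) * v * (g * c m - c m * g) +
        g * star (c l) * ((v * c m - c m) * g)‖ ≤ 3 * M ^ 2 * η + 2 * M * θ := by
      refine (norm_add_le _ _).trans ((add_le_add ((norm_add_le _ _).trans
        (add_le_add ((norm_add_le _ _).trans (add_le_add b1 b2)) b3)) b4).trans ?_)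
      nlinarith [mul_le_mul_of_nonneg_right (le_mul_of_one_le_left (by linarith : (0 : ℝ) ≤ M) hM) hη]
    refine (norm_add_le _ _).trans ((add_le_add b0 ((norm_smul_le _ _).trans
      (mul_le_mul (hφb l m) hsum (norm_nonneg _) (by positivity)))).trans ?_)
    have hM5 : M ^ 2 ≤ M ^ 5 := pow_le_pow_right₀ hM (by norm_num)
    nlinarith [mul_le_mul_of_nonneg_right hM5 hη]
  have h1 : ‖star (∑ l, a l * z * c l) * y * (∑ l, a l * z * c l) - g * decMap φ a c y * g‖ ≤
      (L : ℝ) * (L * (7 * M ^ 5 * η + 2 * M ^ 4 * θ)) := by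
    rw [hexp, hmid, ← Finset.sum_sub_distrib]
    simp only [← Finset.sum_sub_distrib]
    simpa using norm_sum_sum_le _ hterm
  have h2 : ‖g * decMap φ a c y * g - e * decMap φ a c y‖ ≤ θ := by
    rw [← hg, mul_assoc, mul_assoc, ← mul_sub]
    refine (norm_mul_le _ _).trans ((mul_le_mul hg1 ?_ (norm_nonneg _) zero_le_one).trans_eq
      (one_mul θ))
    rw [norm_sub_rev]; exact hgΦ
  calc _ = ‖(star (∑ l, a l * z * c l) * y * (∑ l, a l * z * c l) - g * decMap φ a c y * g) +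
        (g * decMap φ a c y * g - e * decMap φ a c y)‖ := by rw [sub_add_sub_cancel]
    _ ≤ _ := (norm_add_le _ _).trans (add_le_add h1 h2)

/-- The factorised map takes values in `A`. -/
theorem decMap_mem {A : Submodule ℂ B} (hA : IsSimpleIdeal A) (hc : ∀ l, c l ∈ A) (y : B) :
    decMap φ a c y ∈ A :=
  Submodule.sum_mem _ fun _ _ => Submodule.sum_mem _ fun m _ =>
    Submodule.smul_mem _ _ (hA.2.1 _ _ (hc m)).1

end Expansion

/-- A commutator bound from the square and the conjugates. -/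
theorem norm_comm_sq_le {s x e : B} {ζ M : ℝ} (hx : ‖x‖ ≤ M) (he : IsSelfAdjoint e)
    (h1 : ‖star s * (star x * x) * s - e * (star x * x)‖ ≤ ζ)
    (h2 : ‖star s * star x * s * x - e * star x * x‖ ≤ ζ)
    (h3 : ‖star s * s * x - e * x‖ ≤ ζ) (h4 : ‖star x * e - e * star x‖ ≤ ζ)
    (h5 : ‖star x * x * e - e * (star x * x)‖ ≤ ζ) :
    ‖s * x - x * s‖ ^ 2 ≤ (4 + 2 * M) * ζ := by
  have hM : 0 ≤ M := (norm_nonneg x).trans hx
  have hζ : 0 ≤ ζ := (norm_nonneg _).trans h1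
  have e0 : star (s * x - x * s) * (s * x - x * s) =
      (star s * (star x * x) * s - e * (star x * x)) -
      (star s * star x * s * x - e * star x * x) -
      (star (star s * star x * s * x - e * star x * x) +
        (star (e * star x * x) - e * (star x * x))) +
      (star x * (star s * s * x - e * x) + (star x * e - e * star x) * x) := by
    simp only [star_sub, star_mul, star_star]
    noncomm_ring
  have h6 : ‖star (e * star x * x) - e * (star x * x)‖ ≤ ζ := by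
    rwa [star_mul, star_mul, star_star, he.star_eq, ← mul_assoc]
  rw [sq, ← CStarRing.norm_star_mul_self, e0]
  refine (norm_add_le _ _).trans ((add_le_add ((norm_sub_le _ _).trans (add_le_add
    ((norm_sub_le _ _).trans (add_le_add h1 h2)) ((norm_add_le _ _).trans (add_le_add
      ((norm_star _).le.trans h2) h6)))) ((norm_add_le _ _).trans (add_le_add
      ((norm_mul_le _ _).trans (mul_le_mul ((norm_star _).le.trans hx) h3 (norm_nonneg _) hM))
      ((norm_mul_le _ _).trans (mul_le_mul h4 hx (norm_nonneg _) hζ))))).trans ?_)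
  nlinarith [mul_nonneg hM hζ]

variable [PartialOrder B] [StarOrderedRing B] [TopologicalSpace.SeparableSpace B]
  {A P : Submodule ℂ B} {d : B}

omit [TopologicalSpace.SeparableSpace B] in
theorem cfc_sqrt_mul_self {e : B} (he : 0 ≤ e) :
    cfc Real.sqrt e * cfc Real.sqrt e = e := by
  rw [← cfc_mul Real.sqrt Real.sqrt e]
  conv_rhs => rw [← cfc_id' ℝ e]
  exact cfc_congr fun t ht => Real.mul_self_sqrt (spectrum_nonneg_of_nonneg he ht)

omit [TopologicalSpace.SeparableSpace B] in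
theorem norm_cfc_sqrt_le {e : B} (he : 0 ≤ e) (h1 : ‖e‖ ≤ 1) : ‖cfc Real.sqrt e‖ ≤ 1 := by
  have h := CStarRing.norm_star_mul_self (x := cfc Real.sqrt e)
  rw [(cfc_predicate Real.sqrt e : IsSelfAdjoint _).star_eq, cfc_sqrt_mul_self he] at h
  nlinarith [norm_nonneg (cfc Real.sqrt e)]

omit [TopologicalSpace.SeparableSpace B] in
/-- An element `u` of the algebraic ideal of `d * d` times `√e` is small. -/
theorem exists_tn_sqrt_small (S : Setup P A d) {e : ℕ → B} (he0 : ∀ n, 0 ≤ e n)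
    (he1 : ∀ n, ‖e n‖ ≤ 1) (hec : CentralTo A e) (hes : Small P d e) {m : ℕ} (x y : Fin m → B)
    (hy : ∀ i, y i ∈ A) {ε : ℝ} (hε : 0 < ε) :
    ∀ᶠ n in atTop, ∀ τ, IsNormTrace P d τ →
      tn P τ ((∑ i, x i * (d * d) * y i) * cfc Real.sqrt (e n)) ≤ ε := by
  have hC : d * d ∈ P := (S.bimod _ _ S.d_mem).1
  have hgC : CentralTo A fun n => cfc Real.sqrt (e n) :=
    CentralTo.cfc Real.continuous_sqrt (R := 1) he1 (fun n => (he0 n).isSelfAdjoint) hec
  set Bd : ℝ := 1 + ∑ i, ‖x i‖ * (‖y i‖ + 1)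
  have hBd : 0 < Bd := by positivity
  have hev : ∀ i, ∀ᶠ n in atTop,
      ‖cfc Real.sqrt (e n) * y i - y i * cfc Real.sqrt (e n)‖ < ε / Bd := fun i =>
    (hgC _ (hy i)).eventually_lt_const (by positivity)
  filter_upwards [hes ((ε / Bd) ^ 2) (by positivity), eventually_all.2 hev] with n hn1 hn2 τ hτ
  set g := cfc Real.sqrt (e n) with hgdef
  have hgg : g * g = e n := cfc_sqrt_mul_self (he0 n)
  have hgsa : star g = g := (cfc_predicate Real.sqrt (e n) : IsSelfAdjoint g).star_eq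
  have hb := S.bimod
  have hs := S.star_mem
  have htd : tn P τ d = 1 := tn_d S hτ
  have hC1 : tn P τ (d * d) ≤ 1 :=
    (tn_mul_left hb hs hτ.1 d S.d_mem).trans (by rw [htd, mul_one]; exact S.d_norm)
  have hCg : tn P τ (d * d * g) ≤ ε / Bd := by
    have hsa : star (d * d) = d * d := by rw [star_mul, S.d_nonneg.isSelfAdjoint.star_eq]
    have e1 : tn P τ (d * d * g) = tn P τ (g * (d * d)) := by
      rw [← tn_star hb hs hτ.1 ((hb g _ hC).1), star_mul, hsa, hgsa]
    rw [e1]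
    have h2 : tn P τ (g * (d * d)) ^ 2 ≤ (ε / Bd) ^ 2 := by
      have h3 := tn_sq_eq hb hs hτ.1 ((hb g _ hC).1)
      rw [tip_mul_left hb hs hτ.1 g hC ((hb g _ hC).1), hgsa, ← mul_assoc g g (d * d), hgg] at h3
      have h4 : ‖((tn P τ (g * (d * d)) : ℝ) : ℂ) ^ 2‖ ≤
          tn P τ (d * d) * tn P τ (e n * (d * d)) := by
        rw [h3]; exact abs_tip_le hb hs hτ.1 hC ((hb _ _ hC).1)
      rw [norm_pow, Complex.norm_real, Real.norm_eq_abs, sq_abs] at h4
      exact h4.trans ((mul_le_mul hC1 (hn1 τ hτ).le (tn_nonneg _) zero_le_one).trans_eq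
        (one_mul _))
    exact le_of_pow_le_pow_left₀ two_ne_zero (by positivity) h2
  rw [Finset.sum_mul]
  refine (tn_sum_le hb hs hτ.1 _ _ fun i _ => (hb g _ ((hb (y i) _ ((hb _ _ hC).1)).2)).2).trans ?_
  calc ∑ i, tn P τ (x i * (d * d) * y i * g) ≤ ∑ i, ‖x i‖ * (‖y i‖ + 1) * (ε / Bd) := by
        refine Finset.sum_le_sum fun i _ => ?_
        have e2 : x i * (d * d) * y i * g =
            x i * ((d * d * g) * y i) + x i * ((d * d) * (y i * g - g * y i)) := by noncomm_ring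
        have hP1 : d * d * g * y i ∈ P := (hb (y i) _ ((hb g _ hC).2)).2
        have hP2 : d * d * (y i * g - g * y i) ∈ P := (hb _ _ hC).2
        rw [e2]
        refine (tn_add_le hb hs hτ.1 (hb _ _ hP1).1 (hb _ _ hP2).1).trans ?_
        have t1 : tn P τ (x i * ((d * d * g) * y i)) ≤ ‖x i‖ * (ε / Bd * ‖y i‖) :=
          (tn_mul_left hb hs hτ.1 _ hP1).trans (mul_le_mul_of_nonneg_left
            ((tn_mul_right hb hs hτ.1 _ (hb g _ hC).2).trans
              (mul_le_mul_of_nonneg_right hCg (norm_nonneg _))) (norm_nonneg _))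
        have t2 : tn P τ (x i * ((d * d) * (y i * g - g * y i))) ≤ ‖x i‖ * (ε / Bd) := by
          refine (tn_mul_left hb hs hτ.1 _ hP2).trans (mul_le_mul_of_nonneg_left
            ((tn_mul_right hb hs hτ.1 _ hC).trans ?_) (norm_nonneg _))
          refine (mul_le_mul hC1 ?_ (norm_nonneg _) zero_le_one).trans_eq (one_mul _)
          rw [norm_sub_rev]; exact (hn2 i).le
        linarith
    _ ≤ Bd * (ε / Bd) := by
        rw [← Finset.sum_mul]
        exact mul_le_mul_of_nonneg_right (by simp only [Bd]; linarith) (by positivity)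
    _ = ε := by field_simp

omit [TopologicalSpace.SeparableSpace B] in
/-- A deep corner meets the large part. -/
theorem exists_lower (S : Setup P A d) {G : Type*} {α : G → B ≃⋆ₐ[ℂ] B} (D : Prep P A d α)
    {e' : B} (he' : e' ∈ A) (he1 : ‖e'‖ ≤ 1) (hne : Nondeg e') (hde : d * e' = e') :
    ∃ γ > (0 : ℝ), ∀ᶠ n in atTop, ∀ τ, IsNormTrace P d τ → γ ≤ tn P τ (D.f n * e') := by
  obtain ⟨γ, hγ, hf⟩ := D.f_large
  obtain ⟨a0, ha0, -, ha1, ha0d⟩ := S.d_unit
  have hne0 : e' ≠ 0 := by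
    rintro rfl
    obtain ⟨z, hz0, hz⟩ := hne
    exact hz0 (by simpa using hz.symm)
  obtain ⟨m, x, y, hxy, hxy'⟩ := exists_approx_bi S.simple he' hne0 ha0 (δ := γ / 4) (by positivity)
  set Bd : ℝ := 1 + ∑ i, (‖x i‖ + 1) * ‖y i‖
  have hBd : 0 < Bd := by positivity
  refine ⟨γ / (4 * Bd), by positivity, ?_⟩
  have hev : ∀ i, ∀ᶠ n in atTop, ‖D.f n * x i - x i * D.f n‖ < γ / (4 * Bd) := fun i =>
    (D.f_central _ (hxy i).1).eventually_lt_const (by positivity)
  filter_upwards [hf, eventually_all.2 hev] with n hn1 hn2 τ hτ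
  have hb := S.bimod
  have hs := S.star_mem
  have heP : e' ∈ P := hde ▸ (hb e' d S.d_mem).2
  have hte : tn P τ e' ≤ 1 := by
    rw [← hde]
    refine (tn_mul_right hb hs hτ.1 _ S.d_mem).trans ?_
    rw [tn_d S hτ, one_mul]; exact he1
  set Y := tn P τ (D.f n * e')
  have hfe : D.f n * e' ∈ P := (hb _ _ heP).1
  by_contra hY
  rw [not_le] at hY
  have hsplit : D.f n * d = (∑ i, D.f n * (x i * e' * y i) * d) +
      D.f n * (a0 - ∑ i, x i * e' * y i) * d := by
    rw [← Finset.sum_mul, ← Finset.mul_sum, ← add_mul, ← mul_add, add_sub_cancel, mul_assoc, ha0d]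
  have h1 := hn1 τ hτ
  rw [hsplit] at h1
  have hPi : ∀ i, D.f n * (x i * e' * y i) * d ∈ P := fun i => (hb _ _ S.d_mem).1
  have t1 : tn P τ (∑ i, D.f n * (x i * e' * y i) * d) ≤ Bd * (γ / (4 * Bd)) := by
    refine (tn_sum_le hb hs hτ.1 _ _ fun i _ => hPi i).trans ?_
    calc ∑ i, tn P τ (D.f n * (x i * e' * y i) * d)
        ≤ ∑ i, (‖x i‖ + 1) * ‖y i‖ * (γ / (4 * Bd)) := by
          refine Finset.sum_le_sum fun i _ => ?_
          have e2 : D.f n * (x i * e' * y i) * d =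
              (x i * (D.f n * e') + (D.f n * x i - x i * D.f n) * e') * (y i * d) := by noncomm_ring
          rw [e2]
          have hP1 : x i * (D.f n * e') ∈ P := (hb _ _ hfe).1
          have hP2 : (D.f n * x i - x i * D.f n) * e' ∈ P := (hb _ _ heP).1
          refine (tn_mul_right hb hs hτ.1 _ (add_mem hP1 hP2)).trans ?_
          have hyd : ‖y i * d‖ ≤ ‖y i‖ :=
            (norm_mul_le _ _).trans (mul_le_of_le_one_right (norm_nonneg _) S.d_norm)
          have hadd : tn P τ (x i * (D.f n * e') + (D.f n * x i - x i * D.f n) * e') ≤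
              (‖x i‖ + 1) * (γ / (4 * Bd)) := by
            refine (tn_add_le hb hs hτ.1 hP1 hP2).trans ?_
            have u1 := (tn_mul_left hb hs hτ.1 (x i) hfe).trans
              (mul_le_mul_of_nonneg_left hY.le (norm_nonneg (x i)))
            have u2 := (tn_mul_left hb hs hτ.1 (D.f n * x i - x i * D.f n) heP).trans
              ((mul_le_mul (hn2 i).le hte (tn_nonneg _) (by positivity)).trans_eq (mul_one _))
            linarith
          calc _ ≤ (‖x i‖ + 1) * (γ / (4 * Bd)) * ‖y i‖ :=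
                mul_le_mul hadd hyd (norm_nonneg _) (by positivity)
            _ = _ := by ring
      _ ≤ _ := by
          rw [← Finset.sum_mul]
          exact mul_le_mul_of_nonneg_right (by simp only [Bd]; linarith) (by positivity)
  have t2 : tn P τ (D.f n * (a0 - ∑ i, x i * e' * y i) * d) ≤ γ / 4 := by
    refine (tn_mul_left hb hs hτ.1 _ S.d_mem).trans ?_
    rw [tn_d S hτ, mul_one]
    exact (norm_mul_le _ _).trans ((mul_le_mul (D.f_norm n) hxy'.le (norm_nonneg _)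
      zero_le_one).trans_eq (one_mul _))
  have t3 : Bd * (γ / (4 * Bd)) = γ / 4 := by field_simp
  have := h1.trans (tn_add_le hb hs hτ.1 (Submodule.sum_mem _ fun i _ => hPi i)
    ((hb _ _ S.d_mem).1))
  linarith

omit [TopologicalSpace.SeparableSpace B] in
/-- An element of the algebraic ideal of `d * d` whose square fixes finitely many elements. -/
theorem exists_unit_sum (S : Setup P A d) {L : ℕ} (c : Fin L → B) (hcA : ∀ l, c l ∈ A) {M η : ℝ}
    (hM : 1 ≤ M) (hMc : ∀ l, ‖c l‖ ≤ M) (hη0 : 0 < η) :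
    ∃ (m : ℕ) (xu yu : Fin m → B), (∀ i, yu i ∈ A) ∧
      ‖∑ i, xu i * (d * d) * yu i‖ ≤ 1 ∧ ∀ l,
        ‖star (∑ i, xu i * (d * d) * yu i) * (∑ i, xu i * (d * d) * yu i) * c l - c l‖ ≤ η := by
  classical
  set δ₁ : ℝ := η / (6 * M)
  have hδ₁ : 0 < δ₁ := by positivity
  have hb := S.bimod
  have hA := S.simple
  obtain ⟨w, hwA, hw0, hw1, hwc⟩ := exists_unit_approx hA (Finset.univ.image c)
    (by simpa using hcA) hδ₁
  have hC0 : d * d ≠ 0 := by
    intro h
    obtain ⟨z, hz0, hz⟩ := S.d_nondeg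
    exact hz0 (by rw [← hz, ← hz, ← mul_assoc, h, zero_mul])
  obtain ⟨m, x, y, hxy, hwu⟩ := exists_approx_bi hA (S.le (hb d d S.d_mem).1) hC0 hwA hδ₁
  set S₀ := ∑ i, x i * (d * d) * y i
  obtain ⟨ρ, hρdef⟩ : ∃ ρ : ℝ, ρ = max 1 ‖S₀‖ := ⟨_, rfl⟩
  have hρ : 1 ≤ ρ := hρdef ▸ le_max_left _ _
  have hu : ∑ i, ((ρ⁻¹ : ℝ) : ℂ) • x i * (d * d) * y i = ((ρ⁻¹ : ℝ) : ℂ) • S₀ := by
    simp only [S₀, Finset.smul_sum, smul_mul_assoc]
  refine ⟨m, fun i => ((ρ⁻¹ : ℝ) : ℂ) • x i, y, fun i => (hxy i).2, ?_, fun l => ?_⟩ <;>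
    rw [hu]
  · rw [norm_smul, Complex.norm_real, Real.norm_eq_abs, abs_of_pos (by positivity),
      inv_mul_le_iff₀ (by positivity), mul_one]
    exact hρdef ▸ le_max_right _ _
  · set u := ((ρ⁻¹ : ℝ) : ℂ) • S₀
    have huw : ‖u - w‖ ≤ 2 * δ₁ := by
      have h1 : ρ - 1 ≤ δ₁ := by
        have := norm_le_insert' S₀ w
        rw [norm_sub_rev] at this
        rcases max_choice (1 : ℝ) ‖S₀‖ with h | h <;> rw [hρdef, h] <;> linarith
      have h2 : ‖u - S₀‖ ≤ ρ - 1 := by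
        have e1 : u - S₀ = ((ρ⁻¹ - 1 : ℝ) : ℂ) • S₀ := by
          simp [u, sub_smul, -Complex.coe_smul]
        rw [e1, norm_smul, Complex.norm_real, Real.norm_eq_abs, abs_of_nonpos
          (by linarith [inv_le_one_of_one_le₀ hρ]), neg_sub]
        calc (1 - ρ⁻¹) * ‖S₀‖ ≤ (1 - ρ⁻¹) * ρ :=
              mul_le_mul_of_nonneg_left (hρdef ▸ le_max_right _ _)
                (by linarith [inv_le_one_of_one_le₀ hρ])
          _ = ρ - 1 := by field_simp
      calc ‖u - w‖ = ‖(u - S₀) + (S₀ - w)‖ := by rw [sub_add_sub_cancel]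
        _ ≤ 2 * δ₁ := (norm_add_le _ _).trans (by rw [norm_sub_rev S₀ w]; linarith)
    have hun : ‖u‖ ≤ 1 := by
      simp only [u, norm_smul, Complex.norm_real, Real.norm_eq_abs]
      rw [abs_of_pos (by positivity), inv_mul_le_iff₀ (by positivity), mul_one]
      exact hρdef ▸ le_max_right _ _
    have hwl := (hwc (c l) (Finset.mem_image_of_mem c (Finset.mem_univ l))).1.le
    have e2 : star u * u * c l - c l = star u * ((u - w) * c l) + star u * (w * c l - c l) +
        (star u - w) * c l + (w * c l - c l) := by noncomm_ring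
    rw [e2]
    have hsu : ‖star u - w‖ ≤ 2 * δ₁ := by
      rw [← (IsSelfAdjoint.of_nonneg hw0).star_eq, ← star_sub, norm_star]; exact huw
    have hsn : ‖star u‖ ≤ 1 := (norm_star u).le.trans hun
    refine (norm_add_le _ _).trans ((add_le_add ((norm_add_le _ _).trans (add_le_add
      ((norm_add_le _ _).trans (add_le_add
        ((norm_mul_le _ _).trans (mul_le_mul hsn ((norm_mul_le _ _).trans
          (mul_le_mul huw (hMc l) (norm_nonneg _) (by positivity))) (norm_nonneg _) zero_le_one))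
        ((norm_mul_le _ _).trans (mul_le_mul hsn hwl (norm_nonneg _) zero_le_one))))
      ((norm_mul_le _ _).trans (mul_le_mul hsu (hMc l) (norm_nonneg _) (by positivity))))) hwl).trans
      ?_)
    have : 6 * M * δ₁ = η := by simp only [δ₁]; field_simp
    linarith [le_mul_of_one_le_left hδ₁.le hM]

omit [PartialOrder B] [StarOrderedRing B] [TopologicalSpace.SeparableSpace B] in
/-- An element fixing `f` almost fixes `∑ a l e f r c l`. -/
theorem norm_unit_mul_le {p f r : B} {L : ℕ} (a c : Fin L → B) (e' : B) {M R θ η : ℝ} (hM : 1 ≤ M)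
    (ha : ∀ l, ‖a l‖ ≤ M) (hc : ∀ l, ‖c l‖ ≤ M) (he : ‖e'‖ ≤ 1) (hf : ‖f‖ ≤ 1) (hR : 0 ≤ R)
    (hr : ‖r‖ ≤ R) (hpf : ‖p * f - f‖ ≤ θ)
    (hpc : ∀ l, ‖p * (a l * e') - a l * e' * p‖ ≤ θ) (hη : 0 ≤ η) (hθR : θ * R ≤ η) :
    ‖p * (∑ l, a l * (e' * f * r) * c l) - ∑ l, a l * (e' * f * r) * c l‖ ≤
      (L : ℝ) * (2 * M ^ 2 * η) := by
  have hθ : 0 ≤ θ := (norm_nonneg _).trans hpf
  rw [Finset.mul_sum, ← Finset.sum_sub_distrib]
  refine (norm_sum_le _ _).trans ((Finset.sum_le_card_nsmul _ _ (2 * M ^ 2 * η)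
    fun l _ => ?_).trans (by simp))
  have e1 : p * (a l * (e' * f * r) * c l) - a l * (e' * f * r) * c l =
      (p * (a l * e') - a l * e' * p) * (f * r) * c l + (a l * e') * ((p * f - f) * r) * c l := by
    noncomm_ring
  rw [e1]
  have hfr : ‖f * r‖ ≤ R :=
    (norm_mul_le _ _).trans ((mul_le_mul hf hr (norm_nonneg _) zero_le_one).trans_eq (one_mul R))
  have hae : ‖a l * e'‖ ≤ M :=
    (norm_mul_le _ _).trans ((mul_le_mul (ha l) he (norm_nonneg _) (by linarith)).trans_eq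
      (mul_one M))
  refine (norm_add_le _ _).trans ((add_le_add
    (norm_three_mul_le _ _ _ (hpc l) hfr (hc l))
    (norm_three_mul_le _ _ _ hae ((norm_mul_le _ _).trans
      (mul_le_mul hpf hr (norm_nonneg _) hθ)) (hc l))).trans ?_)
  have hM2 : M ≤ M ^ 2 := le_self_pow₀ hM two_ne_zero
  nlinarith [mul_le_mul_of_nonneg_right hθR (show (0 : ℝ) ≤ M by linarith),
    mul_le_mul_of_nonneg_right hθR (sq_nonneg M), mul_nonneg hθ hR]

omit [TopologicalSpace.SeparableSpace B] in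
/-- A separated translate is almost orthogonal to `∑ a l z c l`. -/
theorem norm_cross_le {L : ℕ} (a c : Fin L → B) (σ : B ≃⋆ₐ[ℂ] B) {z : B} {M η : ℝ} (hM : 1 ≤ M)
    (hc : ∀ l, ‖c l‖ ≤ M) (hz : ‖z‖ ≤ 2) (hη : 0 ≤ η)
    (h : ∀ l l', ‖star z * (star (a l) * σ (a l')) * σ z‖ ≤ η * ‖z‖ * ‖z‖) :
    ‖star (∑ l, a l * z * c l) * σ (∑ l, a l * z * c l)‖ ≤ L * (L * (4 * M ^ 2 * η)) := by
  have hexp : star (∑ l, a l * z * c l) * σ (∑ l, a l * z * c l) = ∑ l, ∑ l',
      star (c l) * (star z * (star (a l) * σ (a l')) * σ z) * σ (c l') := by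
    simp only [star_sum, star_mul, map_sum, map_mul, Finset.sum_mul, Finset.mul_sum]
    refine Finset.sum_comm.trans
      (Finset.sum_congr rfl fun l _ => Finset.sum_congr rfl fun m _ => ?_)
    simp only [mul_assoc]
  rw [hexp]
  refine (norm_sum_sum_le _ fun l l' => norm_three_mul_le _ _ _
    ((norm_star _).le.trans (hc l)) ((h l l').trans
      (show η * ‖z‖ * ‖z‖ ≤ η * 4 by
        nlinarith [norm_nonneg z, mul_le_mul hz hz (norm_nonneg z) two_pos.le]))
    ((StarAlgEquiv.norm_map _ _).le.trans (hc l'))).trans ?_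
  rw [Fintype.card_fin, show M * (η * 4) * M = 4 * M ^ 2 * η by ring]

theorem hLsmall (L : ℕ) {M η : ℝ} (hM : 1 ≤ M) (hη : 0 ≤ η) :
    (L : ℝ) * (2 * M ^ 2 * η) + L * (L * (4 * M ^ 2 * η)) ≤
      (L : ℝ) * (L * (7 * M ^ 5 * η + 2 * M ^ 4 * η)) + η := by
  have h24 : M ^ 2 * η ≤ M ^ 4 * η :=
    mul_le_mul_of_nonneg_right (pow_le_pow_right₀ hM (by norm_num)) hη
  have h25 : M ^ 2 * η ≤ M ^ 5 * η :=
    mul_le_mul_of_nonneg_right (pow_le_pow_right₀ hM (by norm_num)) hη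
  rcases Nat.eq_zero_or_pos L with rfl | hL
  · simp [hη]
  have hL1 : (1 : ℝ) ≤ L := by exact_mod_cast hL
  have hLL : (L : ℝ) * (M ^ 2 * η) ≤ (L : ℝ) * (L * (M ^ 2 * η)) :=
    mul_le_mul_of_nonneg_left (le_mul_of_one_le_left (by positivity) hL1) (by positivity)
  have hd1 := mul_le_mul_of_nonneg_left h25 (mul_nonneg L.cast_nonneg (L.cast_nonneg (α := ℝ)))
  have hd2 := mul_le_mul_of_nonneg_left h24 (mul_nonneg L.cast_nonneg (L.cast_nonneg (α := ℝ)))
  nlinarith [mul_nonneg (mul_nonneg L.cast_nonneg (L.cast_nonneg (α := ℝ))) (mul_nonneg (pow_nonneg (by linarith : (0:ℝ) ≤ M) 5) hη)]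

theorem exists_s0 (S : Setup P A d) (hcp : HasCPApprox A) (hcomp : Weak.WeakComp P d)
    (hτ : ∃ τ, IsNormTrace P d τ) {G : Type*} {α : G → B ≃⋆ₐ[ℂ] B} (T : Tower A α d)
    (D : Prep P A d α) (X : Finset B) (hX : ∀ x ∈ X, x ∈ A) (K : Finset G)
    (hK : ∀ g ∈ K, ¬ TrivOn A (α g)) {ε : ℝ} (hε : 0 < ε) :
    ∀ᶠ n in atTop, ∃ s : B, ‖star s * s‖ ≤ 3 ∧
      (∀ x ∈ X, ‖s * x - x * s‖ ≤ ε ∧ ‖(star s * s - D.e n) * x‖ ≤ ε) ∧
      ‖star (D.c n) * D.c n * s - s‖ ≤ ε ∧ ∀ g ∈ K, ‖star s * α g s‖ ≤ ε := by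
  classical
  have hA := S.simple
  have hb := S.bimod
  -- constants
  obtain ⟨Mx, hMx, hMxX⟩ : ∃ M : ℝ, 1 ≤ M ∧ ∀ x ∈ X, ‖x‖ ≤ M :=
    ⟨1 + ∑ x ∈ X, ‖x‖, le_add_of_nonneg_right (Finset.sum_nonneg fun _ _ => norm_nonneg _),
      fun x hx => by
        linarith [Finset.single_le_sum (f := fun x : B => ‖x‖) (fun _ _ => norm_nonneg _) hx]⟩
  let X' : Finset B := X ∪ X.image star ∪ X.image fun x => star x * x
  have hX' : ∀ x ∈ X', x ∈ A := by
    intro x hx
    simp only [X', Finset.mem_union, Finset.mem_image] at hx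
    rcases hx with (h | ⟨y, hy, rfl⟩) | ⟨y, hy, rfl⟩
    · exact hX x h
    · exact hA.star_mem (hX y hy)
    · exact (hA.2.1 _ _ (hX y hy)).1
  set ε' : ℝ := min 1 (min ε (ε ^ 2)) / (64 * (Mx * Mx)) with hε'
  have he' : 0 < ε' := by positivity
  have horth := fun e (h1 : e ∈ A) (h2 : (0 : B) ≤ e) (h3 : ‖e‖ ≤ 1) (h4 : Nondeg e) N η
      (h5 : (0 : ℝ) < η) =>
    exists_orth_family hA D.c_norm D.c_central D.c_sq (D.c_ne S hτ) h1 h2 h3 h4 N h5
  obtain ⟨L, a, c, hac, hdec, hdec1⟩ := exists_decomp hA T horth hcp X' hX' he'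
  obtain ⟨M, hM, hMa, hMc, hMy, hMX'⟩ : ∃ M : ℝ, 1 ≤ M ∧ (∀ l, ‖a l‖ ≤ M) ∧ (∀ l, ‖c l‖ ≤ M) ∧
      ‖(1 : B)‖ ≤ M ∧ ∀ x ∈ X', ‖x‖ ≤ M := by
    refine ⟨1 + ‖(1 : B)‖ + ∑ l, (‖a l‖ + ‖c l‖) + ∑ x ∈ X', ‖x‖, ?_, fun l => ?_, fun l => ?_,
      ?_, fun x hx => ?_⟩
    all_goals
      have p1 : 0 ≤ ∑ x ∈ X', ‖x‖ := Finset.sum_nonneg fun _ _ => norm_nonneg _
      have p2 : 0 ≤ ∑ l, (‖a l‖ + ‖c l‖) :=
        Finset.sum_nonneg fun _ _ => add_nonneg (norm_nonneg _) (norm_nonneg _)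
      have p3 := norm_nonneg (1 : B)
    · linarith
    · have := Finset.single_le_sum (f := fun l => ‖a l‖ + ‖c l‖)
        (fun l _ => add_nonneg (norm_nonneg _) (norm_nonneg _)) (Finset.mem_univ l)
      linarith [norm_nonneg (c l)]
    · have := Finset.single_le_sum (f := fun l => ‖a l‖ + ‖c l‖)
        (fun l _ => add_nonneg (norm_nonneg _) (norm_nonneg _)) (Finset.mem_univ l)
      linarith [norm_nonneg (a l)]
    · linarith
    · linarith [Finset.single_le_sum (f := fun x : B => ‖x‖) (fun _ _ => norm_nonneg _) hx]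
  obtain ⟨Q, hQ1, hQdef⟩ : ∃ Q : ℝ, 1 ≤ Q ∧ Q = 16 * ((L : ℝ) + 1) ^ 2 * M ^ 5 :=
    ⟨_, by nlinarith [one_le_pow₀ (n := 5) hM, L.cast_nonneg (α := ℝ),
      one_le_pow₀ (n := 2) (le_add_of_nonneg_left (a := (1 : ℝ)) L.cast_nonneg)], rfl⟩
  have hLQ : ∀ r : ℝ, 0 ≤ r → (L : ℝ) * (L * (7 * M ^ 5 * r + 2 * M ^ 4 * r)) + r ≤ Q * r := by
    intro r hr
    have h45 : M ^ 4 ≤ M ^ 5 := pow_le_pow_right₀ hM (by norm_num)
    have hM5 : 1 ≤ M ^ 5 := one_le_pow₀ hM
    rw [hQdef]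
    have hL : (L : ℝ) * L ≤ ((L : ℝ) + 1) ^ 2 := by nlinarith [L.cast_nonneg (α := ℝ)]
    have h1 : (L : ℝ) * (L * (7 * M ^ 5 * r + 2 * M ^ 4 * r)) ≤
        ((L : ℝ) + 1) ^ 2 * (9 * M ^ 5 * r) := by
      rw [← mul_assoc]
      exact mul_le_mul hL (by nlinarith) (by positivity) (by positivity)
    have h2 : r ≤ ((L : ℝ) + 1) ^ 2 * (M ^ 5 * r) := by
      calc r = 1 * (1 * r) := by ring
        _ ≤ _ := mul_le_mul (one_le_pow₀ (le_add_of_nonneg_left L.cast_nonneg))
          (mul_le_mul_of_nonneg_right hM5 hr) (by positivity) (by positivity)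
    nlinarith
  set η : ℝ := ε' / Q with hη
  have hη0 : 0 < η := by positivity
  have hQη : Q * η = ε' := by rw [hη]; field_simp
  have hM1 : (1 : ℝ) ≤ Mx * Mx := one_le_mul_of_one_le_of_one_le hMx hMx
  have hηε : η ≤ ε' := by rw [← hQη]; exact le_mul_of_one_le_left hη0.le hQ1
  have hε'1 : ε' ≤ 1 / 64 := by
    rw [hε', div_le_iff₀ (by positivity)]
    linarith [min_le_left (1 : ℝ) (min ε (ε ^ 2))]
  have hε'ε : 64 * (Mx * Mx) * ε' ≤ ε ∧ 64 * (Mx * Mx) * ε' ≤ ε ^ 2 := by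
    have : 64 * (Mx * Mx) * ε' = min 1 (min ε (ε ^ 2)) := by rw [hε']; field_simp
    rw [this]
    exact ⟨(min_le_right _ _).trans (min_le_left _ _), (min_le_right _ _).trans (min_le_right _ _)⟩
  have hε'le : 2 * ε' ≤ ε := by
    linarith [hε'ε.1, mul_le_mul_of_nonneg_right hM1 he'.le]
  -- an element of the algebraic ideal acting as a unit
  obtain ⟨m, xu, yu, hyu, hu1, huc⟩ := exists_unit_sum S c (fun l => (hac l).2) hM hMc hη0
  set u := ∑ i, xu i * (d * d) * yu i with hudef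
  -- the corner
  let Y : Finset B := (insert 1 X').biUnion fun y =>
    Finset.univ.image fun p : Fin L × Fin L => star (a p.1) * y * a p.2
  let Y₂ : Finset B := K.biUnion fun g =>
    Finset.univ.image fun p : Fin L × Fin L => star (a p.1) * α g (a p.2)
  obtain ⟨k₁, hk₁⟩ := T.excise₂ Y hη0
  obtain ⟨k₂, hk₂⟩ := T.orth₂ K hK Y₂ hη0
  obtain ⟨k, hkk₁, hkk₂⟩ : ∃ k, k₁ ≤ k ∧ k₂ ≤ k := ⟨max k₁ k₂, le_max_left _ _, le_max_right _ _⟩
  set e' := T.e (k + 1)
  have hde : d * e' = e' := by rw [← T.e_zero]; exact T.mul_eq (Nat.succ_pos k)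
  have heP : e' ∈ P := hde ▸ (hb e' d S.d_mem).2
  obtain ⟨γ, hγ, hlow⟩ := exists_lower S D (T.mem (k + 1)) (T.norm_le _) (T.nondeg _) hde
  set δc : ℝ := γ ^ 2 / 2
  have hδc : 0 < δc := by positivity
  set R : ℝ := 4 / Real.sqrt δc
  have hR : 0 ≤ R := by positivity
  have hC : d * d ∈ P := (hb d d S.d_mem).1
  obtain ⟨θw, hθw, hweak⟩ :=
    Weak.exists_compare_weak S hcomp hτ hη0 (by linarith : η ≤ 1) hδc
  have hq1 := exists_tn_sqrt_small S D.e_nonneg D.e_norm D.e_central D.e_small xu yu hyu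
    (ε := Real.sqrt θw) (by positivity)
  have hgC : CentralTo A fun n => cfc Real.sqrt (D.e n) :=
    CentralTo.cfc Real.continuous_sqrt (R := 1) D.e_norm
      (fun n => (D.e_nonneg n).isSelfAdjoint) D.e_central
  have hpC : CentralTo A fun n => star (D.c n) * D.c n :=
    CentralTo.mul (R := 1) (fun n => (norm_star _).le.trans (D.c_norm n)) D.c_norm
      (CentralTo.star hA D.c_central) D.c_central
  let W : Finset B := Finset.univ.image c ∪ Finset.univ.image (fun l => star (c l)) ∪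
    (insert 1 X').image (decMap T.φ a c) ∪ X' ∪ Finset.univ.image (fun l => a l * e')
  have hW : ∀ w ∈ W, w ∈ A := by
    intro w hw
    simp only [W, Finset.mem_union, Finset.mem_image, Finset.mem_univ, true_and] at hw
    rcases hw with (((⟨l, rfl⟩ | ⟨l, rfl⟩) | ⟨y, _, rfl⟩) | h) | ⟨l, rfl⟩
    · exact (hac l).2
    · exact hA.star_mem (hac l).2
    · exact decMap_mem _ _ _ hA (fun l => (hac l).2) y
    · exact hX' w h
    · exact (hA.2.1 _ _ (T.mem _)).1
  set θ : ℝ := η / (R + 1)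
  have hθ : 0 < θ := by positivity
  have hθη : θ ≤ η := div_le_self hη0.le (le_add_of_nonneg_left hR)
  have hev : ∀ w ∈ W, ∀ᶠ n in atTop,
      ‖cfc Real.sqrt (D.e n) * w - w * cfc Real.sqrt (D.e n)‖ < θ ∧
      ‖D.e n * w - w * D.e n‖ < θ ∧
      ‖star (D.c n) * D.c n * w - w * (star (D.c n) * D.c n)‖ < θ := fun w hw =>
    ((hgC w (hW w hw)).eventually_lt_const hθ).and
      (((D.e_central w (hW w hw)).eventually_lt_const hθ).and
        ((hpC w (hW w hw)).eventually_lt_const hθ))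
  filter_upwards [W.eventually_all.2 hev, hq1, hlow, D.f_unit.eventually_lt_const hθ]
    with n hnW hnq hnl hnf
  set g := cfc Real.sqrt (D.e n) with hgdef
  have hgg : g * g = D.e n := cfc_sqrt_mul_self (D.e_nonneg n)
  have hgsa : star g = g := (cfc_predicate Real.sqrt (D.e n) : IsSelfAdjoint g).star_eq
  have hg1 : ‖g‖ ≤ 1 := norm_cfc_sqrt_le (D.e_nonneg n) (D.e_norm n)
  have hq1P : u * g ∈ P := (hb g u (Submodule.sum_mem _ fun i _ =>
    (hb (yu i) _ ((hb (xu i) _ hC).1)).2)).2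
  have hq2P : e' * D.f n ∈ P := (hb _ _ heP).2
  obtain ⟨r, hr, hrR⟩ := hweak _ _ hq1P hq2P
    ((norm_mul_le _ _).trans (mul_le_one₀ hu1 (norm_nonneg _) hg1))
    ((norm_mul_le _ _).trans (mul_le_one₀ (T.norm_le _) (norm_nonneg _) (D.f_norm n)))
    (by rw [← mul_assoc, hde]) fun τ hτ' => by
      refine ⟨(pow_le_pow_left₀ (tn_nonneg _) (hnq τ hτ') 2).trans_eq (Real.sq_sqrt hθw.le), ?_⟩
      have e1 : tn P τ (e' * D.f n) = tn P τ (D.f n * e') := by
        rw [← tn_star hb S.star_mem hτ'.1 ((hb _ _ heP).2), star_mul,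
          (D.f_nonneg n).isSelfAdjoint.star_eq, (T.nonneg _).isSelfAdjoint.star_eq]
      rw [e1]
      have := pow_le_pow_left₀ hγ.le (hnl τ hτ') 2
      have h4 : δc = γ ^ 2 / 2 := rfl
      linarith [sq_nonneg γ]
  set z := e' * D.f n * r with hzdef
  have hzk : T.e k * z = z := by
    simp only [z, ← mul_assoc]
    rw [T.step k]
  have hzz : ‖star z * z - g * (star u * u) * g‖ ≤ 2 * η := by
    have e1 : star z * z = star r * (star (e' * D.f n) * (e' * D.f n)) * r := by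
      simp only [z, star_mul, mul_assoc]
    have e2 : g * (star u * u) * g = star (u * g) * (u * g) := by
      rw [star_mul, hgsa]; simp only [mul_assoc]
    rw [e1, e2]; exact hr.trans (by linarith)
  have hvn : ‖star u * u‖ ≤ 1 := by
    rw [CStarRing.norm_star_mul_self]; exact mul_le_one₀ hu1 (norm_nonneg _) hu1
  have hz2 : ‖z‖ ≤ 2 := by
    have h1 := norm_le_insert' (star z * z) (g * (star u * u) * g)
    have h2 := norm_three_mul_le g (star u * u) g hg1 hvn hg1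
    rw [CStarRing.norm_star_mul_self] at h1
    nlinarith [norm_nonneg z]
  set s := ∑ l, a l * z * c l with hsdef
  have hWc : ∀ l, c l ∈ W ∧ star (c l) ∈ W ∧ a l * e' ∈ W := fun l => by
    simp only [W, Finset.mem_union, Finset.mem_image, Finset.mem_univ, true_and]
    exact ⟨Or.inl (Or.inl (Or.inl (Or.inl ⟨l, rfl⟩))),
      Or.inl (Or.inl (Or.inl (Or.inr ⟨l, rfl⟩))), Or.inr ⟨l, rfl⟩⟩
  have hconj : ∀ y ∈ insert 1 X', ‖star s * y * s - D.e n * decMap T.φ a c y‖ ≤ ε' := by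
    intro y hy
    have hyM : ‖y‖ ≤ M := by
      rcases Finset.mem_insert.1 hy with rfl | h
      · exact hMy
      · exact hMX' y h
    have hex : ∀ l l', ‖star z * (star (a l) * y * a l') * z -
        T.φ (star (a l) * y * a l') • (star z * z)‖ ≤ η * ‖z‖ * ‖z‖ := fun l l' =>
      hk₁ k hkk₁ _ (Finset.mem_biUnion.2
        ⟨y, hy, Finset.mem_image.2 ⟨(l, l'), Finset.mem_univ _, rfl⟩⟩) z z hzk hzk
    have hΦW : decMap T.φ a c y ∈ W := by
      simp only [W, Finset.mem_union]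
      exact Or.inl (Or.inl (Or.inr (Finset.mem_image_of_mem _ hy)))
    refine (norm_conj_sub_le T.φ a c T.φ_le hM hMa hMc hyM hz2 hη0.le hex hgg hg1 hvn hzz
      (θ := η) (fun l => ⟨(hnW _ (hWc l).1).1.le.trans hθη, (hnW _ (hWc l).2.1).1.le.trans hθη⟩)
      huc ((hnW _ hΦW).1.le.trans hθη)).trans ?_
    exact (hLQ η hη0.le).trans hQη.le
  have he1 : ∀ y : B, ‖D.e n * y‖ ≤ ‖y‖ := fun y =>
    (norm_mul_le _ _).trans (mul_le_of_le_one_left (norm_nonneg _) (D.e_norm n))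
  have hconj' : ∀ y ∈ X', ‖star s * y * s - D.e n * y‖ ≤ 2 * ε' := by
    intro y hy
    calc _ = ‖(star s * y * s - D.e n * decMap T.φ a c y) +
          D.e n * (decMap T.φ a c y - y)‖ := by rw [mul_sub, sub_add_sub_cancel]
      _ ≤ ε' + ε' := (norm_add_le _ _).trans (add_le_add
          (hconj y (Finset.mem_insert_of_mem hy)) ((he1 _).trans (hdec y hy).1))
      _ = _ := by ring
  have h1s := hconj 1 (Finset.mem_insert_self _ _)
  rw [mul_one] at h1s
  have hsq : ∀ x ∈ X, ‖(star s * s - D.e n) * x‖ ≤ 2 * (Mx * ε') := by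
    intro x hx
    have e1 : (star s * s - D.e n) * x = (star s * s - D.e n * decMap T.φ a c 1) * x +
        D.e n * (decMap T.φ a c 1 * x - x) := by noncomm_ring
    rw [e1]
    have hx' : x ∈ X' := Finset.mem_union_left _ (Finset.mem_union_left _ hx)
    refine (norm_add_le _ _).trans ((add_le_add ((norm_mul_le _ _).trans
      (mul_le_mul h1s (hMxX x hx) (norm_nonneg _) he'.le)) ((he1 _).trans (hdec x hx').2)).trans ?_)
    linarith [le_mul_of_one_le_left he'.le hMx]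
  have hMM : Mx * ε' ≤ Mx * Mx * ε' :=
    mul_le_mul_of_nonneg_right (le_mul_of_one_le_left (by linarith) hMx) he'.le
  have hbd : (L : ℝ) * (2 * M ^ 2 * η) + L * (L * (4 * M ^ 2 * η)) ≤
      (L : ℝ) * (L * (7 * M ^ 5 * η + 2 * M ^ 4 * η)) + η := hLsmall L hM hη0.le
  refine ⟨s, ?_, fun x hx => ⟨?_, ?_⟩, ?_, fun g' hg' => ?_⟩
  · have := norm_le_insert' (star s * s) (D.e n * decMap T.φ a c 1)
    linarith [he1 (decMap T.φ a c 1)]
  · have hx' : x ∈ X' := Finset.mem_union_left _ (Finset.mem_union_left _ hx)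
    have hsx : star x ∈ X' :=
      Finset.mem_union_left _ (Finset.mem_union_right _ (Finset.mem_image_of_mem _ hx))
    have hxx : star x * x ∈ X' := Finset.mem_union_right _ (Finset.mem_image_of_mem _ hx)
    have hWX : ∀ y ∈ X', y ∈ W := fun y hy => by
      simp only [W, Finset.mem_union]; exact Or.inl (Or.inr hy)
    set ζ := 2 * (Mx * ε')
    have hζ : η ≤ ζ ∧ 2 * ε' ≤ ζ := by
      have := le_mul_of_one_le_left he'.le hMx
      constructor <;> simp only [ζ] <;> linarith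
    have hsq' := norm_comm_sq_le (e := D.e n) (ζ := ζ) (s := s) (hMxX x hx)
      (D.e_nonneg n).isSelfAdjoint ((hconj' _ hxx).trans hζ.2) ?_ ?_ ?_ ?_
    · have h64 : (4 + 2 * Mx) * ζ ≤ ε ^ 2 := by
        have : (4 + 2 * Mx) * ζ ≤ 12 * (Mx * Mx * ε') := by
          simp only [ζ]; nlinarith
        linarith [hε'ε.2]
      exact le_of_pow_le_pow_left₀ two_ne_zero hε.le (hsq'.trans h64)
    · rw [← sub_mul]
      refine (norm_mul_le _ _).trans ?_
      have := mul_le_mul (hconj' _ hsx) (hMxX x hx) (norm_nonneg _) (by positivity)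
      simp only [ζ]; linarith
    · rw [← sub_mul]; exact hsq x hx
    · rw [norm_sub_rev]; exact ((hnW _ (hWX _ hsx)).2.1.le.trans hθη).trans hζ.1
    · rw [norm_sub_rev]; exact ((hnW _ (hWX _ hxx)).2.1.le.trans hθη).trans hζ.1
  · exact (hsq x hx).trans (by linarith [hε'ε.1, mul_nonneg (mul_self_nonneg Mx) he'.le])
  · have := norm_unit_mul_le (p := star (D.c n) * D.c n) (f := D.f n) (r := r) a c e'
      hM hMa hMc (T.norm_le _) (D.f_norm n) hR hrR hnf.le
      (fun l => (hnW _ (hWc l).2.2).2.2.le) hη0.le (show θ * R ≤ η by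
        calc θ * R ≤ θ * (R + 1) := mul_le_mul_of_nonneg_left (by linarith) hθ.le
          _ = η := by simp only [θ]; field_simp)
    refine this.trans ?_
    linarith [hLQ η hη0.le, hbd, mul_nonneg (L.cast_nonneg (α := ℝ)) (mul_nonneg (mul_nonneg (by norm_num : (0 : ℝ) ≤ 2) (sq_nonneg M)) hη0.le), mul_nonneg (L.cast_nonneg (α := ℝ)) (mul_nonneg (L.cast_nonneg (α := ℝ)) (mul_nonneg (mul_nonneg (by norm_num : (0 : ℝ) ≤ 4) (sq_nonneg M)) hη0.le))]
  · refine (norm_cross_le a c (α g') hM hMc hz2 hη0.le fun l l' => hk₂ k hkk₂ g' hg' _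
      (Finset.mem_biUnion.2 ⟨g', hg', Finset.mem_image.2 ⟨(l, l'), Finset.mem_univ _, rfl⟩⟩)
        z z hzk hzk).trans ?_
    linarith [hLQ η hη0.le, hbd, mul_nonneg (L.cast_nonneg (α := ℝ)) (mul_nonneg (mul_nonneg (by norm_num : (0 : ℝ) ≤ 2) (sq_nonneg M)) hη0.le), mul_nonneg (L.cast_nonneg (α := ℝ)) (mul_nonneg (L.cast_nonneg (α := ℝ)) (mul_nonneg (mul_nonneg (by norm_num : (0 : ℝ) ≤ 4) (sq_nonneg M)) hη0.le))]

end Vale.Agent.P095.SI
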