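import Vale.Agent.P095.SI.Defs
import Vale.Agent.P101.Simple

/-! P095: approximate units of the ideal, commutators and functional calculus. -/

open Filter Topology
open scoped ComplexOrder

namespace Vale.Agent.P095.SI

variable {B : Type*} [CStarAlgebra B] [PartialOrder B] [StarOrderedRing B]
  {A : Submodule ℂ B}

omit [PartialOrder B] [StarOrderedRing B] in
theorem IsSimpleIdeal.isBi (hA : IsSimpleIdeal A) : P101.IsBi A := fun b _ hx => hA.2.1 b _ hx

omit [PartialOrder B] [StarOrderedRing B] in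
theorem norm_pow_comm_le (n : ℕ) {R : ℝ} : ∃ L : ℝ, 0 ≤ L ∧ ∀ h x : B, ‖h‖ ≤ R →
    ‖h ^ n * x - x * h ^ n‖ ≤ L * ‖h * x - x * h‖ := by
  induction n with
  | zero => exact ⟨0, le_rfl, fun h x _ => by simp⟩
  | succ n ih =>
    obtain ⟨L, hL, hn⟩ := ih
    refine ⟨|R| * L + (|R| + 1) ^ n * (1 + ‖(1 : B)‖), by positivity, fun h x hh => ?_⟩
    have e : h ^ (n + 1) * x - x * h ^ (n + 1) =
        h * (h ^ n * x - x * h ^ n) + (h * x - x * h) * h ^ n := by
      rw [pow_succ']; noncomm_ring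
    rw [e]
    have hb : ∀ m : ℕ, ‖h ^ m‖ ≤ (|R| + 1) ^ m * (1 + ‖(1 : B)‖) := by
      intro m
      induction m with
      | zero => simp
      | succ m ihm =>
        rw [pow_succ' h, pow_succ' (|R| + 1), mul_assoc]
        exact (norm_mul_le _ _).trans (mul_le_mul (hh.trans (by linarith [le_abs_self R])) ihm
          (norm_nonneg _) (by positivity))
    refine (norm_add_le _ _).trans ((add_le_add ((norm_mul_le _ _).trans
      (mul_le_mul (hh.trans (le_abs_self R)) (hn h x hh) (norm_nonneg _) (abs_nonneg _)))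
      ((norm_mul_le _ _).trans (mul_le_mul_of_nonneg_left (hb n) (norm_nonneg _)))).trans
      (le_of_eq ?_))
    ring

omit [PartialOrder B] [StarOrderedRing B] in
theorem norm_pow_sub_le (n : ℕ) {R : ℝ} : ∃ L : ℝ, 0 ≤ L ∧ ∀ h h' : B, ‖h‖ ≤ R → ‖h'‖ ≤ R →
    ‖h ^ n - h' ^ n‖ ≤ L * ‖h - h'‖ := by
  induction n with
  | zero => exact ⟨0, le_rfl, fun h h' _ _ => by simp⟩
  | succ n ih =>
    obtain ⟨L, hL, hn⟩ := ih
    refine ⟨|R| * L + (|R| + 1) ^ n * (1 + ‖(1 : B)‖), by positivity, fun h h' hh hh' => ?_⟩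
    have e : h ^ (n + 1) - h' ^ (n + 1) = h * (h ^ n - h' ^ n) + (h - h') * h' ^ n := by
      rw [pow_succ', pow_succ']; noncomm_ring
    rw [e]
    have hb : ∀ m : ℕ, ‖h' ^ m‖ ≤ (|R| + 1) ^ m * (1 + ‖(1 : B)‖) := by
      intro m
      induction m with
      | zero => simp
      | succ m ihm =>
        rw [pow_succ' h', pow_succ' (|R| + 1), mul_assoc]
        exact (norm_mul_le _ _).trans (mul_le_mul (hh'.trans (by linarith [le_abs_self R])) ihm
          (norm_nonneg _) (by positivity))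
    refine (norm_add_le _ _).trans ((add_le_add ((norm_mul_le _ _).trans
      (mul_le_mul (hh.trans (le_abs_self R)) (hn h h' hh hh') (norm_nonneg _) (abs_nonneg _)))
      ((norm_mul_le _ _).trans (mul_le_mul_of_nonneg_left (hb n) (norm_nonneg _)))).trans
      (le_of_eq ?_))
    ring

omit [PartialOrder B] [StarOrderedRing B] in
theorem exists_poly_lip (p : Polynomial ℝ) (R : ℝ) : ∃ L : ℝ, 0 ≤ L ∧ ∀ h h' x : B, ‖h‖ ≤ R →
    ‖h'‖ ≤ R → ‖Polynomial.aeval h p * x - x * Polynomial.aeval h p‖ ≤ L * ‖h * x - x * h‖ ∧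
      ‖Polynomial.aeval h p - Polynomial.aeval h' p‖ ≤ L * ‖h - h'‖ := by
  induction p using Polynomial.induction_on' with
  | add p q hp hq =>
    obtain ⟨L, hL, hp⟩ := hp
    obtain ⟨M, hM, hq⟩ := hq
    refine ⟨L + M, add_nonneg hL hM, fun h h' x hh hh' => ?_⟩
    obtain ⟨a1, a2⟩ := hp h h' x hh hh'
    obtain ⟨b1, b2⟩ := hq h h' x hh hh'
    simp only [map_add, add_mul, mul_add, add_sub_add_comm]
    exact ⟨(norm_add_le _ _).trans (add_le_add a1 b1), (norm_add_le _ _).trans (add_le_add a2 b2)⟩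
  | monomial n c =>
    obtain ⟨L, hL, hn⟩ := norm_pow_comm_le (B := B) n (R := R)
    obtain ⟨M, hM, hn'⟩ := norm_pow_sub_le (B := B) n (R := R)
    refine ⟨|c| * (L + M), by positivity, fun h h' x hh hh' => ?_⟩
    simp only [Polynomial.aeval_monomial, ← Algebra.smul_def, smul_mul_assoc, mul_smul_comm,
      ← smul_sub, norm_smul, Real.norm_eq_abs, mul_assoc]
    refine ⟨mul_le_mul_of_nonneg_left ((hn h x hh).trans ?_) (abs_nonneg c),
      mul_le_mul_of_nonneg_left ((hn' h h' hh hh').trans ?_) (abs_nonneg c)⟩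
    all_goals exact mul_le_mul_of_nonneg_right (by linarith) (norm_nonneg _)

omit [PartialOrder B] [StarOrderedRing B] in
theorem spectrum_abs_le {h : B} {R : ℝ} (hR : ‖h‖ ≤ R) {t : ℝ} (ht : t ∈ spectrum ℝ h) :
    |t| ≤ |R| * (1 + ‖(1 : B)‖) := by
  have h1 := spectrum.norm_le_norm_mul_of_mem ht
  rw [Real.norm_eq_abs] at h1
  exact h1.trans (mul_le_mul (hR.trans (le_abs_self R)) (by linarith) (norm_nonneg _) (abs_nonneg _))

omit [PartialOrder B] [StarOrderedRing B] in
theorem norm_cfc_sub_poly {f : ℝ → ℝ} (hf : Continuous f) (R : ℝ) {ε : ℝ} (hε : 0 < ε) :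
    ∃ p : Polynomial ℝ, ∀ h : B, IsSelfAdjoint h → ‖h‖ ≤ R →
      ‖_root_.cfc f h - Polynomial.aeval h p‖ ≤ ε := by
  set S := |R| * (1 + ‖(1 : B)‖)
  obtain ⟨p, hp⟩ := exists_polynomial_near_of_continuousOn (-S) S f hf.continuousOn ε hε
  refine ⟨p, fun h hh hR => ?_⟩
  rw [← cfc_polynomial p h, ← cfc_sub f p.eval h hf.continuousOn p.continuous.continuousOn]
  refine norm_cfc_le hε.le fun t ht => ?_
  rw [Real.norm_eq_abs, abs_sub_comm]
  exact (hp t (abs_le.1 (spectrum_abs_le hR ht))).le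

theorem norm_one_sub_le {S : B} (hS0 : 0 ≤ S) {η : ℝ} (hη : 0 < η) :
    ‖(1 - cfc (fun t : ℝ => t * (1 / (max t 0 + η))) S) * S *
      (1 - cfc (fun t : ℝ => t * (1 / (max t 0 + η))) S)‖ ≤ η := by
  have hS : IsSelfAdjoint S := IsSelfAdjoint.of_nonneg hS0
  have hne : ∀ t : ℝ, max t 0 + η ≠ 0 := fun t => by
    have := le_max_right t 0
    linarith
  have hg : Continuous fun t : ℝ => 1 / (max t 0 + η) :=
    continuous_const.div (by fun_prop) hne
  set u := cfc (fun t : ℝ => t * (1 / (max t 0 + η))) S with hu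
  have c0 : Continuous fun t : ℝ => t * (1 / (max t 0 + η)) := continuous_id.mul hg
  have c1 : Continuous fun t : ℝ => 1 - t * (1 / (max t 0 + η)) := continuous_const.sub c0
  have c2 : Continuous fun t : ℝ => (1 - t * (1 / (max t 0 + η))) * t := c1.mul continuous_id
  have h1 : 1 - u = cfc (fun t : ℝ => 1 - t * (1 / (max t 0 + η))) S := by
    rw [hu, cfc_sub (fun _ : ℝ => (1 : ℝ)) _ S continuous_const.continuousOn
      c0.continuousOn, cfc_const_one ℝ S hS]
  have h2 : (1 - u) * S * (1 - u) = cfc (fun t : ℝ => (1 - t * (1 / (max t 0 + η))) * t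
      * (1 - t * (1 / (max t 0 + η)))) S := by
    rw [h1, cfc_mul _ _ S c2.continuousOn c1.continuousOn,
      cfc_mul _ (fun t : ℝ => t) S c1.continuousOn continuous_id.continuousOn, cfc_id' ℝ S hS]
  rw [h2]
  refine norm_cfc_le hη.le fun t ht => ?_
  have h0 := spectrum_nonneg_of_nonneg hS0 ht
  have hd : 0 < t + η := by linarith
  rw [max_eq_left h0, show 1 - t * (1 / (t + η)) = η / (t + η) by field_simp; ring,
    Real.norm_eq_abs, abs_of_nonneg (by positivity)]
  have h3 : η / (t + η) ≤ 1 := by rw [div_le_one hd]; linarith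
  have h4 : η / (t + η) * t ≤ η := by
    rw [div_mul_eq_mul_div, div_le_iff₀ hd]; nlinarith
  exact (mul_le_mul h4 h3 (by positivity) hη.le).trans_eq (mul_one η)

/-- Finite subsets of `A` have approximate units in `A`. -/
theorem exists_unit_approx (hA : IsSimpleIdeal A) (X : Finset B) (hX : ∀ x ∈ X, x ∈ A) {δ : ℝ}
    (hδ : 0 < δ) :
    ∃ u ∈ A, 0 ≤ u ∧ ‖u‖ ≤ 1 ∧ ∀ x ∈ X, ‖u * x - x‖ < δ ∧ ‖x * u - x‖ < δ := by
  classical
  have hst : ∀ {y : B}, y ∈ A → star y ∈ A := fun hy => hA.isBi.star_mem hA.1 hy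
  set S : B := ∑ x ∈ X, (x * star x + star x * x)
  have hS : IsSelfAdjoint S := IsSelfAdjoint.of_nonneg (Finset.sum_nonneg fun x _ =>
    add_nonneg (mul_star_self_nonneg x) (star_mul_self_nonneg x))
  have hSA : S ∈ A := sum_mem fun x hx =>
    add_mem (hA.2.1 (star x) x (hX x hx)).2 (hA.2.1 (star x) x (hX x hx)).1
  have hS0 : 0 ≤ S := Finset.sum_nonneg fun x _ =>
    add_nonneg (mul_star_self_nonneg x) (star_mul_self_nonneg x)
  set η := δ ^ 2 / 2 with hη_def
  have hη : 0 < η := by positivity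
  have hne : ∀ t : ℝ, max t 0 + η ≠ 0 := fun t => by
    have := le_max_right t 0
    linarith
  have hg : Continuous fun t : ℝ => 1 / (max t 0 + η) :=
    continuous_const.div (by fun_prop) hne
  set u : B := S * cfc (fun t : ℝ => 1 / (max t 0 + η)) S with hu_def
  have hu : u = cfc (fun t : ℝ => t * (1 / (max t 0 + η))) S := by
    rw [cfc_mul (fun t : ℝ => t) _ S continuous_id.continuousOn hg.continuousOn, cfc_id' ℝ S hS]
  have hnn : ∀ t ∈ spectrum ℝ S, 0 ≤ t := fun t ht => spectrum_nonneg_of_nonneg hS0 ht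
  refine ⟨u, (hA.2.1 _ S hSA).2, ?_, ?_, fun x hx => ?_⟩
  · rw [hu]
    exact cfc_nonneg fun t ht => by
      have := hnn t ht
      positivity
  · rw [hu]
    refine norm_cfc_le zero_le_one fun t ht => ?_
    have h0 := hnn t ht
    rw [Real.norm_eq_abs, max_eq_left h0, mul_one_div, abs_of_nonneg (by positivity),
      div_le_one (by positivity)]
    linarith
  have key : ‖(1 - u) * S * (1 - u)‖ ≤ η := by
    rw [hu]
    exact norm_one_sub_le hS0 hη
  have hus : IsSelfAdjoint u := by rw [hu]; exact cfc_predicate _ S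
  have small : ∀ y : B, y * star y ≤ S → ‖u * y - y‖ < δ := by
    intro y hy
    have h1 := (IsSelfAdjoint.one B |>.sub hus).conjugate_le_conjugate hy
    have h2 : ‖(1 - u) * (y * star y) * (1 - u)‖ ≤ η :=
      (CStarAlgebra.norm_le_norm_of_nonneg_of_le
        ((IsSelfAdjoint.one B |>.sub hus).conjugate_nonneg (mul_star_self_nonneg y)) h1).trans key
    have h3 : ‖(1 - u) * y‖ * ‖(1 - u) * y‖ ≤ η := by
      rw [← CStarRing.norm_self_mul_star, star_mul, star_sub, star_one, hus.star_eq]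
      simpa [mul_assoc] using h2
    have h4 : ‖u * y - y‖ = ‖(1 - u) * y‖ := by
      rw [← norm_neg, sub_mul, one_mul, neg_sub]
    rw [h4]
    refine abs_lt_of_sq_lt_sq ?_ hδ.le |>.trans_le' (le_abs_self _)
    rw [hη_def] at h3
    nlinarith [sq_nonneg δ, pow_pos hδ 2]
  have hle : x * star x + star x * x ≤ S := Finset.single_le_sum
    (f := fun y => y * star y + star y * y)
    (fun y _ => add_nonneg (mul_star_self_nonneg y) (star_mul_self_nonneg y)) hx
  refine ⟨small x (le_trans (le_add_of_nonneg_right (star_mul_self_nonneg x)) hle), ?_⟩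
  have h := small (star x) (by
    rw [star_star]
    exact le_trans (le_add_of_nonneg_left (mul_star_self_nonneg x)) hle)
  rw [← norm_star, star_sub, star_mul, hus.star_eq]
  exact h

/-- Every element of `A` is nearly in the algebraic ideal generated by a nonzero element. -/
theorem exists_approx_bi (hA : IsSimpleIdeal A) {C : B} (hC : C ∈ A) (hC0 : C ≠ 0) {a : B}
    (ha : a ∈ A) {δ : ℝ} (hδ : 0 < δ) :
    ∃ (m : ℕ) (x y : Fin m → B), (∀ i, x i ∈ A ∧ y i ∈ A) ∧ ‖a - ∑ i, x i * C * y i‖ < δ := by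
  classical
  set J := (P101.bi ({C} : Set B)).topologicalClosure
  have hJA : J ≤ A := by
    refine Submodule.topologicalClosure_minimal _ (Submodule.span_le.2 ?_) hA.1
    rintro _ ⟨p, q, z, rfl, rfl⟩
    exact (hA.2.1 q _ (hA.2.1 p _ hC).1).2
  have hJ : J = A := by
    refine (hA.2.2.2 J hJA (Submodule.isClosed_topologicalClosure _)
      (fun b y hy => (P101.isBi_bi ({C} : Set B)).topClosure b hy)).resolve_left fun h => hC0 ?_
    have : C ∈ J := Submodule.le_topologicalClosure _ (P101.subset_bi _ rfl)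
    rwa [h, Submodule.mem_bot] at this
  obtain ⟨u, huA, -, hu1, hu⟩ := exists_unit_approx hA {a} (by simpa using ha) (δ := δ / 4)
    (by linarith)
  obtain ⟨h1, h2⟩ := hu a (Finset.mem_singleton_self a)
  rw [← hJ] at ha
  obtain ⟨e, he, hd⟩ := Metric.mem_closure_iff.1
    (show a ∈ _root_.closure (P101.bi ({C} : Set B) : Set B) from ha) (δ / 2) (by linarith)
  rw [dist_eq_norm] at hd
  obtain ⟨m, p, q, z, hz, rfl⟩ := P101.exists_sum_of_mem_bi he
  refine ⟨m, fun i => u * p i, fun i => q i * u,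
    fun i => ⟨(hA.2.1 (p i) u huA).2, (hA.2.1 (q i) u huA).1⟩, ?_⟩
  have hsum : ∑ i, u * p i * C * (q i * u) = u * (∑ r, p r * z r * q r) * u := by
    simp only [Finset.mul_sum, Finset.sum_mul, show ∀ i, z i = C from hz, mul_assoc]
  rw [hsum]
  have e1 : ‖u * (a - ∑ r, p r * z r * q r) * u‖ ≤ ‖a - ∑ r, p r * z r * q r‖ :=
    (norm_mul_le _ _).trans ((mul_le_of_le_one_right (norm_nonneg _) hu1).trans
      ((norm_mul_le _ _).trans (mul_le_of_le_one_left (norm_nonneg _) hu1)))
  have e2 : ‖(u * a - a) * u‖ ≤ ‖u * a - a‖ :=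
    (norm_mul_le _ _).trans (mul_le_of_le_one_right (norm_nonneg _) hu1)
  have e3 : a - u * (∑ r, p r * z r * q r) * u =
      -(a * u - a) - (u * a - a) * u + u * (a - ∑ r, p r * z r * q r) * u := by noncomm_ring
  rw [e3]
  refine ((norm_add_le _ _).trans (add_le_add (norm_sub_le _ _) le_rfl)).trans_lt ?_
  rw [norm_neg]
  linarith

omit [PartialOrder B] [StarOrderedRing B] in
/-- Functional calculus of almost commuting elements almost commutes. -/
theorem norm_cfc_comm {f : ℝ → ℝ} (hf : Continuous f) (R : ℝ) {ε : ℝ} (hε : 0 < ε) :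
    ∃ δ > (0 : ℝ), ∀ h x : B, IsSelfAdjoint h → ‖h‖ ≤ R → ‖x‖ ≤ R → ‖h * x - x * h‖ < δ →
      ‖cfc f h * x - x * cfc f h‖ < ε := by
  have hR : 0 ≤ |R| := abs_nonneg R
  obtain ⟨p, hp⟩ := norm_cfc_sub_poly (B := B) hf R (ε := ε / (4 * (|R| + 1))) (by positivity)
  obtain ⟨L, hL, hl⟩ := exists_poly_lip (B := B) p R
  refine ⟨ε / (4 * (L + 1)), by positivity, fun h x hh hhR hxR hlt => ?_⟩
  have h1 := hp h hh hhR
  have h2 := (hl h h x hhR hhR).1
  have e : _root_.cfc f h * x - x * _root_.cfc f h =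
      (_root_.cfc f h - Polynomial.aeval h p) * x - x * (_root_.cfc f h - Polynomial.aeval h p)
        + (Polynomial.aeval h p * x - x * Polynomial.aeval h p) := by noncomm_ring
  rw [e]
  have hx : ‖x‖ ≤ |R| + 1 := by linarith [le_abs_self R]
  have n1 : ‖(_root_.cfc f h - Polynomial.aeval h p) * x‖ ≤ ε / 4 :=
    (norm_mul_le _ _).trans ((mul_le_mul h1 hx (norm_nonneg _) (by positivity)).trans_eq
      (by field_simp))
  have n2 : ‖x * (_root_.cfc f h - Polynomial.aeval h p)‖ ≤ ε / 4 :=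
    (norm_mul_le _ _).trans ((mul_le_mul hx h1 (norm_nonneg _) (by positivity)).trans_eq
      (by field_simp))
  have n3 : L * ‖h * x - x * h‖ ≤ ε / 4 := by
    refine (mul_le_mul_of_nonneg_left hlt.le hL).trans ?_
    rw [← mul_div_assoc, div_le_div_iff₀ (by positivity) (by norm_num)]
    nlinarith
  refine ((norm_add_le _ _).trans (add_le_add (norm_sub_le _ _) h2)).trans_lt ?_
  linarith

omit [PartialOrder B] [StarOrderedRing B] in
/-- Functional calculus is uniformly continuous on bounded sets. -/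
theorem norm_cfc_sub {f : ℝ → ℝ} (hf : Continuous f) (R : ℝ) {ε : ℝ} (hε : 0 < ε) :
    ∃ δ > (0 : ℝ), ∀ h h' : B, IsSelfAdjoint h → IsSelfAdjoint h' → ‖h‖ ≤ R → ‖h'‖ ≤ R →
      ‖h - h'‖ < δ → ‖cfc f h - cfc f h'‖ < ε := by
  obtain ⟨p, hp⟩ := norm_cfc_sub_poly (B := B) hf R (ε := ε / 4) (by linarith)
  obtain ⟨L, hL, hl⟩ := exists_poly_lip (B := B) p R
  refine ⟨ε / (4 * (L + 1)), by positivity, fun h h' hh hh' hhR hhR' hlt => ?_⟩
  have h1 := hp h hh hhR
  have h1' := hp h' hh' hhR'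
  have h2 := (hl h h' h hhR hhR').2
  have n3 : L * ‖h - h'‖ ≤ ε / 4 := by
    refine (mul_le_mul_of_nonneg_left hlt.le hL).trans ?_
    rw [← mul_div_assoc, div_le_div_iff₀ (by positivity) (by norm_num)]
    nlinarith
  have e : _root_.cfc f h - _root_.cfc f h' = (_root_.cfc f h - Polynomial.aeval h p)
      - (_root_.cfc f h' - Polynomial.aeval h' p)
      + (Polynomial.aeval h p - Polynomial.aeval h' p) := by abel
  rw [e]
  refine ((norm_add_le _ _).trans (add_le_add (norm_sub_le _ _) h2)).trans_lt ?_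
  linarith

omit [PartialOrder B] [StarOrderedRing B] in
theorem CentralTo.add {x y : ℕ → B} (hx : CentralTo A x) (hy : CentralTo A y) :
    CentralTo A fun n => x n + y n := by
  intro a ha
  refine squeeze_zero (fun n => norm_nonneg _) (fun n => ?_)
    (by simpa using (hx a ha).add (hy a ha))
  rw [show (x n + y n) * a - a * (x n + y n) = (x n * a - a * x n) + (y n * a - a * y n) by
    noncomm_ring]
  exact norm_add_le _ _

omit [PartialOrder B] [StarOrderedRing B] in
theorem CentralTo.mul {x y : ℕ → B} {R : ℝ} (hxR : ∀ n, ‖x n‖ ≤ R) (hyR : ∀ n, ‖y n‖ ≤ R)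
    (hx : CentralTo A x) (hy : CentralTo A y) : CentralTo A fun n => x n * y n := by
  intro a ha
  refine squeeze_zero (fun n => norm_nonneg _) (fun n => ?_)
    (by simpa using ((hy a ha).const_mul R).add ((hx a ha).mul_const R))
  rw [show x n * y n * a - a * (x n * y n) =
    x n * (y n * a - a * y n) + (x n * a - a * x n) * y n by noncomm_ring]
  exact (norm_add_le _ _).trans (add_le_add
    ((norm_mul_le _ _).trans (mul_le_mul_of_nonneg_right (hxR n) (norm_nonneg _)))
    ((norm_mul_le _ _).trans (mul_le_mul_of_nonneg_left (hyR n) (norm_nonneg _))))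

omit [PartialOrder B] [StarOrderedRing B] in
theorem CentralTo.star (hA : IsSimpleIdeal A) {x : ℕ → B} (hx : CentralTo A x) :
    CentralTo A fun n => Star.star (x n) := by
  intro a ha
  refine squeeze_zero (fun n => norm_nonneg _) (fun n => le_of_eq ?_)
    (hx (Star.star a) (hA.isBi.star_mem hA.1 ha))
  rw [← norm_star, star_sub, star_mul, star_mul, star_star, norm_sub_rev]

omit [PartialOrder B] [StarOrderedRing B] in
theorem CentralTo.cfc {f : ℝ → ℝ} (hf : Continuous f) {x : ℕ → B} {R : ℝ}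
    (hxR : ∀ n, ‖x n‖ ≤ R) (hsa : ∀ n, IsSelfAdjoint (x n)) (hx : CentralTo A x) :
    CentralTo A fun n => _root_.cfc f (x n) := by
  intro a ha
  rw [Metric.tendsto_atTop]
  intro ε hε
  obtain ⟨δ, hδ, hd⟩ := norm_cfc_comm (B := B) hf (max R ‖a‖) hε
  obtain ⟨N, hN⟩ := Metric.tendsto_atTop.1 (hx a ha) δ hδ
  refine ⟨N, fun n hn => ?_⟩
  have h1 := hN n hn
  rw [Real.dist_eq, sub_zero, abs_of_nonneg (norm_nonneg _)] at h1 ⊢
  exact hd (x n) a (hsa n) ((hxR n).trans (le_max_left _ _)) (le_max_right _ _) h1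

omit [PartialOrder B] [StarOrderedRing B] in
theorem IsSimpleIdeal.star_mem (hA : IsSimpleIdeal A) {a : B} (ha : a ∈ A) : Star.star a ∈ A := by
  exact hA.isBi.star_mem hA.1 ha

end Vale.Agent.P095.SI
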