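import Mathlib

/-!
P095, equivariant comparison for actions of amenable groups: definitions.

`B` is a unital C*-algebra and `A` a closed two-sided ideal of it (for a unital algebra `A = B`, for
a nonunital algebra `B` is its unitisation).  `P` is an algebraic ideal inside `A` on which the
traces live.
-/

open Filter Topology
open scoped ComplexOrder ENNReal

namespace Vale.Agent.P095.SI

variable {B : Type*} [CStarAlgebra B]

/-- A two-sided ideal, as a submodule. -/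
def IsBimod (I : Submodule ℂ B) : Prop := ∀ b, ∀ a ∈ I, b * a ∈ I ∧ a * b ∈ I

/-- A nonzero closed two-sided ideal which is simple. -/
def IsSimpleIdeal (A : Submodule ℂ B) : Prop :=
  IsClosed (A : Set B) ∧ IsBimod A ∧ A ≠ ⊥ ∧
    ∀ I : Submodule ℂ B, I ≤ A → IsClosed (I : Set B) → IsBimod I → I = ⊥ ∨ I = A

/-- Some nonzero element is fixed by left multiplication by `e`. -/
def Nondeg (e : B) : Prop := ∃ z, z ≠ 0 ∧ e * z = z

/-- A sequence asymptotically commuting with every element of `A`. -/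
def CentralTo (A : Submodule ℂ B) (x : ℕ → B) : Prop :=
  ∀ a ∈ A, Tendsto (fun n => ‖x n * a - a * x n‖) atTop (𝓝 0)

/-- `σ` moves no contraction that almost commutes with `A`, measured against elements of `A`:
`σ` acts trivially on the central sequences of `A`. -/
def TrivOn (A : Submodule ℂ B) (σ : B → B) : Prop :=
  ∀ a ∈ A, ∀ ε > (0 : ℝ), ∃ X : Finset B, (∀ y ∈ X, y ∈ A) ∧ ∃ δ > (0 : ℝ), ∀ x : B, ‖x‖ ≤ 1 →
    (∀ y ∈ X, ‖x * y - y * x‖ < δ) → ‖(σ x - x) * a‖ ≤ ε ∧ ‖a * (σ x - x)‖ ≤ ε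

/-- An invariant dimension drop pair in the central sequence algebra of `A`. -/
def HasInvariantPair (A : Submodule ℂ B) {G : Type*} (α : G → B ≃⋆ₐ[ℂ] B) : Prop :=
  ∃ c s : ℕ → B, (∀ n, ‖c n‖ ≤ 1) ∧ (∀ n, ‖s n‖ ≤ 2) ∧ CentralTo A c ∧ CentralTo A s ∧
    ∀ a ∈ A, Tendsto (fun n => ‖c n * c n * a‖) atTop (𝓝 0) ∧
      Tendsto (fun n => ‖(star (s n) * s n - (1 - star (c n) * c n - c n * star (c n))) * a‖)
        atTop (𝓝 0) ∧
      Tendsto (fun n => ‖(star (c n) * c n * s n - s n) * a‖) atTop (𝓝 0) ∧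
      ∀ g, Tendsto (fun n => ‖(α g (c n) - c n) * a‖) atTop (𝓝 0) ∧
        Tendsto (fun n => ‖(α g (s n) - s n) * a‖) atTop (𝓝 0)

section Order

variable [PartialOrder B] [StarOrderedRing B]

/-- Below every element of `A`, a positive element can be found which `σ` moves away from
itself. -/
def OrthFor (A : Submodule ℂ B) (σ : B → B) : Prop :=
  ∀ e ∈ A, 0 ≤ e → ‖e‖ ≤ 1 → Nondeg e → ∀ x : B, ∀ ε > (0 : ℝ),
    ∃ z, e * z = z ∧ 0 ≤ z ∧ ‖z‖ = 1 ∧ ‖z * x * σ z‖ ≤ ε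

/-- The completely positive approximation property: the identity of `A` is approximated, on finite
sets, by maps `x ↦ ∑ₖ ∑ᵢⱼ ψᵢⱼ(x) cₖᵢ* cₖⱼ` with `(ψᵢⱼ)` positive on `yᵢ* yⱼ`. -/
def HasCPApprox (A : Submodule ℂ B) : Prop :=
  ∀ X : Finset B, (∀ x ∈ X, x ∈ A) → ∀ ε > (0 : ℝ),
    ∃ (n K : ℕ) (ψ : Fin n → Fin n → (B →ₗ[ℂ] ℂ)) (c : Fin K → Fin n → B),
      (∀ k i, c k i ∈ A) ∧
      (∀ y : Fin n → B, (∀ i, y i ∈ A) → 0 ≤ ∑ i, ∑ j, ψ i j (star (y i) * y j)) ∧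
      ∀ x ∈ X, ‖x - ∑ k, ∑ i, ∑ j, ψ i j x • (star (c k i) * c k j)‖ < ε

end Order

variable (P : Submodule ℂ B)

/-- A positive trace on the ideal `P`. -/
def IsTraceOn (τ : P →ₗ[ℂ] ℂ) : Prop :=
  (∀ (p : P) (b : B) (h : (p : B) * b ∈ P) (h' : b * (p : B) ∈ P),
      τ ⟨(p : B) * b, h⟩ = τ ⟨b * (p : B), h'⟩) ∧
  ∀ (p : P) (h : star (p : B) * p ∈ P), 0 ≤ τ ⟨star (p : B) * p, h⟩

/-- The trace `τ` is normalised at `d`. -/
def IsNormTrace (d : B) (τ : P →ₗ[ℂ] ℂ) : Prop :=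
  IsTraceOn P τ ∧ ∀ h : star d * d ∈ P, (τ ⟨star d * d, h⟩).re = 1

open Classical in
/-- `τ (p* q)`, and zero outside the domain. -/
noncomputable def tip (τ : P →ₗ[ℂ] ℂ) (p q : B) : ℂ :=
  if h : star p * q ∈ P then τ ⟨star p * q, h⟩ else 0

/-- The 2-norm of a trace. -/
noncomputable def tn (τ : P →ₗ[ℂ] ℂ) (q : B) : ℝ := Real.sqrt (tip P τ q q).re

/-- Small in the 2-norm, cut by `d * d`, uniformly over the traces normalised at `d`. -/
def Small (d : B) (z : ℕ → B) : Prop :=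
  ∀ ε > (0 : ℝ), ∀ᶠ n in atTop, ∀ τ, IsNormTrace P d τ → tn P τ (z n * (d * d)) < ε

/-- The ideal is tracially McDuff: for countably many self-adjoint cut-downs there is a bounded
central sequence which is a unital two by two matrix unit up to elements small in the 2-norms of
the traces that are at most one on the cut-down. -/
def IsMcDuff : Prop :=
  ∀ D : Set B, D.Countable → (∀ e ∈ D, e ∈ P ∧ IsSelfAdjoint e) →
    ∃ x : ℕ → B, (∃ C, ∀ n, ‖x n‖ ≤ C) ∧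
      (∀ b, Tendsto (fun n => ‖x n * b - b * x n‖) atTop (𝓝 0)) ∧
      ∀ e ∈ D, ∀ ε > (0 : ℝ), ∀ᶠ n in atTop, ∀ τ, IsTraceOn P τ → tn P τ e ≤ 1 →
        tn P τ (x n * x n * (e * e)) < ε ∧
          tn P τ ((star (x n) * x n + x n * star (x n) - 1) * (e * e)) < ε

/-- An action of a countable group with Følner sets. -/
def IsFolnerAction {G : Type*} [Group G] [DecidableEq G] (α : G → B ≃⋆ₐ[ℂ] B) : Prop :=
  (∀ a, α 1 a = a) ∧ (∀ g h a, α (g * h) a = α g (α h a)) ∧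
    ∀ (K : Finset G) (ε : ℝ), 0 < ε → ∃ F : Finset G, F.Nonempty ∧ ∀ g ∈ K,
      (((F.image (g * ·)) \ F).card : ℝ) ≤ ε * F.card

variable [PartialOrder B] [StarOrderedRing B]

open Classical in
/-- The dimension function of a trace: the supremum over `k` of the trace of `min(1, k a)`. -/
noncomputable def dimTr (τ : P →ₗ[ℂ] ℂ) (a : B) : ℝ≥0∞ :=
  ⨆ k : ℕ, if h : a * cfc (fun t : ℝ => (k : ℝ) / max 1 (k * t)) a ∈ P then
    ENNReal.ofReal (τ ⟨a * cfc (fun t : ℝ => (k : ℝ) / max 1 (k * t)) a, h⟩).re else 0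

/-- Strict comparison by the traces on `P` normalised at `d`. -/
def StrictComp (d : B) : Prop :=
  ∀ a b : B, a ∈ P → b ∈ P → 0 ≤ a → ‖a‖ ≤ 1 → 0 ≤ b → ‖b‖ ≤ 1 →
    (∀ τ, IsNormTrace P d τ → dimTr P τ a < dimTr P τ b) →
    ∀ ε > (0 : ℝ), ∃ r : B, ‖star r * b * r - a‖ < ε

/-- The standing hypotheses: a simple ideal `A`, a two-sided star ideal `P` inside it, and a
contraction `d ∈ P` with a unit in `A` and a nonzero corner. -/
structure Setup (A : Submodule ℂ B) (d : B) : Prop where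
  simple : IsSimpleIdeal A
  le : P ≤ A
  bimod : IsBimod P
  star_mem : ∀ p ∈ P, star p ∈ P
  d_mem : d ∈ P
  d_nonneg : 0 ≤ d
  d_norm : ‖d‖ ≤ 1
  d_nondeg : Nondeg d
  d_unit : ∃ a ∈ A, 0 ≤ a ∧ ‖a‖ ≤ 1 ∧ a * d = d

end Vale.Agent.P095.SI
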