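import Vale.Agent.P095.SI.Assembly
import Vale.Agent.P095.Mix.Statement

/-!
P095: invariant dimension drop pairs from tracially McDuff ideals and from characterless unital
algebras.
-/

open Filter Topology
open scoped ComplexOrder

namespace Vale.Agent.P095.SI

open Mix

variable {B : Type*} [CStarAlgebra B] [PartialOrder B] [StarOrderedRing B]
  [TopologicalSpace.SeparableSpace B] {A P : Submodule ℂ B} {d : B}

omit [TopologicalSpace.SeparableSpace B] in
/-- A trace normalised at `d` is an ideal trace at `(d, d)`. -/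
theorem isIdealTrace_of_norm (S : Setup P A d) {τ : P →ₗ[ℂ] ℂ} (hτ : IsNormTrace P d τ) :
    IsIdealTrace P (d, d) τ := by
  have hsa := S.d_nonneg.isSelfAdjoint.star_eq
  have hC : d * d ∈ P := (S.bimod d d S.d_mem).1
  have key : ∀ e ∈ P, star e = e → tn P τ e ≤ 1 → ∀ h : e * star e ∈ P,
      (τ ⟨e * star e, h⟩).re ≤ 1 := by
    intro e he hes hle h
    have h1 := tn_sq_eq S.bimod S.star_mem hτ.1 he
    rw [tip, dif_pos ((S.bimod (star e) e he).1)] at h1
    have h2 : (⟨e * star e, h⟩ : P) = ⟨star e * e, (S.bimod (star e) e he).1⟩ := by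
      simp [hes]
    rw [h2, ← h1, ← Complex.ofReal_pow, Complex.ofReal_re]
    exact pow_le_one₀ (tn_nonneg _) hle
  refine ⟨hτ.1.1, hτ.1.2, ?_⟩
  intro e he
  simp only [Set.mem_insert_iff, Set.mem_singleton_iff] at he
  rcases he with rfl | rfl | rfl
  · exact key _ S.d_mem hsa (tn_d S hτ).le
  · exact key _ S.d_mem hsa (tn_d S hτ).le
  · refine key _ hC (by rw [star_mul, hsa]) ?_
    refine (tn_mul_left S.bimod S.star_mem hτ.1 d S.d_mem).trans ?_
    rw [tn_d S hτ, mul_one]; exact S.d_norm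

omit [TopologicalSpace.SeparableSpace B] in
theorem small_of_smallTr (S : Setup P A d) {D : Set (B × B)} (hD : (d, d) ∈ D) {z : ℕ → B}
    (hz : SmallTr P D z) : Small P d z := by
  intro ε hε
  filter_upwards [hz (d, d) hD (ε ^ 2) (by positivity)] with n hn τ hτ
  have hsa := S.d_nonneg.isSelfAdjoint.star_eq
  have hC : d * d ∈ P := (S.bimod d d S.d_mem).1
  have hq : z n * (d * d) ∈ P := (S.bimod (z n) _ hC).1
  have hmem : d * d * (star (z n) * z n) * star (d * d) ∈ P :=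
    (S.bimod _ _ ((S.bimod _ _ hC).2)).2
  have h1 := hn τ (isIdealTrace_of_norm S hτ) hmem
  have h2 := tn_sq_eq S.bimod S.star_mem hτ.1 hq
  rw [tip, dif_pos ((S.bimod (star (z n * (d * d))) _ hq).1)] at h2
  have h3 : (⟨star (z n * (d * d)) * (z n * (d * d)),
      (S.bimod (star (z n * (d * d))) _ hq).1⟩ : P) =
      ⟨d * d * (star (z n) * z n) * star (d * d), hmem⟩ := by
    simp [hsa, mul_assoc]
  rw [h3] at h2
  rw [← h2, ← Complex.ofReal_pow, Complex.ofReal_re] at h1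
  exact lt_of_pow_lt_pow_left₀ 2 hε.le h1

/-- Equivariant dimension drop pairs for actions on tracially McDuff simple nuclear algebras with
strict comparison. -/
theorem hasInvariantPair_of_weakComp (S : Setup P A d) (hcp : HasCPApprox A)
    (hcomp : Weak.WeakComp P d) (hτ : ∃ τ, IsNormTrace P d τ) (hmc : IsMcDuff P)
    {G : Type*} [Group G] [DecidableEq G] [Countable G] (α : G → B ≃⋆ₐ[ℂ] B)
    (hα : IsFolnerAction α) (hαA : ∀ g, ∀ a ∈ A, α g a ∈ A)
    (hαP : ∀ g, ∀ p ∈ P, α g p ∈ P) : HasInvariantPair A α := by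
  let D : Set (B × B) := Set.range fun g => (α g d, α g d)
  have hD : D.Countable := Set.countable_range _
  have hDP : ∀ p ∈ D, p.1 ∈ P ∧ p.2 ∈ P := by
    rintro p ⟨g, rfl⟩; exact ⟨hαP g d S.d_mem, hαP g d S.d_mem⟩
  have hdD : (d, d) ∈ D := ⟨1, by simp [hα.1]⟩
  obtain ⟨x₀, ⟨C, hC⟩, hxc, hxs⟩ := hmc (Set.range fun g => α g d) (Set.countable_range _)
    (by rintro e ⟨g, rfl⟩; exact ⟨hαP g d S.d_mem, (S.d_nonneg.isSelfAdjoint.map (α g))⟩)
  let x : BoundedContinuousFunction ℕ B :=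
    BoundedContinuousFunction.ofNormedAddCommGroupDiscrete x₀ C hC
  have conv : ∀ z : ℕ → B, (∀ g, ∀ ε > (0 : ℝ), ∀ᶠ n in atTop, ∀ τ, IsTraceOn P τ →
      tn P τ (α g d) ≤ 1 → tn P τ (z n * (α g d * α g d)) < ε) → SmallTr P D z := by
    rintro z hz p ⟨g, rfl⟩ ε hε
    filter_upwards [hz g (Real.sqrt ε) (Real.sqrt_pos.2 hε)] with n hn τ hτ hmem
    have hsa : star (α g d) = α g d := by rw [← map_star, S.d_nonneg.isSelfAdjoint.star_eq]
    have he := hαP g d S.d_mem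
    have h1 : tn P τ (α g d) ≤ 1 := by
      rw [tn, tip, dif_pos ((S.bimod _ _ he).1), Real.sqrt_le_one]
      have h := hτ.2.2 (α g d) (by simp) ((S.bimod _ _ he).2)
      simpa [hsa] using h
    have h2 := hn τ ⟨hτ.1, hτ.2.1⟩ h1
    have hCP : α g d * α g d ∈ P := (S.bimod _ _ he).1
    rw [tn, tip, dif_pos ((S.bimod _ _ ((S.bimod (z n) _ hCP).1)).1)] at h2
    have h3 := (Real.sqrt_lt_sqrt_iff_of_pos hε).1 h2
    simpa [hsa, mul_assoc] using h3
  have hx : IsMatrixUnit (SmallTr P D) ⇑x :=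
    ⟨hxc, conv _ fun g ε hε => (hxs _ ⟨g, rfl⟩ ε hε).mono fun n hn τ h1 h2 => (hn τ h1 h2).1,
      conv _ fun g ε hε => (hxs _ ⟨g, rfl⟩ ε hε).mono fun n hn τ h1 h2 => (hn τ h1 h2).2⟩
  obtain ⟨v, hv1, ⟨hvc, hv2, hv3⟩, hvα⟩ := exists_invariant_matrixUnit_ideal α hα P
    ⟨fun b p hp => (S.bimod b p hp).1, fun b p hp => (S.bimod b p hp).2, S.star_mem, hαP⟩ D hD hDP
    (fun g p hp => by
      obtain ⟨k, rfl⟩ := hp
      exact ⟨g * k, by simp [hα.2.1]⟩) x hx
  exact hasInvariantPair_of_matrixUnit S hcp hcomp hτ α hα.1 hα.2.1 hα.2.2 hαA hαP hv1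
    (fun a _ => hvc a) (small_of_smallTr S hdD hv2) (small_of_smallTr S hdD hv3)
    fun g => small_of_smallTr S hdD (hvα g)

/-- Equivariant dimension drop pairs for actions on tracially McDuff simple nuclear algebras with
strict comparison. -/
theorem hasInvariantPair_of_mcDuff (S : Setup P A d) (hcp : HasCPApprox A)
    (hcomp : StrictComp P d) (hτ : ∃ τ, IsNormTrace P d τ) (hmc : IsMcDuff P)
    {G : Type*} [Group G] [DecidableEq G] [Countable G] (α : G → B ≃⋆ₐ[ℂ] B)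
    (hα : IsFolnerAction α) (hαA : ∀ g, ∀ a ∈ A, α g a ∈ A)
    (hαP : ∀ g, ∀ p ∈ P, α g p ∈ P) : HasInvariantPair A α :=
  hasInvariantPair_of_weakComp S hcp (Weak.weakComp_of_strictComp S hcomp) hτ hmc α hα hαA hαP

omit [TopologicalSpace.SeparableSpace B] in
theorem setup_top (hB : IsSimpleIdeal (⊤ : Submodule ℂ B)) :
    Setup (⊤ : Submodule ℂ B) (⊤ : Submodule ℂ B) (1 : B) := by
  have : Nontrivial B := by
    by_contra h
    rw [not_nontrivial_iff_subsingleton] at h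
    exact hB.2.2.1 (Subsingleton.elim _ _)
  exact ⟨hB, le_rfl, fun _ _ _ => ⟨trivial, trivial⟩, fun _ _ => trivial, trivial, zero_le_one,
    norm_one.le, ⟨1, one_ne_zero, one_mul 1⟩, ⟨1, trivial, zero_le_one, norm_one.le, one_mul 1⟩⟩

/-- Equivariant dimension drop pairs for actions on unital simple nuclear algebras with strict
comparison whose central sequence algebra has no characters. -/
theorem hasInvariantPair_of_characterless (hB : IsSimpleIdeal (⊤ : Submodule ℂ B))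
    (hcp : HasCPApprox (⊤ : Submodule ℂ B)) (hcomp : StrictComp (⊤ : Submodule ℂ B) (1 : B))
    (hτ : ∃ τ : B →ₗ[ℂ] ℂ, (∀ x y, τ (x * y) = τ (y * x)) ∧ (∀ x, 0 ≤ τ (star x * x)) ∧ τ 1 = 1)
    {ω : Ultrafilter ℕ} (hω : (ω : Filter ℕ) ≤ atTop)
    (hF : IsEmpty (Vale.Agent.P101.FomegaCharacter B ω))
    {G : Type*} [Group G] [DecidableEq G] [Countable G] (α : G → B ≃⋆ₐ[ℂ] B)
    (hα : IsFolnerAction α) : HasInvariantPair (⊤ : Submodule ℂ B) α := by
  have S := setup_top hB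
  obtain ⟨v, hv1, ⟨hvc, hv2, hv3⟩, hvα⟩ := exists_invariant_matrixUnit_all hω hF α hα
  have key : ∀ z : ℕ → B, SmallAll z → Small (⊤ : Submodule ℂ B) (1 : B) z := by
    intro z hz ε hε
    filter_upwards [hz (ε ^ 2) (by positivity)] with n hn τ hτ'
    let φ : B →ₗ[ℂ] ℂ := τ ∘ₗ Submodule.topEquiv.symm.toLinearMap
    have hφ : ∀ y (h : y ∈ (⊤ : Submodule ℂ B)), φ y = τ ⟨y, h⟩ := fun y h => rfl
    have h1 : φ 1 = 1 := by
      have h2 := hτ'.1.2 ⟨1, trivial⟩ trivial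
      simp only [star_one, one_mul] at h2
      have h3 := hτ'.2 trivial
      simp only [star_one, one_mul] at h3
      rw [hφ 1 trivial]
      exact Complex.ext h3 (Complex.nonneg_iff.1 h2).2.symm
    have h4 := hn φ ⟨fun x y => hτ'.1.1 ⟨x, trivial⟩ y trivial trivial,
      fun x => hτ'.1.2 ⟨x, trivial⟩ trivial, h1⟩
    rw [tn, tip, dif_pos Submodule.mem_top, Real.sqrt_lt' hε]
    simpa [hφ] using h4
  obtain ⟨τ, h1, h2, h3⟩ := hτ
  exact hasInvariantPair_of_matrixUnit S hcp (Weak.weakComp_of_strictComp S hcomp)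
    ⟨τ ∘ₗ (⊤ : Submodule ℂ B).subtype, ⟨fun p b _ _ => h1 _ _, fun p _ => h2 _⟩,
      fun _ => by simp [h3]⟩
    α hα.1 hα.2.1 hα.2.2 (fun _ _ _ => trivial) (fun _ _ _ => trivial) hv1
    (fun a _ => hvc a) (key _ hv2) (key _ hv3) fun g => key _ (hvα g)

end Vale.Agent.P095.SI
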