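import Vale.Agent.P095.SI.Basic

/-! P095: the 2-norms of traces on `P`, and sequences small in them. -/

open Filter Topology
open scoped ComplexOrder

namespace Vale.Agent.P095.SI

set_option linter.unusedSectionVars false
set_option linter.unusedVariables false

variable {B : Type*} [CStarAlgebra B] [PartialOrder B] [StarOrderedRing B]
  {A P : Submodule ℂ B} {d : B} {τ : P →ₗ[ℂ] ℂ}

section Trace

variable (hb : IsBimod P) (hs : ∀ p ∈ P, star p ∈ P) (hτ : IsTraceOn P τ)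

theorem tn_nonneg (q : B) : 0 ≤ tn P τ q := Real.sqrt_nonneg _

omit [PartialOrder B] [StarOrderedRing B] in
theorem tip_eq {p q : B} (h : star p * q ∈ P) : tip P τ p q = τ ⟨star p * q, h⟩ := dif_pos h

include hb hs hτ

theorem tip_self_nonneg {q : B} (hq : q ∈ P) : 0 ≤ tip P τ q q := by
  rw [tip_eq (hb _ q hq).1]
  exact hτ.2 ⟨q, hq⟩ _

theorem tip_add_right {p q r : B} (hq : q ∈ P) (hr : r ∈ P) :
    tip P τ p (q + r) = tip P τ p q + tip P τ p r := by
  have h1 := (hb (star p) q hq).1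
  have h2 := (hb (star p) r hr).1
  rw [tip_eq (hb _ _ (P.add_mem hq hr)).1, tip_eq h1, tip_eq h2, ← map_add]
  exact congrArg τ (Subtype.ext (mul_add _ _ _))

theorem tip_smul_right {p q : B} (r : ℂ) (hq : q ∈ P) :
    tip P τ p (r • q) = r * tip P τ p q := by
  rw [tip_eq (hb _ _ (P.smul_mem r hq)).1, tip_eq (hb _ q hq).1]
  exact ((congrArg τ (Subtype.ext (mul_smul_comm _ _ _))).trans (map_smul τ r _)).trans
    (smul_eq_mul _ _)

theorem tip_add_left {p q r : B} (hr : r ∈ P) :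
    tip P τ (p + q) r = tip P τ p r + tip P τ q r := by
  rw [tip_eq (hb _ r hr).1, tip_eq (hb _ r hr).1, tip_eq (hb _ r hr).1, ← map_add]
  exact congrArg τ (Subtype.ext (by simp [add_mul]))

theorem tip_smul_left {p q : B} (r : ℂ) (hq : q ∈ P) :
    tip P τ (r • p) q = (starRingEnd ℂ) r * tip P τ p q := by
  rw [tip_eq (hb _ q hq).1, tip_eq (hb _ q hq).1]
  exact ((congrArg τ (Subtype.ext (by simp [smul_mul_assoc]))).trans (map_smul τ _ _)).trans
    (smul_eq_mul _ _)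

theorem tip_conj {p q : B} (hp : p ∈ P) (hq : q ∈ P) :
    (starRingEnd ℂ) (tip P τ p q) = tip P τ q p := by
  have hre : ∀ {v : B}, v ∈ P → (tip P τ v v).im = 0 := fun hv =>
    (Complex.le_def.1 (tip_self_nonneg hb hs hτ hv)).2.symm
  have hI := P.smul_mem Complex.I hq
  have h1 := hre (P.add_mem hp hq)
  have h2 := hre (P.add_mem hp hI)
  rw [tip_add_left hb hs hτ (P.add_mem hp hq), tip_add_right hb hs hτ hp hq,
    tip_add_right hb hs hτ hp hq] at h1
  rw [tip_add_left hb hs hτ (P.add_mem hp hI), tip_add_right hb hs hτ hp hI,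
    tip_add_right hb hs hτ hp hI, tip_smul_left hb hs hτ _ hp, tip_smul_left hb hs hτ _ hI,
    tip_smul_right hb hs hτ _ hq, tip_smul_right hb hs hτ _ hq] at h2
  simp only [Complex.add_im, hre hp, hre hq] at h1
  simp only [Complex.conj_I, Complex.add_im, Complex.mul_im, Complex.mul_re, Complex.neg_re,
    Complex.neg_im, Complex.I_re, Complex.I_im, hre hp, hre hq] at h2
  apply Complex.ext
  · rw [Complex.conj_re]; linarith
  · rw [Complex.conj_im]; linarith

theorem tip_cs {p q : B} (hp : p ∈ P) (hq : q ∈ P) :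
    ‖tip P τ p q‖ ^ 2 ≤ (tip P τ p p).re * (tip P τ q q).re := by
  let c : PreInnerProductSpace.Core ℂ P :=
    { inner := fun u v => tip P τ (u : B) (v : B)
      conj_inner_symm := fun u v => tip_conj hb hs hτ v.2 u.2
      re_inner_nonneg := fun u => (Complex.le_def.1 (tip_self_nonneg hb hs hτ u.2)).1
      add_left := fun u v w => tip_add_left hb hs hτ w.2
      smul_left := fun u v r => tip_smul_left hb hs hτ r v.2 }
  have h : ‖tip P τ p q‖ * ‖tip P τ q p‖ ≤ (tip P τ p p).re * (tip P τ q q).re :=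
    InnerProductSpace.Core.inner_mul_inner_self_le (c := c) (⟨p, hp⟩ : P) ⟨q, hq⟩
  rwa [← tip_conj hb hs hτ hp hq, RCLike.norm_conj, ← sq] at h

theorem abs_tip_le' {p q : B} (hp : p ∈ P) (hq : q ∈ P) :
    ‖tip P τ p q‖ ≤ tn P τ p * tn P τ q := by
  rw [tn, tn, ← Real.sqrt_mul (Complex.le_def.1 (tip_self_nonneg hb hs hτ hp)).1]
  exact Real.le_sqrt_of_sq_le (tip_cs hb hs hτ hp hq)

theorem tn_mul_self {q : B} (hq : q ∈ P) : tn P τ q * tn P τ q = (tip P τ q q).re :=
  Real.mul_self_sqrt (Complex.le_def.1 (tip_self_nonneg hb hs hτ hq)).1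

theorem tn_add_le {p q : B} (hp : p ∈ P) (hq : q ∈ P) :
    tn P τ (p + q) ≤ tn P τ p + tn P τ q := by
  have h0 : 0 ≤ tn P τ p := tn_nonneg p
  have h0' : 0 ≤ tn P τ q := tn_nonneg q
  refine Real.sqrt_le_iff.2 ⟨add_nonneg h0 h0', ?_⟩
  rw [tip_add_left hb hs hτ (P.add_mem hp hq), tip_add_right hb hs hτ hp hq,
    tip_add_right hb hs hτ hp hq, Complex.add_re, Complex.add_re, Complex.add_re]
  have h1 := (Complex.re_le_norm _).trans (abs_tip_le' hb hs hτ hp hq)
  have h2 := (Complex.re_le_norm _).trans (abs_tip_le' hb hs hτ hq hp)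
  rw [← tn_mul_self hb hs hτ hp, ← tn_mul_self hb hs hτ hq]
  nlinarith

theorem tn_smul (r : ℂ) {q : B} (hq : q ∈ P) : tn P τ (r • q) = ‖r‖ * tn P τ q := by
  have e : (tip P τ (r • q) (r • q)).re = ‖r‖ ^ 2 * (tip P τ q q).re := by
    rw [tip_smul_left hb hs hτ _ (P.smul_mem r hq), tip_smul_right hb hs hτ _ hq, ← mul_assoc,
      Complex.conj_mul', ← Complex.ofReal_pow, Complex.re_ofReal_mul]
  rw [tn, e, Real.sqrt_mul (sq_nonneg _), Real.sqrt_sq (norm_nonneg r), tn]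

theorem tn_sum_le {ι : Type*} (s : Finset ι) (q : ι → B) (hq : ∀ i ∈ s, q i ∈ P) :
    tn P τ (∑ i ∈ s, q i) ≤ ∑ i ∈ s, tn P τ (q i) := by
  classical
  induction s using Finset.induction_on with
  | empty =>
    have h := tn_smul hb hs hτ (0 : ℂ) P.zero_mem
    simp at h
    simp [h]
  | insert i s hi ih =>
    rw [Finset.sum_insert hi, Finset.sum_insert hi]
    refine (tn_add_le hb hs hτ (hq i (Finset.mem_insert_self i s))
      (P.sum_mem fun j hj => hq j (Finset.mem_insert_of_mem hj))).trans ?_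
    exact add_le_add le_rfl (ih fun j hj => hq j (Finset.mem_insert_of_mem hj))

/-- Domination of `x* x` by `y* y`, in the form used below. -/
theorem tn_dominated {x y : B} {K : ℝ} (hK : 0 ≤ K)
    (hxy : star x * x ≤ (K ^ 2 : ℝ) • (star y * y)) {q : B} (hq : q ∈ P) :
    tn P τ (x * q) ≤ K * tn P τ (y * q) := by
  obtain ⟨R, hR⟩ := CStarAlgebra.nonneg_iff_eq_star_mul_self.1 (sub_nonneg.2 hxy)
  have hxq := (hb x q hq).1
  have hyq := (hb y q hq).1
  have hRq := (hb R q hq).1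
  have e : tip P τ (x * q) (x * q) + tip P τ (R * q) (R * q) =
      ((K ^ 2 : ℝ) : ℂ) * tip P τ (y * q) (y * q) := by
    rw [tip_eq (hb _ _ hxq).1, tip_eq (hb _ _ hRq).1, tip_eq (hb _ _ hyq).1, ← map_add]
    refine ((congrArg τ (Subtype.ext ?_)).trans (map_smul τ _ _)).trans (smul_eq_mul _ _)
    simp only [Submodule.coe_add, Submodule.coe_smul]
    rw [Complex.coe_smul]
    have : star R * R + star x * x = (K ^ 2 : ℝ) • (star y * y) := by rw [← hR, sub_add_cancel]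
    have h2 := congrArg (fun m => star q * m * q) this
    simp only [mul_add, add_mul, mul_smul_comm, smul_mul_assoc] at h2
    simp only [star_mul, ← mul_assoc] at h2 ⊢
    rw [← h2]
    abel
  have e' := congrArg Complex.re e
  rw [Complex.add_re, Complex.re_ofReal_mul] at e'
  have h0 := (Complex.le_def.1 (tip_self_nonneg hb hs hτ hRq)).1
  rw [tn, tn, ← Real.sqrt_sq hK, ← Real.sqrt_mul (sq_nonneg _)]
  refine Real.sqrt_le_sqrt ?_
  simp only [Complex.zero_re] at h0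
  linarith

theorem tn_mul_left (b : B) {q : B} (hq : q ∈ P) : tn P τ (b * q) ≤ ‖b‖ * tn P τ q := by
  have h := tn_dominated hb hs hτ (x := b) (y := 1) (norm_nonneg b) (by
    simpa [Algebra.algebraMap_eq_smul_one] using
      CStarAlgebra.star_mul_le_algebraMap_norm_sq (a := b)) hq
  rwa [one_mul] at h

theorem tn_star {q : B} (hq : q ∈ P) : tn P τ (star q) = tn P τ q := by
  have h : tip P τ (star q) (star q) = tip P τ q q := by
    rw [tip_eq (hb _ _ (hs q hq)).1, tip_eq (hb _ q hq).1]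
    have := hτ.1 ⟨star q, hs q hq⟩ q (hb _ _ hq).1 (hb _ _ (hs q hq)).1
    refine ((congrArg τ (Subtype.ext (by simp))).trans this.symm)
  rw [tn, tn, h]

theorem tn_mul_right (b : B) {q : B} (hq : q ∈ P) : tn P τ (q * b) ≤ tn P τ q * ‖b‖ := by
  rw [← tn_star hb hs hτ (hb b q hq).2, star_mul, mul_comm, ← norm_star b,
    ← tn_star hb hs hτ hq]
  exact tn_mul_left hb hs hτ (star b) (hs q hq)

theorem abs_tip_le {p q : B} (hp : p ∈ P) (hq : q ∈ P) :
    ‖tip P τ p q‖ ≤ tn P τ p * tn P τ q :=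
  abs_tip_le' hb hs hτ hp hq

theorem tn_sq_eq {q : B} (hq : q ∈ P) : (tn P τ q : ℂ) ^ 2 = tip P τ q q := by
  rw [sq, ← Complex.ofReal_mul, tn_mul_self hb hs hτ hq]
  exact Complex.ext (by simp) (by simp [← (Complex.le_def.1 (tip_self_nonneg hb hs hτ hq)).2])

theorem tip_mul_left (b : B) {p q : B} (hp : p ∈ P) (hq : q ∈ P) :
    tip P τ (b * p) q = tip P τ p (star b * q) := by
  rw [tip_eq (hb _ q hq).1, tip_eq (hb _ _ (hb (star b) q hq).1).1]
  exact congrArg τ (Subtype.ext (by simp [mul_assoc]))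

theorem tip_mul_right (b : B) {p q : B} (hp : p ∈ P) (hq : q ∈ P) :
    tip P τ (p * b) q = tip P τ p (q * star b) := by
  rw [tip_eq (hb _ q hq).1, tip_eq (hb _ _ (hb (star b) q hq).2).1]
  have h0 := (hb (star p) q hq).1
  have := hτ.1 ⟨star p * q, h0⟩ (star b) (hb _ _ h0).2 (hb _ _ h0).1
  refine ((congrArg τ (Subtype.ext ?_)).trans this.symm).trans (congrArg τ (Subtype.ext ?_))
  · simp [mul_assoc]
  · simp [mul_assoc]

/-- Domination of `x* x` by `y* y` passes to the 2-norm. -/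
theorem tn_le_of_star_mul_le {x y : B} {K : ℝ} (hK : 0 ≤ K)
    (hxy : star x * x ≤ (K ^ 2 : ℝ) • (star y * y)) {q : B} (hq : q ∈ P) :
    tn P τ (x * q) ≤ K * tn P τ (y * q) :=
  tn_dominated hb hs hτ hK hxy hq

/-- The two halves of a matrix unit have the same 2-norm. -/
theorem tn_flip (c : B) {p : B} (hp : p ∈ P) (hpsa : IsSelfAdjoint p) :
    |tn P τ (star c * c * (p * p)) ^ 2 - tn P τ (p * p * (c * star c)) ^ 2| ≤
      16 * ‖c‖ ^ 3 * ‖p‖ * (‖c * p - p * c‖ + ‖star c * p - p * star c‖) * tn P τ p ^ 2 := by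
  set q := p * p with hq'
  have hq : q ∈ P := (hb p p hp).1
  have hqsa : star q = q := by rw [hq', star_mul, hpsa.star_eq]
  set X := c * star c * c with hX
  set D := q * star c - star c * q with hD
  have hDP : D ∈ P := P.sub_mem (hb _ q hq).2 (hb _ q hq).1
  have hXqD := (hb (X * q) D hDP).1
  have hXDq := (hb (X * D) q hq).1
  -- the two squares as traces
  have tr : ∀ (u : B) (b : B) (hu : u ∈ P), τ ⟨u * b, (hb b u hu).2⟩ = τ ⟨b * u, (hb b u hu).1⟩ :=
    fun u b hu => hτ.1 ⟨u, hu⟩ b _ _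
  have hqcP : q * (c * star c) ∈ P := (hb _ q hq).2
  have hccq : star c * c * q ∈ P := (hb _ q hq).1
  have eA : tip P τ (star c * c * q) (star c * c * q) =
      τ ⟨X * (q * q * star c), (hb _ _ (hb _ _ ((hb q q hq).1)).2).1⟩ := by
    rw [tip_eq (hb _ _ hccq).1]
    have h := tr (q * star c) (X * q) (hb _ q hq).2
    refine ((congrArg τ (Subtype.ext ?_)).trans h).trans (congrArg τ (Subtype.ext ?_)) <;>
      simp [hX, hqsa, mul_assoc]
  have eB : tip P τ (q * (c * star c)) (q * (c * star c)) =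
      τ ⟨X * (star c * q * q), (hb _ _ ((hb _ q hq).1)).1⟩ := by
    rw [tip_eq (hb _ _ hqcP).1]
    have h := (tr (q * q * (c * star c)) (c * star c) (hb _ _ (hb q q hq).1).2).symm
    have h' := tr (q * q) (c * star c * (c * star c)) (hb q q hq).1
    refine (((congrArg τ (Subtype.ext ?_)).trans h).trans (congrArg τ (Subtype.ext ?_))).trans
      (h'.trans (congrArg τ (Subtype.ext ?_))) <;>
      simp [hX, hqsa, mul_assoc]
  have e : tip P τ (star c * c * q) (star c * c * q) - tip P τ (q * (c * star c)) (q * (c * star c))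
      = τ ⟨X * q * D, hXqD⟩ + τ ⟨X * D * q, hXDq⟩ := by
    rw [eA, eB, ← map_sub, ← map_add]
    refine congrArg τ (Subtype.ext ?_)
    simp only [Submodule.coe_sub, Submodule.coe_add, hD]
    noncomm_ring
  have b1 : ‖τ ⟨X * q * D, hXqD⟩‖ ≤ ‖X‖ * tn P τ q * tn P τ D := by
    have h : tip P τ (q * star X) D = τ ⟨X * q * D, hXqD⟩ := by
      rw [tip_eq (hb _ D hDP).1]
      exact congrArg τ (Subtype.ext (by simp [hqsa]))
    rw [← h]
    refine (abs_tip_le' hb hs hτ (hb _ q hq).2 hDP).trans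
      (mul_le_mul_of_nonneg_right ?_ (tn_nonneg D))
    rw [mul_comm, ← norm_star X]
    exact tn_mul_right hb hs hτ _ hq
  have b2 : ‖τ ⟨X * D * q, hXDq⟩‖ ≤ ‖X‖ * tn P τ q * tn P τ D := by
    have h : tip P τ (star X * q) D = τ ⟨X * D * q, hXDq⟩ := by
      rw [tip_eq (hb _ D hDP).1]
      have h' := tr q (X * D) hq
      refine ((congrArg τ (Subtype.ext ?_)).trans h').trans (congrArg τ (Subtype.ext ?_)) <;>
        simp [hqsa, mul_assoc]
    rw [← h]
    refine (abs_tip_le' hb hs hτ (hb _ q hq).1 hDP).trans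
      (mul_le_mul_of_nonneg_right ?_ (tn_nonneg D))
    rw [← norm_star X]
    exact tn_mul_left hb hs hτ _ hq
  have hX3 : ‖X‖ ≤ ‖c‖ ^ 3 := by
    refine norm_mul₃_le.trans (le_of_eq ?_)
    rw [norm_star]; ring
  have hqn : tn P τ q ≤ ‖p‖ * tn P τ p := tn_mul_left hb hs hτ p hp
  set γ := ‖star c * p - p * star c‖ with hγ
  have hDn : tn P τ D ≤ 2 * γ * tn P τ p := by
    have h : D = (p * star c - star c * p) * p + p * (p * star c - star c * p) := by
      rw [hD, hq']; noncomm_ring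
    rw [h]
    refine (tn_add_le hb hs hτ (hb _ p hp).1 (hb _ p hp).2).trans ?_
    have h1 := tn_mul_left hb hs hτ (p * star c - star c * p) hp
    have h2 := tn_mul_right hb hs hτ (p * star c - star c * p) hp
    rw [norm_sub_rev, ← hγ] at h1 h2
    linarith
  have hre := congrArg Complex.re e
  rw [Complex.sub_re, Complex.add_re, ← tn_mul_self hb hs hτ hccq,
    ← tn_mul_self hb hs hτ hqcP, ← sq, ← sq] at hre
  rw [hre]
  refine (abs_add_le _ _).trans ((add_le_add ((Complex.abs_re_le_norm _).trans b1)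
    ((Complex.abs_re_le_norm _).trans b2)).trans ?_)
  have hp0 : 0 ≤ tn P τ p := tn_nonneg p
  have hXq : ‖X‖ * tn P τ q * tn P τ D ≤ ‖c‖ ^ 3 * (‖p‖ * tn P τ p) * (2 * γ * tn P τ p) :=
    mul_le_mul (mul_le_mul hX3 hqn (tn_nonneg q) (by positivity)) hDn (tn_nonneg D) (by positivity)
  have hpos : 0 ≤ ‖c‖ ^ 3 * ‖p‖ * tn P τ p ^ 2 := by positivity
  nlinarith [mul_nonneg hpos (norm_nonneg (c * p - p * c)), mul_nonneg hpos (norm_nonneg (star c * p - p * star c))]

end Trace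

variable (S : Setup P A d)

include S

/-- The normalisation. -/
theorem tn_d (hτ : IsNormTrace P d τ) : tn P τ d = 1 := by
  have h := (S.bimod (Star.star d) d S.d_mem).1
  rw [tn, tip_eq h, hτ.2 h, Real.sqrt_one]

theorem tn_sq_le_one (hτ : IsNormTrace P d τ) : tn P τ (d * d) ≤ 1 := by
  refine (tn_mul_left S.bimod S.star_mem hτ.1 d S.d_mem).trans ?_
  rw [tn_d S hτ, mul_one]
  exact S.d_norm

theorem d_sq_ne_zero : d * d ≠ 0 := by
  obtain ⟨z, hz, hdz⟩ := S.d_nondeg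
  intro h
  apply hz
  calc z = d * d * z := by rw [mul_assoc, hdz, hdz]
    _ = 0 := by rw [h, zero_mul]

theorem norm_one_le_of_setup : ‖(1 : B)‖ ≤ 1 := by
  obtain ⟨z, hz, -⟩ := S.d_nondeg
  have : Nontrivial B := ⟨z, 0, hz⟩
  exact le_of_eq norm_one

/-- A cut-down bound for any trace, given a bound for its own norm at `d`. -/
theorem tn_approx_bi_le {τ' : P →ₗ[ℂ] ℂ} (hτ : IsTraceOn P τ') {a : B} {m : ℕ}
    {x y : Fin m → B} {δ : ℝ} (h : ‖a - ∑ i, x i * (d * d) * y i‖ ≤ δ) (z : B) {e : B}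
    (he : e ∈ P) :
    tn P τ' (z * (a * e)) ≤
      ∑ i, tn P τ' (z * x i * (d * d)) * ‖y i * e‖ + δ * ‖z‖ * tn P τ' e := by
  have hb := S.bimod
  have hC : d * d ∈ P := (hb d d S.d_mem).1
  have e1 : z * (a * e) = ∑ i, z * x i * (d * d) * (y i * e)
      + z * (a - ∑ i, x i * (d * d) * y i) * e := by
    simp only [mul_sub, sub_mul, Finset.mul_sum, Finset.sum_mul, mul_assoc]
    abel
  rw [e1]
  refine (tn_add_le hb S.star_mem hτ (P.sum_mem fun i _ => (hb _ _ (hb _ _ hC).1).2)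
    (hb _ e he).1).trans (add_le_add ?_ ?_)
  · refine (tn_sum_le hb S.star_mem hτ _ _ fun i _ => (hb _ _ (hb _ _ hC).1).2).trans
      (Finset.sum_le_sum fun i _ => ?_)
    exact tn_mul_right hb S.star_mem hτ _ (hb _ _ hC).1
  · refine (tn_mul_left hb S.star_mem hτ _ he).trans (mul_le_mul_of_nonneg_right ?_ (tn_nonneg e))
    refine (norm_mul_le _ _).trans ?_
    rw [mul_comm]
    exact mul_le_mul_of_nonneg_right h (norm_nonneg z)

theorem tn_comm_sq_le (hτ : IsNormTrace P d τ) (z y : B) :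
    tn P τ (z * (y * (d * d) - d * d * y)) ≤ 2 * ‖z‖ * ‖y * d - d * y‖ := by
  have hb := S.bimod
  have h : z * (y * (d * d) - d * d * y) =
      z * (y * d - d * y) * d + z * (d * (y * d - d * y)) := by noncomm_ring
  have hdP := S.d_mem
  rw [h]
  refine (tn_add_le hb S.star_mem hτ.1 (hb _ d hdP).1 (hb _ _ (hb _ d hdP).2).1).trans ?_
  have h1 : tn P τ (z * (y * d - d * y) * d) ≤ ‖z‖ * ‖y * d - d * y‖ := by
    refine (tn_mul_left hb S.star_mem hτ.1 _ hdP).trans ?_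
    rw [tn_d S hτ, mul_one]
    exact norm_mul_le _ _
  have h2 : tn P τ (z * (d * (y * d - d * y))) ≤ ‖z‖ * ‖y * d - d * y‖ := by
    refine (tn_mul_left hb S.star_mem hτ.1 _ (hb _ d hdP).2).trans
      (mul_le_mul_of_nonneg_left ((tn_mul_right hb S.star_mem hτ.1 _ hdP).trans ?_) (norm_nonneg z))
    rw [tn_d S hτ, one_mul]
  linarith

/-- An element of `A` times `d` is bounded by the cut-down `d * d`. -/
theorem exists_tn_le_sq {a : B} (ha : a ∈ A) {δ : ℝ} (hδ : 0 < δ) :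
    ∃ (m : ℕ) (x y : Fin m → B), (∀ i, x i ∈ A ∧ y i ∈ A) ∧
      ∀ τ, IsNormTrace P d τ → ∀ z : B, tn P τ (z * (a * d)) ≤
        ∑ i, ‖y i‖ * tn P τ (z * x i * (d * d)) + δ * ‖z‖ := by
  obtain ⟨m, x, y, hxy, h⟩ :=
    exists_approx_bi S.simple (S.le (S.bimod d d S.d_mem).1) (d_sq_ne_zero S) ha hδ
  refine ⟨m, x, y, hxy, fun τ hτ z => ?_⟩
  refine (tn_approx_bi_le S hτ.1 h.le z S.d_mem).trans (add_le_add (Finset.sum_le_sum fun i _ => ?_)
    (by rw [tn_d S hτ, mul_one]))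
  rw [mul_comm]
  exact mul_le_mul_of_nonneg_right ((norm_mul_le _ _).trans
    (mul_le_of_le_one_right (norm_nonneg _) S.d_norm)) (tn_nonneg _)

/-- `d * d` is not small. -/
theorem exists_tn_sq_pos : ∃ γ > (0 : ℝ), ∀ τ, IsNormTrace P d τ → γ ≤ tn P τ (d * d) := by
  obtain ⟨a, ha, -, -, had⟩ := S.d_unit
  obtain ⟨m, x, y, -, h⟩ := exists_tn_le_sq S ha (by norm_num : (0 : ℝ) < 1 / 2)
  have hS : 0 < ∑ i, ‖y i‖ * ‖x i‖ + 1 := by positivity
  refine ⟨1 / 2 / (∑ i, ‖y i‖ * ‖x i‖ + 1), div_pos (by norm_num) hS, fun τ hτ => ?_⟩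
  have h1 := h τ hτ 1
  rw [one_mul, had, tn_d S hτ] at h1
  have h2 : ∑ i, ‖y i‖ * tn P τ (1 * x i * (d * d)) ≤
      (∑ i, ‖y i‖ * ‖x i‖) * tn P τ (d * d) := by
    rw [Finset.sum_mul]
    refine Finset.sum_le_sum fun i _ => ?_
    rw [one_mul, mul_assoc]
    exact mul_le_mul_of_nonneg_left
      (tn_mul_left S.bimod S.star_mem hτ.1 _ (S.bimod d d S.d_mem).1) (norm_nonneg _)
  have h3 : 1 / 2 * ‖(1 : B)‖ ≤ 1 / 2 := mul_le_of_le_one_right (by norm_num) (norm_one_le_of_setup S)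
  rw [div_le_iff₀ hS]
  nlinarith [tn_nonneg (P := P) (τ := τ) (d * d)]

theorem Small.add {y z : ℕ → B} (hy : Small P d y) (hz : Small P d z) :
    Small P d fun n => y n + z n := by
  intro ε hε
  filter_upwards [hy _ (half_pos hε), hz _ (half_pos hε)] with n h1 h2 τ hτ
  have hC := (S.bimod d d S.d_mem).1
  rw [add_mul]
  refine (tn_add_le S.bimod S.star_mem hτ.1 (S.bimod _ _ hC).1 (S.bimod _ _ hC).1).trans_lt ?_
  linarith [h1 τ hτ, h2 τ hτ]

theorem Small.mul_left {y z : ℕ → B} {R : ℝ} (hy : ∀ n, ‖y n‖ ≤ R) (hz : Small P d z) :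
    Small P d fun n => y n * z n := by
  intro ε hε
  have hR : 0 ≤ R := (norm_nonneg _).trans (hy 0)
  filter_upwards [hz (ε / (R + 1)) (by positivity)] with n h τ hτ
  rw [mul_assoc]
  refine (tn_mul_left S.bimod S.star_mem hτ.1 _ (S.bimod _ _ (S.bimod d d S.d_mem).1).1).trans_lt ?_
  have h1 := mul_le_mul_of_nonneg_right (hy n) (tn_nonneg (P := P) (τ := τ) (z n * (d * d)))
  have h2 := mul_lt_mul_of_pos_left (h τ hτ) (show 0 < R + 1 by linarith)
  rw [mul_div_cancel₀ _ (show R + 1 ≠ 0 by linarith)] at h2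
  nlinarith [tn_nonneg (P := P) (τ := τ) (z n * (d * d))]

theorem Small.mul_right {y z : ℕ → B} {R : ℝ} (hy : ∀ n, ‖y n‖ ≤ R) (hz1 : ∀ n, ‖z n‖ ≤ R)
    (hyc : CentralTo A y) (hz : Small P d z) : Small P d fun n => z n * y n := by
  intro ε hε
  have hR : 0 ≤ R := (norm_nonneg _).trans (hy 0)
  have hC := (S.bimod d d S.d_mem).1
  filter_upwards [hz (ε / 2 / (R + 1)) (by positivity),
    (hyc d (S.le S.d_mem)).eventually (gt_mem_nhds (show 0 < ε / 4 / (R + 1) by positivity))]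
    with n h hc τ hτ
  have e : z n * y n * (d * d) =
      z n * (d * d) * y n + z n * (y n * (d * d) - d * d * y n) := by noncomm_ring
  rw [e]
  refine (tn_add_le S.bimod S.star_mem hτ.1 (S.bimod _ _ (S.bimod _ _ hC).1).2
    (S.bimod _ _ (P.sub_mem (S.bimod _ _ hC).1 (S.bimod _ _ hC).2)).1).trans_lt ?_
  have h0 := tn_nonneg (P := P) (τ := τ) (z n * (d * d))
  have h1 := (tn_mul_right S.bimod S.star_mem hτ.1 (y n) (S.bimod (z n) _ hC).1).trans
    (mul_le_mul_of_nonneg_left (hy n) h0)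
  have h2 := (tn_comm_sq_le S hτ (z n) (y n)).trans (mul_le_mul_of_nonneg_right
    (mul_le_mul_of_nonneg_left (hz1 n) (by norm_num)) (norm_nonneg _))
  have h3 := h τ hτ
  rw [lt_div_iff₀ (by linarith)] at h3 hc
  nlinarith [norm_nonneg (y n * d - d * y n)]

theorem Small.star {z : ℕ → B} {R : ℝ} (hz1 : ∀ n, ‖z n‖ ≤ R) (hzc : CentralTo A z)
    (hz : Small P d z) : Small P d fun n => Star.star (z n) := by
  intro ε hε
  have hC := (S.bimod d d S.d_mem).1
  filter_upwards [hz (ε / 2) (half_pos hε),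
    (hzc d (S.le S.d_mem)).eventually (gt_mem_nhds (show 0 < ε / 4 by positivity))]
    with n h hc τ hτ
  have hdsa : Star.star d = d := (IsSelfAdjoint.of_nonneg S.d_nonneg).star_eq
  rw [← tn_star S.bimod S.star_mem hτ.1 (S.bimod _ _ hC).1, star_mul, star_star, star_mul, hdsa]
  have e : d * d * z n = z n * (d * d) + (-1 : ℂ) • (1 * (z n * (d * d) - d * d * z n)) := by
    simp
  rw [e]
  have hD := P.sub_mem (S.bimod (z n) _ hC).1 (S.bimod (z n) _ hC).2
  refine (tn_add_le S.bimod S.star_mem hτ.1 (S.bimod _ _ hC).1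
    (P.smul_mem _ (S.bimod _ _ hD).1)).trans_lt ?_
  rw [tn_smul S.bimod S.star_mem hτ.1 _ (S.bimod _ _ hD).1, norm_neg, norm_one, one_mul]
  have h2 := (tn_comm_sq_le S hτ 1 (z n)).trans (mul_le_mul_of_nonneg_right
    (mul_le_of_le_one_right (by norm_num : (0 : ℝ) ≤ 2) (norm_one_le_of_setup S)) (norm_nonneg _))
  linarith [h τ hτ]

theorem small_of_norm {z : ℕ → B} (hz : Tendsto (fun n => ‖z n‖) atTop (𝓝 0)) :
    Small P d z := by
  intro ε hε
  filter_upwards [hz.eventually (gt_mem_nhds hε)] with n hn τ hτ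
  rw [← mul_assoc]
  refine lt_of_le_of_lt ?_ hn
  refine (tn_mul_left S.bimod S.star_mem hτ.1 _ S.d_mem).trans ?_
  rw [tn_d S hτ, mul_one]
  exact (norm_mul_le _ _).trans (mul_le_of_le_one_right (norm_nonneg _) S.d_norm)

theorem tip_scale {τ' : P →ₗ[ℂ] ℂ} (r : ℂ) (p q : B) :
    tip P (r • τ') p q = r * tip P τ' p q := by
  unfold tip
  split <;> simp

/-- A bound for the traces normalised at `d` bounds every trace. -/
theorem tn_le_of_forall {τ' : P →ₗ[ℂ] ℂ} (hτ : IsTraceOn P τ') {w : B} {c : ℝ}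
    (h : ∀ τ, IsNormTrace P d τ → tn P τ (w * (d * d)) ≤ c) :
    tn P τ' (w * (d * d)) ≤ tn P τ' d * c := by
  have h0 : 0 ≤ tn P τ' d := tn_nonneg d
  rcases h0.eq_or_lt with h1 | h1
  · rw [← h1, zero_mul, ← mul_assoc]
    refine (tn_mul_left S.bimod S.star_mem hτ _ S.d_mem).trans ?_
    rw [← h1, mul_zero]
  set k : ℝ := (tn P τ' d ^ 2)⁻¹ with hk
  have hk0 : 0 ≤ k := by positivity
  have hN : IsNormTrace P d ((k : ℂ) • τ') := by
    refine ⟨⟨fun p b u v => ?_, fun p u => ?_⟩, fun u => ?_⟩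
    · simp only [LinearMap.smul_apply, smul_eq_mul, hτ.1 p b u v]
    · simp only [LinearMap.smul_apply, smul_eq_mul]
      exact mul_nonneg (Complex.zero_le_real.2 hk0) (hτ.2 p u)
    · rw [LinearMap.smul_apply, smul_eq_mul, Complex.re_ofReal_mul, ← tip_eq u,
        ← tn_mul_self S.bimod S.star_mem hτ S.d_mem, hk, ← sq, inv_mul_cancel₀ (by positivity)]
  have h2 := h _ hN
  have e : tn P ((k : ℂ) • τ') (w * (d * d)) = (tn P τ' d)⁻¹ * tn P τ' (w * (d * d)) := by
    rw [tn, tip_scale S, Complex.re_ofReal_mul, Real.sqrt_mul hk0, hk, ← inv_pow,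
      Real.sqrt_sq (inv_nonneg.2 h0)]
    rfl
  rw [e, inv_mul_le_iff₀ h1] at h2
  exact h2

theorem Small.map {z : ℕ → B} {R : ℝ} (hz1 : ∀ n, ‖z n‖ ≤ R) (hzc : CentralTo A z)
    (σ : B ≃⋆ₐ[ℂ] B) (hσA : ∀ a ∈ A, σ a ∈ A ∧ σ.symm a ∈ A)
    (hσP : ∀ p ∈ P, σ p ∈ P ∧ σ.symm p ∈ P) (hz : Small P d z) :
    Small P d fun n => σ (z n) := by
  intro ε hε
  have hb := S.bimod
  have hC : d * d ∈ P := (hb d d S.d_mem).1
  have hCA : d * d ∈ A := S.le hC
  have hR : 0 ≤ R := (norm_nonneg _).trans (hz1 0)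
  let L : P →ₗ[ℂ] P :=
    { toFun := fun p => ⟨σ (p : B), (hσP _ p.2).1⟩
      map_add' := fun p q => Subtype.ext (map_add σ _ _)
      map_smul' := fun r p => Subtype.ext (map_smul σ r _) }
  obtain ⟨a0, ha0, -, -, ha0d⟩ := S.d_unit
  -- the norm of the image of `d`
  obtain ⟨m, x, y, -, h1⟩ := exists_approx_bi S.simple hCA (d_sq_ne_zero S) (hσA a0 ha0).1
    (by norm_num : (0 : ℝ) < 1 / 2)
  set K := 2 * ∑ i, ‖x i‖ * ‖y i * σ d‖ with hK
  have hK0 : 0 ≤ K := by positivity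
  set e := σ.symm d with he
  have heP : e ∈ P := (hσP d S.d_mem).2
  set δ := ε / (2 * (R + 1)) with hδ
  have hδ0 : 0 < δ := by positivity
  obtain ⟨m', x', y', hxy', h2⟩ := exists_approx_bi S.simple hCA (d_sq_ne_zero S) (hσA a0 ha0).2 hδ0
  set Sy := ∑ i, (‖x' i‖ + 1) * ‖y' i * (e * e)‖ with hSy
  have hSy0 : 0 ≤ Sy := by positivity
  set η := ε / (2 * (K + 1) * (Sy + 1)) with hη
  have hη0 : 0 < η := by positivity
  filter_upwards [hz η hη0, eventually_all.2 fun i =>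
    (hzc (x' i) (hxy' i).1).eventually (gt_mem_nhds hη0)] with n hn hc τ hτ
  set τs := τ ∘ₗ L with hτs
  have hts : IsTraceOn P τs := by
    refine ⟨fun p b u v => ?_, fun p u => ?_⟩
    · have := hτ.1.1 ⟨σ (p : B), (hσP _ p.2).1⟩ (σ b) (hb _ _ (hσP _ p.2).1).2
        (hb _ _ (hσP _ p.2).1).1
      simpa [hτs, L, map_mul] using this
    · have := hτ.1.2 ⟨σ (p : B), (hσP _ p.2).1⟩ (hb _ _ (hσP _ p.2).1).1
      simpa [hτs, L, map_mul, map_star] using this
  have htn : ∀ {q : B}, q ∈ P → tn P τs q = tn P τ (σ q) := fun {q} hq => by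
    rw [tn, tn, tip_eq (hb _ q hq).1, tip_eq (hb _ _ (hσP q hq).1).1]
    simp [hτs, L, map_mul, map_star]
  have hσd : tn P τs d ≤ K := by
    rw [htn S.d_mem]
    have e1 : σ d = 1 * (σ a0 * σ d) := by rw [one_mul, ← map_mul, ha0d]
    have h3 := tn_approx_bi_le S hτ.1 h1.le 1 (hσP d S.d_mem).1
    rw [← e1] at h3
    have h4 : ∑ i, tn P τ (1 * x i * (d * d)) * ‖y i * σ d‖ ≤ ∑ i, ‖x i‖ * ‖y i * σ d‖ := by
      refine Finset.sum_le_sum fun i _ => mul_le_mul_of_nonneg_right ?_ (norm_nonneg _)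
      rw [one_mul]
      exact (tn_mul_left hb S.star_mem hτ.1 _ hC).trans
        (mul_le_of_le_one_right (norm_nonneg _) (tn_sq_le_one S hτ))
    have h5 := mul_le_of_le_one_right (by norm_num : (0 : ℝ) ≤ 1 / 2) (norm_one_le_of_setup S)
    have h6 := tn_nonneg (P := P) (τ := τ) (σ d)
    nlinarith
  have he2 : e * e ∈ P := (hb e e heP).1
  have hee : tn P τs (e * e) ≤ 1 := by
    rw [htn he2, map_mul, he, StarAlgEquiv.apply_symm_apply]
    exact tn_sq_le_one S hτ
  have e2 : σ (z n) * (d * d) = σ (z n * (σ.symm a0 * (e * e))) := by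
    rw [he, ← mul_assoc (σ.symm a0), ← map_mul σ.symm a0, ha0d, map_mul, map_mul,
      StarAlgEquiv.apply_symm_apply]
  rw [e2, ← htn (hb _ _ (hb _ _ he2).1).1]
  refine (tn_approx_bi_le S hts h2.le (z n) he2).trans_lt ?_
  have h7 : ∀ i, tn P τs (z n * x' i * (d * d)) ≤ (K + 1) * ((‖x' i‖ + 1) * η) := fun i => by
    refine (tn_le_of_forall S hts (c := (‖x' i‖ + 1) * η) fun τ' hτ' => ?_).trans
      (mul_le_mul_of_nonneg_right (by linarith) (by positivity))
    have e3 : z n * x' i * (d * d) =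
        x' i * (z n * (d * d)) + (z n * x' i - x' i * z n) * (d * d) := by noncomm_ring
    rw [e3]
    refine (tn_add_le hb S.star_mem hτ'.1 (hb _ _ (hb _ _ hC).1).1 (hb _ _ hC).1).trans ?_
    have a1 := (tn_mul_left hb S.star_mem hτ'.1 (x' i) (hb (z n) _ hC).1).trans
      (mul_le_mul_of_nonneg_left (hn τ' hτ').le (norm_nonneg _))
    have a2 := (tn_mul_left hb S.star_mem hτ'.1 (z n * x' i - x' i * z n) hC).trans
      (mul_le_of_le_one_right (norm_nonneg _) (tn_sq_le_one S hτ'))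
    linarith [hc i]
  have h8 : ∑ i, tn P τs (z n * x' i * (d * d)) * ‖y' i * (e * e)‖ ≤ (K + 1) * η * Sy := by
    rw [hSy, Finset.mul_sum]
    refine Finset.sum_le_sum fun i _ =>
      (mul_le_mul_of_nonneg_right (h7 i) (norm_nonneg _)).trans (le_of_eq ?_)
    ring
  have h9 : δ * ‖z n‖ * tn P τs (e * e) ≤ δ * R :=
    (mul_le_of_le_one_right (by positivity) hee).trans
      (mul_le_mul_of_nonneg_left (hz1 n) hδ0.le)
  have e4 : δ * (R + 1) = ε / 2 := by rw [hδ]; field_simp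
  have e5 : (K + 1) * η * (Sy + 1) = ε / 2 := by rw [hη]; field_simp
  nlinarith [mul_pos (show 0 < K + 1 by linarith) hη0]

end Vale.Agent.P095.SI
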