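import Vale.Agent.P095.SI.Tower

/-!
P095: the approximation property factored through the excised state, by orthogonal vectors in the
corners.
-/

open Filter Topology
open scoped ComplexOrder ComplexConjugate CStarAlgebra

namespace Vale.Agent.P095.SI

variable {B : Type*} [CStarAlgebra B] [PartialOrder B] [StarOrderedRing B]
  {A : Submodule ℂ B} {G : Type*} {α : G → B ≃⋆ₐ[ℂ] B} {d : B}

/-- The map `y ↦ ∑ φ(a l* y a m) c l* c m`. -/
noncomputable def decMap (φ : B →ₗ[ℂ] ℂ) {L : ℕ} (a c : Fin L → B) (y : B) : B :=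
  ∑ l, ∑ m, φ (star (a l) * y * a m) • (star (c l) * c m)

namespace Glimm

/-! ### positive functionals -/

section State

variable (φ : B →ₗ[ℂ] ℂ) (h1 : φ 1 = 1) (hp : ∀ y, 0 ≤ φ (star y * y))

include h1 hp in
omit [PartialOrder B] [StarOrderedRing B] in
lemma map_star (y : B) : φ (star y) = conj (φ y) := by
  have e1 := (Complex.nonneg_iff.1 (hp (1 + y))).2
  have e2 := (Complex.nonneg_iff.1 (hp (1 + Complex.I • y))).2
  have e3 := (Complex.nonneg_iff.1 (hp y)).2
  have c1 : φ (star (1 + y) * (1 + y)) = 1 + φ y + φ (star y) + φ (star y * y) := by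
    simp only [star_add, star_one, add_mul, mul_add, one_mul, mul_one, map_add, h1]
    ring
  have c2 : φ (star (1 + Complex.I • y) * (1 + Complex.I • y))
      = 1 + Complex.I * φ y - Complex.I * φ (star y) + φ (star y * y) := by
    simp only [star_add, star_one, star_smul, Complex.star_def, Complex.conj_I, add_mul, mul_add,
      one_mul, mul_one, smul_mul_assoc, mul_smul_comm, map_add, map_smul, smul_eq_mul,
      h1]
    linear_combination (-φ (star y * y)) * Complex.I_mul_I
  rw [c1] at e1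
  rw [c2] at e2
  simp only [Complex.add_im, Complex.sub_im, Complex.one_im, Complex.mul_im, Complex.I_re,
    Complex.I_im, zero_mul, one_mul, zero_add] at e1 e2
  apply Complex.ext
  · rw [Complex.conj_re]; linarith
  · rw [Complex.conj_im]; linarith

include hp in
lemma re_nonneg_of_nonneg {y : B} (hy : 0 ≤ y) : 0 ≤ (φ y).re := by
  obtain ⟨s, rfl⟩ := CStarAlgebra.nonneg_iff_eq_star_mul_self.mp hy
  exact (Complex.nonneg_iff.1 (hp s)).1

include hp in
lemma re_mono {y y' : B} (h : y ≤ y') : (φ y).re ≤ (φ y').re := by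
  have := re_nonneg_of_nonneg φ hp (sub_nonneg.2 h)
  simp only [map_sub, Complex.sub_re] at this
  linarith

include h1 hp in
lemma norm_sandwich_le (u v : B) (hu : (φ (star u * u)).re ≤ 2) (hv : (φ (star v * v)).re ≤ 2)
    (w : B) : ‖φ (star u * w * v)‖ ≤ 4 * (‖w‖ + 1) := by
  -- reduce to the real part by a scalar of modulus one
  suffices h : ∀ x : B, (φ (star x * x)).re ≤ 2 → |(φ (star x * w * v)).re| ≤ 2 * (‖w‖ + 1) by
    have hr := h u hu
    have hI : (φ (star (Complex.I • u) * (Complex.I • u))).re ≤ 2 := by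
      rw [star_smul, smul_mul_smul_comm, Complex.star_def, Complex.conj_I, neg_mul,
        Complex.I_mul_I, neg_neg, one_smul]
      exact hu
    have hi := h (Complex.I • u) hI
    rw [star_smul, smul_mul_assoc, smul_mul_assoc, map_smul, Complex.star_def, Complex.conj_I,
      smul_eq_mul] at hi
    simp only [neg_mul, Complex.neg_re, Complex.mul_re, Complex.I_re, Complex.I_im, zero_mul,
      one_mul, zero_sub, neg_neg] at hi
    have := Complex.norm_le_abs_re_add_abs_im (φ (star u * w * v))
    linarith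
  intro x hx
  have hwv : (φ (star (w * v) * (w * v))).re ≤ ‖w‖ ^ 2 * 2 := by
    have hle : star (w * v) * (w * v) ≤ (‖w‖ ^ 2 : ℝ) • (star v * v) := by
      have h2 : star w * w ≤ algebraMap ℝ B (‖w‖ ^ 2) := by
        rw [pow_two, ← CStarRing.norm_star_mul_self]
        exact IsSelfAdjoint.le_algebraMap_norm_self (IsSelfAdjoint.star_mul_self w)
      have h3 := star_left_conjugate_le_conjugate h2 v
      rw [← Algebra.commutes, mul_assoc, ← Algebra.smul_def] at h3
      simpa [star_mul, mul_assoc] using h3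
    have := re_mono φ hp hle
    rw [LinearMap.map_smul_of_tower, Complex.smul_re, smul_eq_mul] at this
    nlinarith [mul_le_mul_of_nonneg_left hv (sq_nonneg ‖w‖)]
  have key : ∀ t : ℝ, 0 ≤ (φ (star x * x)).re + 2 * t * (φ (star x * w * v)).re
      + t ^ 2 * (φ (star (w * v) * (w * v))).re := by
    intro t
    have h := (Complex.nonneg_iff.1 (hp (x + (t : ℂ) • (w * v)))).1
    have e : φ (star (w * v) * x) = conj (φ (star x * w * v)) := by
      rw [← map_star φ h1 hp]
      simp [mul_assoc]
    simp only [star_add, star_smul, Complex.star_def, Complex.conj_ofReal, add_mul, mul_add,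
      smul_mul_assoc, mul_smul_comm, map_add, map_smul, smul_eq_mul, Complex.add_re,
      e, Complex.re_ofReal_mul, Complex.conj_re] at h
    simp only [← mul_assoc] at h ⊢
    linarith
  set t := (‖w‖ + 1)⁻¹ with ht
  have htpos : 0 < t := by positivity
  have h2 : t ^ 2 * (φ (star (w * v) * (w * v))).re ≤ 2 := by
    have : t * ‖w‖ ≤ 1 := by rw [ht, inv_mul_le_iff₀ (by positivity)]; linarith
    have h4 := mul_le_mul_of_nonneg_left hwv (sq_nonneg t)
    nlinarith [pow_le_pow_left₀ (mul_nonneg htpos.le (norm_nonneg w)) this 2]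
  have h5 : |t * (φ (star x * w * v)).re| ≤ 2 := by
    have := key t
    have h6 := key (-t)
    rw [abs_le]
    constructor <;> nlinarith
  rw [abs_mul, abs_of_pos htpos, ht, inv_mul_le_iff₀ (by positivity)] at h5
  linarith

end State

/-! ### faithfulness of the excised state on the ideal -/

lemma faithful (hA : IsSimpleIdeal A) (T : Tower A α d) {a : B} (ha : a ∈ A) (ha0 : a ≠ 0) :
    ∃ p ∈ A, T.φ (star p * (star a * a) * p) ≠ 0 := by
  have hφc : Continuous T.φ :=
    (T.φ.mkContinuous 1 fun y => by rw [one_mul]; exact T.φ_le y).continuous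
  have key : ∀ b : B, 0 ≤ T.φ (star b * b) := T.φ_nonneg
  have hform : ∀ x p : B, star p * (star x * x) * p = star (x * p) * (x * p) := fun x p => by
    simp [mul_assoc]
  let I : Submodule ℂ B :=
    { carrier := {x | x ∈ A ∧ ∀ p ∈ A, T.φ (star p * (star x * x) * p) = 0}
      zero_mem' := ⟨A.zero_mem, fun p _ => by simp⟩
      add_mem' := by
        rintro x y ⟨hxA, hx⟩ ⟨hyA, hy⟩
        refine ⟨A.add_mem hxA hyA, fun p hp => le_antisymm ?_ (hform _ p ▸ key _)⟩
        have h := key ((x - y) * p)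
        have e : star ((x + y) * p) * ((x + y) * p) + star ((x - y) * p) * ((x - y) * p)
            = (2 : ℂ) • (star (x * p) * (x * p)) + (2 : ℂ) • (star (y * p) * (y * p)) := by
          simp only [two_smul, add_mul, sub_mul, star_add, star_sub, mul_add, mul_sub]
          abel
        have e' := congrArg T.φ e
        rw [map_add, map_add, map_smul, map_smul, ← hform x p, ← hform y p, hx p hp, hy p hp,
          smul_zero, zero_add, ← hform] at e'
        calc T.φ (star p * (star (x + y) * (x + y)) * p)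
            = -T.φ (star ((x - y) * p) * ((x - y) * p)) := eq_neg_of_add_eq_zero_left e'
          _ ≤ 0 := neg_nonpos.2 h
      smul_mem' := by
        rintro r x ⟨hxA, hx⟩
        refine ⟨A.smul_mem r hxA, fun p hp => ?_⟩
        simp [smul_smul, hx p hp] }
  have hcl : IsClosed (I : Set B) := by
    have : (I : Set B) = (A : Set B) ∩ ⋂ p ∈ (A : Set B),
        {x : B | T.φ (star p * (star x * x) * p) = 0} := by
      ext x
      simp [I]
    rw [this]
    refine hA.1.inter (isClosed_biInter fun p _ => isClosed_eq (hφc.comp ?_) continuous_const)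
    fun_prop
  have hbi : IsBimod I := by
    rintro b x ⟨hxA, hx⟩
    refine ⟨⟨(hA.2.1 b x hxA).1, fun p hp => le_antisymm ?_ (hform _ p ▸ key _)⟩,
      ⟨(hA.2.1 b x hxA).2, fun p hp => ?_⟩⟩
    · have h2 : star (b * x * p) * (b * x * p) ≤ (‖b‖ ^ 2 : ℝ) • (star (x * p) * (x * p)) := by
        have h2 : star b * b ≤ algebraMap ℝ B (‖b‖ ^ 2) := by
          rw [pow_two, ← CStarRing.norm_star_mul_self]
          exact IsSelfAdjoint.le_algebraMap_norm_self (IsSelfAdjoint.star_mul_self b)
        have h3 := star_left_conjugate_le_conjugate h2 (x * p)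
        rw [← Algebra.commutes, mul_assoc, ← Algebra.smul_def] at h3
        simpa [mul_assoc] using h3
      have h4 := re_mono T.φ key h2
      rw [LinearMap.map_smul_of_tower, Complex.smul_re, ← hform x p, hx p hp, Complex.zero_re, smul_zero] at h4
      rw [hform]
      exact Complex.le_def.2 ⟨h4, (Complex.nonneg_iff.1 (key _)).2.symm⟩
    · have h := hx (b * p) ((hA.2.1 b p hp).1)
      rw [hform] at h ⊢
      simpa [mul_assoc] using h
  rcases hA.2.2.2 I (fun x hx => hx.1) hcl hbi with h | h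
  · by_contra hcon
    push Not at hcon
    exact ha0 (by simpa [h] using (show a ∈ I from ⟨ha, hcon⟩))
  · exfalso
    -- the first corner is not in the kernel
    set e := T.e 1 with he
    have hmem : e ∈ I := h.symm ▸ T.mem 1
    have h0 := hmem.2 e (T.mem 1)
    set y := star e * (star e * e) * e with hy
    obtain ⟨k₀, hk₀⟩ := T.excise₂ {y} (show (0 : ℝ) < 1 / 2 by norm_num)
    obtain ⟨z, hz0, hz⟩ := T.nondeg (max k₀ 1)
    have hsa : star e = e := (IsSelfAdjoint.of_nonneg (T.nonneg 1)).star_eq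
    have hez : e * z = z := T.fix_of_le (le_max_right k₀ 1) hz
    have hyz : star z * y * z = star z * z := by
      simp only [hy, hsa, mul_assoc]
      rw [hez, hez, hez, hez]
    have h2 := hk₀ _ (le_max_left k₀ 1) y (Finset.mem_singleton_self y) z z hz hz
    rw [hyz, h0, zero_smul, sub_zero, CStarRing.norm_star_mul_self] at h2
    nlinarith [norm_pos_iff.2 hz0]

/-- Every norm one element of `A` is seen by a vector of bounded length. -/
lemma exists_vec (hA : IsSimpleIdeal A) (T : Tower A α d) {z : B} (hz : z ∈ A) (hz1 : ‖z‖ = 1) :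
    ∃ u : B, T.φ (star u * (star z * z) * u) = 1 ∧ (T.φ (star u * u)).re ≤ 2 := by
  set h := star z * z with hh
  have hh0 : 0 ≤ h := star_mul_self_nonneg z
  have hhsa : IsSelfAdjoint h := IsSelfAdjoint.star_mul_self z
  have hh1 : ‖h‖ = 1 := by rw [hh, CStarRing.norm_star_mul_self, hz1, one_mul]
  have hhA : h ∈ A := (hA.2.1 (star z) z hz).1
  set f : ℝ → ℝ := fun t => max (t - 1 / 2) 0 with hf
  set g : ℝ → ℝ := fun t => max (t - 1 / 2) 0 / max t (1 / 2) with hg
  have hfc : Continuous f := by fun_prop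
  have hgc : Continuous g :=
    Continuous.div (by fun_prop) (by fun_prop) fun t => ne_of_gt (lt_of_lt_of_le (by norm_num)
      (le_max_right t (1 / 2)))
  have hne : Nontrivial B := ⟨h, 0, fun h' => by rw [h', norm_zero] at hh1; norm_num at hh1⟩
  set q := cfc f h with hq
  have hqsa : star q = q := (cfc_predicate f h).star_eq
  have hqA : q ∈ A := by
    have : q = cfc g h * h := by
      conv_rhs => arg 2; rw [← cfc_id' ℝ h]
      rw [← cfc_mul g (fun t => t) h hgc.continuousOn, hq]
      refine cfc_congr fun t _ => ?_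
      simp only [hf, hg]
      rcases le_or_gt t (1 / 2) with ht | ht
      · rw [max_eq_right (by linarith), zero_div, zero_mul]
      · rw [max_eq_left ht.le, div_mul_cancel₀ _ (by linarith)]
    rw [this]
    exact (hA.2.1 _ h hhA).1
  have hq0 : q ≠ 0 := by
    intro hq0
    have hspec : (1 : ℝ) ∈ spectrum ℝ h := hh1 ▸ CStarAlgebra.norm_mem_spectrum_of_nonneg hh0
    have : cfc f h = cfc (fun _ : ℝ => (0 : ℝ)) h := by rw [← hq, hq0, cfc_const_zero]
    have h2 := eqOn_of_cfc_eq_cfc this hfc.continuousOn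
    have h3 := h2 hspec
    norm_num [hf] at h3
  obtain ⟨w, -, hw⟩ := faithful hA T hqA hq0
  set u := q * w with hu
  have hle : (1 / 2 : ℝ) • (star q * q) ≤ star q * h * q := by
    rw [hqsa]
    have e1 : q * h * q = cfc (fun t => f t * t * f t) h := by
      rw [cfc_mul _ _ h, cfc_mul _ _ h, cfc_id' ℝ h]
    have e2 : (1 / 2 : ℝ) • (q * q) = cfc (fun t => (1 / 2 : ℝ) • (f t * f t)) h := by
      rw [cfc_smul _ _ h, cfc_mul _ _ h]
    rw [e1, e2]
    refine cfc_mono (fun t _ => ?_) (by fun_prop) (by fun_prop)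
    simp only [hf, smul_eq_mul]
    rcases le_or_gt t (1 / 2) with ht | ht
    · rw [max_eq_right (by linarith)]; simp
    · rw [max_eq_left (by linarith)]; nlinarith
  have hle2 := re_mono T.φ T.φ_nonneg (star_left_conjugate_le_conjugate hle w)
  rw [mul_smul_comm, smul_mul_assoc, LinearMap.map_smul_of_tower, Complex.smul_re, smul_eq_mul] at hle2
  have hpos : 0 < (T.φ (star w * (star q * q) * w)).re := by
    have h2 := T.φ_nonneg (q * w)
    rw [star_mul, show star w * star q * (q * w) = star w * (star q * q) * w by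
      simp only [mul_assoc]] at h2
    exact (Complex.pos_iff.1 (lt_of_le_of_ne h2 (Ne.symm hw))).1
  have e3 : star w * (star q * h * q) * w = star u * h * u := by
    simp only [hu, star_mul, mul_assoc]
  have e4 : star w * (star q * q) * w = star u * u := by
    simp only [hu, star_mul, mul_assoc]
  rw [e3, e4] at hle2
  rw [e4] at hpos
  set r := (T.φ (star u * h * u)).re with hr
  have hr0 : 0 < r := by linarith
  have hreal : T.φ (star u * h * u) = (r : ℂ) := by
    have h2 := (Complex.nonneg_iff.1 (T.φ_nonneg (z * u))).2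
    have e5 : star (z * u) * (z * u) = star u * h * u := by simp only [hh, star_mul, mul_assoc]
    rw [e5] at h2
    exact Complex.ext (by simp [hr]) (by simpa using h2.symm)
  set s : ℂ := (((Real.sqrt r)⁻¹ : ℝ) : ℂ) with hs
  have hss : s * s = ((r⁻¹ : ℝ) : ℂ) := by
    rw [hs, ← Complex.ofReal_mul, ← mul_inv, Real.mul_self_sqrt hr0.le]
  have hscal : ∀ x : B, star (s • u) * x * (s • u) = ((r⁻¹ : ℝ) : ℂ) • (star u * x * u) := by
    intro x
    rw [star_smul, smul_mul_assoc, smul_mul_smul_comm, hs, Complex.star_def, Complex.conj_ofReal,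
      ← hs, hss]
  refine ⟨s • u, ?_, ?_⟩
  · rw [hscal, map_smul, hreal, smul_eq_mul, ← Complex.ofReal_mul, inv_mul_cancel₀ hr0.ne',
      Complex.ofReal_one]
  · have := hscal 1
    rw [mul_one, mul_one] at this
    rw [this, map_smul, smul_eq_mul, Complex.re_ofReal_mul, inv_mul_le_iff₀ hr0]
    linarith

/-! ### the closed cone of vectors -/

omit [PartialOrder B] [StarOrderedRing B] in
lemma star_mem_matrix {n : ℕ} (S : CStarMatrix (Fin n) (Fin n) B) (i j : Fin n) :
    star S i j = star (S j i) := rfl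

/-- A matrix in the ideal which is positive against a faithful state is a square. -/
lemma exists_factor (hA : IsSimpleIdeal A) (T : Tower A α d) {n : ℕ}
    (M : CStarMatrix (Fin n) (Fin n) B) (hMA : ∀ i j, M i j ∈ A) (hM : IsSelfAdjoint M)
    (hpos : ∀ q : Fin n → B, (∀ i, q i ∈ A) →
      0 ≤ (T.φ (∑ i, ∑ j, star (q i) * M i j * q j)).re) :
    ∃ R : CStarMatrix (Fin n) (Fin n) B, ∀ i j, M i j = ∑ k, star (R k i) * R k j := by
  -- the real structure compatible with the functional calculus
  let : Algebra ℝ (CStarMatrix (Fin n) (Fin n) B) := NormedAlgebra.complexToReal.toAlgebra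
  set nf : ℝ → ℝ := fun t => max (-t) 0 with hnf
  set sf : ℝ → ℝ := fun t => max (-t) 0 * Real.sqrt (max (-t) 0) with hsf
  set rf : ℝ → ℝ := fun t => Real.sqrt (max t 0) with hrf
  have hnc : Continuous nf := by fun_prop
  have hsc : Continuous sf := by fun_prop
  have hrc : Continuous rf := by fun_prop
  set N := cfc nf M with hN
  set S := cfc sf M with hS
  set R := cfc rf M with hR
  have hNsa : star N = N := (cfc_predicate nf M).star_eq
  have hSsa : star S = S := (cfc_predicate sf M).star_eq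
  have hRsa : star R = R := (cfc_predicate rf M).star_eq
  have hNMN : star N * M * N = -(star S * S) := by
    rw [hNsa, hSsa, hN, hS]
    conv_lhs => arg 1; arg 2; rw [← cfc_id' ℝ M]
    rw [← cfc_mul _ _ M, ← cfc_mul _ _ M, ← cfc_mul _ _ M, ← cfc_neg]
    refine cfc_congr fun t _ => ?_
    simp only [hnf, hsf]
    rcases le_or_gt 0 t with ht | ht
    · rw [max_eq_right (by linarith)]; simp
    · rw [max_eq_left (by linarith)]
      have := Real.mul_self_sqrt (show 0 ≤ -t by linarith)
      linear_combination ((-t) ^ 2) * this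
  -- every entry of `S` kills `A`
  have hkill : ∀ k j, ∀ w ∈ A, S k j * w = 0 := by
    intro k j w hw
    by_contra hne
    obtain ⟨p, hp, hne'⟩ := faithful hA T ((hA.2.1 (S k j) w hw).1) hne
    set x := w * p with hx
    have hxA : x ∈ A := (hA.2.1 w p hp).1
    have h := hpos (fun i => N i j * x) fun i => (hA.2.1 (N i j) x hxA).1
    have e : ∑ i, ∑ l, star (N i j * x) * M i l * (N l j * x)
        = star x * ((star N * M * N) j j) * x := by
      simp only [CStarMatrix.mul_apply, star_mem_matrix, Finset.sum_mul, Finset.mul_sum, star_mul,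
        mul_assoc]
      exact Finset.sum_comm
    rw [e, hNMN] at h
    have e2 : star x * ((-(star S * S)) j j) * x = -∑ l, star (S l j * x) * (S l j * x) := by
      show star x * (-((star S * S) j j)) * x = _
      simp only [CStarMatrix.mul_apply, star_mem_matrix, mul_neg, neg_mul, Finset.mul_sum,
        Finset.sum_mul, star_mul, mul_assoc]
    rw [e2, map_neg, map_sum, Complex.neg_re, Complex.re_sum] at h
    have hterm : ∀ l, 0 ≤ (T.φ (star (S l j * x) * (S l j * x))).re := fun l =>
      (Complex.nonneg_iff.1 (T.φ_nonneg _)).1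
    have hs := Finset.single_le_sum (fun l _ => hterm l) (Finset.mem_univ k)
    have hzero : T.φ (star (S k j * x) * (S k j * x)) = 0 :=
      Complex.ext (by rw [Complex.zero_re]; linarith [hterm k])
        (Complex.nonneg_iff.1 (T.φ_nonneg _)).2.symm
    apply hne'
    rw [show star p * (star (S k j * w) * (S k j * w)) * p = star (S k j * x) * (S k j * x) by
      simp only [hx, star_mul, mul_assoc]]
    exact hzero
  have hSM : S * M = 0 := by
    ext k l
    rw [CStarMatrix.mul_apply]
    exact Finset.sum_eq_zero fun j _ => hkill k j _ (hMA j l)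
  have hzero : cfc (fun t => sf t * t) M = cfc (fun _ : ℝ => (0 : ℝ)) M := by
    rw [cfc_mul _ _ M, cfc_id' ℝ M, ← hS, hSM, cfc_const_zero]
  have heq := eqOn_of_cfc_eq_cfc hzero
  have hMR : M = star R * R := by
    rw [hRsa, hR, ← cfc_mul _ _ M]
    conv_lhs => rw [← cfc_id' ℝ M]
    refine cfc_congr fun t ht => ?_
    simp only [hrf]
    have h0 : 0 ≤ t := by
      by_contra hc
      have := heq ht
      simp only [hsf] at this
      rw [max_eq_left (by linarith)] at this
      have h2 : Real.sqrt (-t) ≠ 0 := Real.sqrt_ne_zero'.2 (by linarith)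
      exact mul_ne_zero (mul_ne_zero (by linarith) h2) (by linarith) this
    rw [max_eq_left h0, Real.mul_self_sqrt h0]
  refine ⟨R, fun i j => ?_⟩
  conv_lhs => rw [hMR]
  simp only [CStarMatrix.mul_apply, star_mem_matrix]

omit [PartialOrder B] [StarOrderedRing B] in
/-- Conjugate symmetry of a positive matrix of functionals. -/
lemma psi_herm {n : ℕ} (ψ : Fin n → Fin n → (B →ₗ[ℂ] ℂ))
    (hψ : ∀ y : Fin n → B, (∀ i, y i ∈ A) → 0 ≤ ∑ i, ∑ j, ψ i j (star (y i) * y j))
    {a b : B} (ha : a ∈ A) (hb : b ∈ A) (i j : Fin n) :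
    ψ i j (star a * b) = conj (ψ j i (star b * a)) := by
  set F : (Fin n → B) → (Fin n → B) → ℂ := fun y y' =>
    ∑ p, ∑ q, ψ p q (star (y p) * y' q) with hF
  have hsingle : ∀ (p q : Fin n) (x x' : B),
      F (Pi.single p x) (Pi.single q x') = ψ p q (star x * x') := by
    intro p q x x'
    simp only [hF]
    rw [Finset.sum_eq_single p (fun p' _ hp' => by simp [Pi.single_eq_of_ne hp']) (by simp),
      Finset.sum_eq_single q (fun q' _ hq' => by simp [Pi.single_eq_of_ne hq']) (by simp)]
    simp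
  have hmem : ∀ (p : Fin n) {x : B}, x ∈ A → ∀ l, Pi.single (M := fun _ => B) p x l ∈ A := by
    intro p x hx l
    rcases eq_or_ne l p with rfl | hl
    · simpa using hx
    · simp [Pi.single_eq_of_ne hl]
  have hnn : ∀ y : Fin n → B, (∀ l, y l ∈ A) → 0 ≤ F y y := hψ
  have hadd : ∀ (y y' : Fin n → B) (r : ℂ), F (y + r • y') (y + r • y') =
      F y y + r * F y y' + conj r * F y' y + conj r * r * F y' y' := by
    intro y y' r
    simp only [hF, Pi.add_apply, Pi.smul_apply, star_add, star_smul, Complex.star_def, add_mul,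
      mul_add, smul_mul_assoc, mul_smul_comm, map_add, map_smul, smul_eq_mul,
      Finset.sum_add_distrib, Finset.mul_sum]
    ring
  set y := Pi.single (M := fun _ => B) i a
  set y' := Pi.single (M := fun _ => B) j b
  have h := fun r : ℂ => (Complex.nonneg_iff.1
    (hnn (y + r • y') fun l => A.add_mem (hmem i ha l) (A.smul_mem r (hmem j hb l)))).2
  have e1 := h 1
  have e2 := h Complex.I
  have e3 := (Complex.nonneg_iff.1 (hnn y (hmem i ha))).2
  have e4 := (Complex.nonneg_iff.1 (hnn y' (hmem j hb))).2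
  rw [hadd, hsingle i j, hsingle j i] at e1 e2
  simp only [map_one, one_mul, Complex.conj_I, neg_mul, Complex.I_mul_I, neg_neg, Complex.add_im,
    Complex.neg_im, Complex.mul_im, Complex.I_re, Complex.I_im, zero_mul, zero_add] at e1 e2
  apply Complex.ext
  · rw [Complex.conj_re]; linarith
  · rw [Complex.conj_im]; linarith

/-- The vector of `b` in the coordinates `x`. -/
noncomputable def vec (φ : B →ₗ[ℂ] ℂ) {m n : ℕ} (x : Fin m → B) (b : Fin n → B) :
    Fin m × Fin n × Fin n → ℂ :=
  fun p => φ (star (b p.2.1) * x p.1 * b p.2.2)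

/-- Finite sums of vectors. -/
noncomputable def cone (φ : B →ₗ[ℂ] ℂ) (A : Submodule ℂ B) {m n : ℕ} (x : Fin m → B) :
    Set (Fin m × Fin n × Fin n → ℂ) :=
  {w | ∃ (T : ℕ) (b : Fin T → Fin n → B), (∀ t i, b t i ∈ A) ∧ w = ∑ t, vec φ x (b t)}

omit [PartialOrder B] [StarOrderedRing B] in
lemma vec_smul (φ : B →ₗ[ℂ] ℂ) {m n : ℕ} (x : Fin m → B) (b : Fin n → B) {r : ℝ} (hr : 0 ≤ r) :
    vec φ x (fun i => ((Real.sqrt r : ℝ) : ℂ) • b i) = r • vec φ x b := by
  funext p
  simp only [vec, Pi.smul_apply, star_smul, Complex.star_def, Complex.conj_ofReal, smul_mul_assoc,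
    mul_smul_comm, smul_smul, map_smul, ← Complex.ofReal_mul, Real.mul_self_sqrt hr, smul_eq_mul,
    Complex.real_smul]

omit [PartialOrder B] [StarOrderedRing B] in
lemma convex_cone (φ : B →ₗ[ℂ] ℂ) (A : Submodule ℂ B) {m n : ℕ} (x : Fin m → B) :
    Convex ℝ (cone (n := n) φ A x) := by
  rintro v ⟨T₁, b₁, hb₁, rfl⟩ w ⟨T₂, b₂, hb₂, rfl⟩ p q hp hq -
  refine ⟨T₁ + T₂, Fin.append (fun t i => ((Real.sqrt p : ℝ) : ℂ) • b₁ t i)
    (fun t i => ((Real.sqrt q : ℝ) : ℂ) • b₂ t i), fun t => ?_, ?_⟩
  · refine Fin.addCases (fun s i => ?_) (fun s i => ?_) t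
    · rw [Fin.append_left]; exact A.smul_mem _ (hb₁ s i)
    · rw [Fin.append_right]; exact A.smul_mem _ (hb₂ s i)
  · simp only [Fin.sum_univ_add, Fin.append_left, Fin.append_right, vec_smul φ x _ hp,
      vec_smul φ x _ hq, Finset.smul_sum]

/-- The values of the matrix of functionals lie in the closed cone of vectors. -/
lemma cone_approx (hA : IsSimpleIdeal A) (T : Tower A α d) {n : ℕ}
    (ψ : Fin n → Fin n → (B →ₗ[ℂ] ℂ))
    (hψ : ∀ y : Fin n → B, (∀ i, y i ∈ A) → 0 ≤ ∑ i, ∑ j, ψ i j (star (y i) * y j))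
    {u₀ : B} (hu₀ : u₀ ∈ A) (hsa : star u₀ = u₀) {m : ℕ} (x : Fin m → B) {ε : ℝ} (hε : 0 < ε) :
    ∃ (N : ℕ) (b : Fin N → Fin n → B), (∀ t i, b t i ∈ A) ∧
      ∀ s i j, ‖∑ t, T.φ (star (b t i) * x s * b t j) - ψ i j (u₀ * u₀ * x s * (u₀ * u₀))‖ < ε := by
  set v : Fin m × Fin n × Fin n → ℂ :=
    fun p => ψ p.2.1 p.2.2 (u₀ * u₀ * x p.1 * (u₀ * u₀)) with hv
  suffices hmem : v ∈ closure (cone (n := n) T.φ A x) by
    obtain ⟨w, ⟨N, b, hb, rfl⟩, hw⟩ := Metric.mem_closure_iff.1 hmem ε hε
    refine ⟨N, b, hb, fun s i j => ?_⟩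
    have := (norm_le_pi_norm (∑ t, vec T.φ x (b t) - v) (s, i, j)).trans_lt
      (by rw [← dist_eq_norm, dist_comm]; exact hw)
    simpa [vec, hv, Finset.sum_apply] using this
  by_contra hnot
  obtain ⟨f, c, hf1, hf2⟩ :=
    geometric_hahn_banach_closed_point (convex_cone T.φ A x).closure isClosed_closure hnot
  have h0 : (0 : Fin m × Fin n × Fin n → ℂ) ∈ cone (n := n) T.φ A x :=
    ⟨0, fun t => t.elim0, fun t => t.elim0, by simp⟩
  have hc : 0 < c := by simpa using hf1 0 (subset_closure h0)
  -- `f` is nonpositive on vectors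
  have hneg : ∀ b : Fin n → B, (∀ i, b i ∈ A) → f (vec T.φ x b) ≤ 0 := by
    intro b hb
    by_contra hpos
    push Not at hpos
    have hr : (0 : ℝ) ≤ c / f (vec T.φ x b) := by positivity
    have h := hf1 _ (subset_closure (show (c / f (vec T.φ x b)) • vec T.φ x b ∈
      cone (n := n) T.φ A x from ⟨1, fun _ i => ((Real.sqrt (c / f (vec T.φ x b)) : ℝ) : ℂ) • b i,
        fun _ i => A.smul_mem _ (hb i), by rw [Fin.sum_univ_one, vec_smul T.φ x b hr]⟩))
    rw [map_smul, smul_eq_mul, div_mul_cancel₀ _ hpos.ne'] at h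
    exact lt_irrefl _ h
  set co : Fin m × Fin n × Fin n → ℂ := fun p =>
    -((f (Pi.single p 1) : ℂ) - Complex.I * (f (Pi.single p Complex.I) : ℂ)) with hco
  have hrep : ∀ w, -(f w) = (∑ p, co p * w p).re := by
    intro w
    have hw : w = ∑ p, ((w p).re • Pi.single (M := fun _ => ℂ) p 1
        + (w p).im • Pi.single (M := fun _ => ℂ) p Complex.I) := by
      funext q
      simp only [Finset.sum_apply, Pi.add_apply, Pi.smul_apply]
      rw [Finset.sum_eq_single q (fun p _ hp => by simp [Pi.single_eq_of_ne hp.symm]) (by simp)]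
      simp [Complex.re_add_im]
    conv_lhs => rw [hw]
    rw [map_sum, ← Finset.sum_neg_distrib, Complex.re_sum]
    refine Finset.sum_congr rfl fun p _ => ?_
    simp only [map_add, map_smul, smul_eq_mul, hco, Complex.mul_re, Complex.neg_re, Complex.neg_im,
      Complex.sub_re, Complex.sub_im, Complex.ofReal_re, Complex.ofReal_im, Complex.mul_im,
      Complex.I_re, Complex.I_im, zero_mul, one_mul, zero_add, sub_zero, zero_sub, mul_zero]
    ring
  set P : Fin n → Fin n → B := fun i j => ∑ s, co (s, i, j) • x s with hP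
  set M : CStarMatrix (Fin n) (Fin n) B :=
    CStarMatrix.ofMatrix fun i j => u₀ * (P i j + star (P j i)) * u₀ with hM
  have hMij : ∀ i j, M i j = u₀ * (P i j + star (P j i)) * u₀ := fun i j => rfl
  have hform : ∀ (g : Fin n → Fin n → (B →ₗ[ℂ] ℂ)) (k : Fin n → Fin n → B → B)
      (w : Fin m × Fin n × Fin n → ℂ),
      (∀ i j (r : ℂ) y y', k i j (r • y + y') = r • k i j y + k i j y') →
      (∀ s i j, w (s, i, j) = g i j (k i j (x s))) →
      ∑ p, co p * w p = ∑ i, ∑ j, g i j (k i j (P i j)) := by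
    intro g k w hlin hw
    simp only [Fintype.sum_prod_type]
    rw [Finset.sum_comm]
    refine Finset.sum_congr rfl fun i _ => ?_
    rw [Finset.sum_comm]
    refine Finset.sum_congr rfl fun j _ => ?_
    let kl : B →ₗ[ℂ] B :=
      { toFun := k i j
        map_add' := fun y y' => by simpa using hlin i j 1 y y'
        map_smul' := fun r y => by
          have h0 : k i j 0 = 0 := by simpa using hlin i j 1 0 0
          simpa [h0] using hlin i j r y 0 }
    have : k i j (P i j) = ∑ s, co (s, i, j) • k i j (x s) := by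
      show kl (P i j) = _
      rw [hP, map_sum]
      exact Finset.sum_congr rfl fun s _ => map_smul kl _ _
    rw [this, map_sum]
    refine Finset.sum_congr rfl fun s _ => ?_
    rw [map_smul, hw, smul_eq_mul]
  have hMA : ∀ i j, M i j ∈ A := fun i j => (hA.2.1 _ u₀ hu₀).1
  have hMsa : IsSelfAdjoint M := by
    show star M = M
    ext i j
    rw [star_mem_matrix, hMij, hMij]
    simp [hsa, mul_assoc, add_comm]
  obtain ⟨R, hR⟩ := exists_factor hA T M hMA hMsa fun q hq => by
    set b : Fin n → B := fun i => u₀ * q i with hb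
    have hbA : ∀ i, b i ∈ A := fun i => (hA.2.1 u₀ (q i) (hq i)).1
    have h1 : 0 ≤ (∑ i, ∑ j, T.φ (star (b i) * P i j * b j)).re := by
      rw [← hform (fun _ _ => T.φ) (fun i j y => star (b i) * y * b j) (vec T.φ x b)
        (fun i j r y y' => by simp [mul_add, add_mul])
        (fun s i j => rfl), ← hrep]
      linarith [hneg b hbA]
    have h2 : ∀ i j, T.φ (star (q i) * M i j * q j) =
        T.φ (star (b i) * P i j * b j) + conj (T.φ (star (b j) * P j i * b i)) := by
      intro i j
      rw [← map_star T.φ T.φ_one T.φ_nonneg, ← map_add, hMij]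
      simp [hb, hsa, mul_assoc, mul_add, add_mul]
    rw [map_sum]
    simp only [map_sum, h2, Finset.sum_add_distrib]
    rw [Finset.sum_comm (f := fun i j => conj (T.φ (star (b j) * P j i * b i)))]
    simp only [Complex.add_re, Complex.re_sum, Complex.conj_re] at h1 ⊢
    linarith
  set u := u₀ * u₀ with hu
  have huA : u ∈ A := (hA.2.1 u₀ u₀ hu₀).1
  have husa : star u = u := by simp [hu, hsa]
  have hpos : 0 ≤ (∑ i, ∑ j, ψ i j (u * (P i j + star (P j i)) * u)).re := by
    have e : ∀ i j, u * (P i j + star (P j i)) * u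
        = ∑ k, star (R k i * u₀) * (R k j * u₀) := by
      intro i j
      have : u * (P i j + star (P j i)) * u = u₀ * M i j * u₀ := by
        rw [hMij, hu]; simp only [mul_assoc]
      rw [this, hR, Finset.mul_sum, Finset.sum_mul]
      exact Finset.sum_congr rfl fun k _ => by simp [hsa, mul_assoc]
    simp only [e, map_sum]
    rw [Finset.sum_congr rfl fun i _ => Finset.sum_comm, Finset.sum_comm, Complex.re_sum]
    exact Finset.sum_nonneg fun k _ => (Complex.nonneg_iff.1
      (hψ (fun i => R k i * u₀) fun i => (hA.2.1 (R k i) u₀ hu₀).1)).1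
  have hherm : ∀ i j, ψ i j (u * star (P j i) * u) = conj (ψ j i (u * P j i * u)) := by
    intro i j
    have h := psi_herm ψ hψ ((hA.2.1 (P j i) u huA).1) huA i j
    rw [star_mul, husa] at h
    rw [h, mul_assoc u (P j i)]
  simp only [mul_add, add_mul, map_add, Finset.sum_add_distrib, hherm] at hpos
  rw [Finset.sum_comm (f := fun i j => conj (ψ j i (u * P j i * u)))] at hpos
  simp only [Complex.add_re, ← map_sum, Complex.conj_re] at hpos
  rw [← hform ψ (fun _ _ y => u * y * u) v
    (fun i j r y y' => by simp [mul_add, add_mul])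
    (fun s i j => rfl), ← hrep] at hpos
  linarith

/-- Orthogonal vectors in a deep corner reproduce the values on the diagonal blocks. -/
lemma spread (hA : IsSimpleIdeal A) (T : Tower A α d)
    (horth : ∀ e ∈ A, 0 ≤ e → ‖e‖ ≤ 1 → Nondeg e → ∀ (N : ℕ), ∀ η > (0 : ℝ),
      ∃ z : Fin N → B, (∀ t, e * z t = z t ∧ ‖z t‖ = 1) ∧
        ∀ s t, s ≠ t → ‖star (z s) * z t‖ ≤ η)
    {n N : ℕ} (K : ℕ) (b : Fin N → Fin n → B) (hb : ∀ t i, b t i ∈ A) (Y : Finset B) {η : ℝ}
    (hη : 0 < η) :
    ∃ a : Fin K → Fin n → B, (∀ k i, a k i ∈ A) ∧ ∀ x ∈ Y, ∀ k k' i j,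
      ‖T.φ (star (a k i) * x * a k' j)
        - (if k = k' then ∑ t, T.φ (star (b t i) * x * b t j) else 0)‖ ≤ η := by
  classical
  set S : Finset B :=
    (Y ×ˢ (Finset.univ : Finset ((Fin N × Fin n) × (Fin N × Fin n)))).image
      fun p => star (b p.2.1.1 p.2.1.2) * p.1 * b p.2.2.1 p.2.2.2 with hS
  set C := ∑ y ∈ S, ‖T.φ y‖ with hC
  have hC0 : 0 ≤ C := Finset.sum_nonneg fun y _ => norm_nonneg _
  set θ := min 1 (η / (20 * ((N : ℝ) + 1) ^ 2 * (C + 1))) with hθ
  have hθ0 : 0 < θ := lt_min one_pos (by positivity)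
  obtain ⟨k₀, hk₀⟩ := T.excise₂ S hθ0
  obtain ⟨z', hz', hoz'⟩ := horth _ (T.mem k₀) (T.nonneg k₀) (T.norm_le k₀) (T.nondeg k₀) (N * K) θ hθ0
  set z : Fin N → Fin K → B := fun t k => z' (finProdFinEquiv (t, k)) with hz
  have hzA : ∀ t k, z t k ∈ A := fun t k => by
    show z' (finProdFinEquiv (t, k)) ∈ A
    rw [← (hz' (finProdFinEquiv (t, k))).1]
    exact (hA.2.1 _ _ (T.mem k₀)).2
  choose w hw1 hw2 using fun t k => exists_vec hA T (hzA t k) (hz' (finProdFinEquiv (t, k))).2
  refine ⟨fun k i => ∑ t, b t i * z t k * w t k,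
    fun k i => A.sum_mem fun t _ => (hA.2.1 _ _ (hA.2.1 _ _ (hb t i)).2).2,
    fun x hx k k' i j => ?_⟩
  -- one pair of indices
  have hterm : ∀ t t', ‖T.φ (star (b t i * z t k * w t k) * x * (b t' j * z t' k' * w t' k'))
      - (if t = t' ∧ k = k' then T.φ (star (b t i) * x * b t' j) else 0)‖ ≤ 20 * (θ * (C + 1)) := by
    intro t t'
    set y := star (b t i) * x * b t' j with hy
    have hyS : y ∈ S :=
      Finset.mem_image.2 ⟨(x, (t, i), (t', j)), Finset.mem_product.2 ⟨hx, Finset.mem_univ _⟩, rfl⟩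
    have hyC : ‖T.φ y‖ ≤ C := Finset.single_le_sum (fun y _ => norm_nonneg (T.φ y)) hyS
    set D := star (z t k) * y * z t' k' - T.φ y • (star (z t k) * z t' k') with hD
    have hDn : ‖D‖ ≤ θ := by
      have := hk₀ k₀ le_rfl y hyS (z t k) (z t' k') (hz' _).1 (hz' _).1
      rwa [(hz' _).2, (hz' _).2, mul_one, mul_one] at this
    have hsplit : star (b t i * z t k * w t k) * x * (b t' j * z t' k' * w t' k')
        = star (w t k) * D * w t' k'
          + T.φ y • (star (w t k) * (star (z t k) * z t' k') * w t' k') := by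
      simp only [hD, mul_sub, sub_mul, mul_smul_comm, smul_mul_assoc, sub_add_cancel]
      simp only [hy, star_mul, mul_assoc]
    rw [hsplit, map_add, map_smul, smul_eq_mul]
    have hwD : ‖T.φ (star (w t k) * D * w t' k')‖ ≤ 4 * (θ + 1) :=
      (norm_sandwich_le T.φ T.φ_one T.φ_nonneg _ _ (hw2 t k) (hw2 t' k') D).trans (by linarith)
    -- sharpen by scaling
    have hwD' : ∀ {E : B} {r : ℝ}, 0 < r → ‖E‖ ≤ r →
        ‖T.φ (star (w t k) * E * w t' k')‖ ≤ 8 * r := by
      intro E r hr hE
      have h := norm_sandwich_le T.φ T.φ_one T.φ_nonneg _ _ (hw2 t k) (hw2 t' k')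
        (((r⁻¹ : ℝ) : ℂ) • E)
      rw [mul_smul_comm, smul_mul_assoc, map_smul, norm_smul, norm_smul, Complex.norm_real,
        Real.norm_of_nonneg (inv_nonneg.2 hr.le)] at h
      have h2 : r⁻¹ * ‖E‖ ≤ 1 := by rw [inv_mul_le_iff₀ hr]; linarith
      have h3 : r⁻¹ * ‖T.φ (star (w t k) * E * w t' k')‖ ≤ 8 := by linarith
      rw [inv_mul_le_iff₀ hr] at h3
      linarith
    have hA1 := hwD' hθ0 hDn
    rcases em (t = t' ∧ k = k') with h | h
    · obtain ⟨rfl, rfl⟩ := h
      rw [if_pos ⟨rfl, rfl⟩, hw1, mul_one, add_sub_cancel_right]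
      nlinarith
    · rw [if_neg h, sub_zero]
      have hne : finProdFinEquiv (t, k) ≠ finProdFinEquiv (t', k') := fun he =>
        h (by simpa using finProdFinEquiv.injective he)
      have hA2 := hwD' hθ0 (hoz' _ _ hne)
      refine (norm_add_le _ _).trans ?_
      rw [norm_mul]
      nlinarith [mul_le_mul hyC hA2 (norm_nonneg _) hC0]
  have hsum : T.φ (star (∑ t, b t i * z t k * w t k) * x * (∑ t, b t j * z t k' * w t k'))
      - (if k = k' then ∑ t, T.φ (star (b t i) * x * b t j) else 0)
      = ∑ t, ∑ t', (T.φ (star (b t i * z t k * w t k) * x * (b t' j * z t' k' * w t' k'))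
        - (if t = t' ∧ k = k' then T.φ (star (b t i) * x * b t' j) else 0)) := by
    simp only [Finset.sum_sub_distrib, star_sum, Finset.sum_mul, Finset.mul_sum, map_sum]
    congr 1
    · exact Finset.sum_comm
    · by_cases hk : k = k'
      · simp [hk]
      · simp [hk]
  rw [hsum]
  refine (norm_sum_le _ _).trans ?_
  calc ∑ t : Fin N, ‖∑ t', _‖ ≤ ∑ t : Fin N, ∑ _t' : Fin N, 20 * (θ * (C + 1)) :=
        Finset.sum_le_sum fun t _ => (norm_sum_le _ _).trans
          (Finset.sum_le_sum fun t' _ => hterm t t')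
    _ = (N : ℝ) ^ 2 * (20 * (θ * (C + 1))) := by
        simp only [Finset.sum_const, Finset.card_univ, Fintype.card_fin, nsmul_eq_mul]; ring
    _ ≤ ((N : ℝ) + 1) ^ 2 * (20 * (θ * (C + 1))) := by
        gcongr; linarith
    _ ≤ η := by
        have h : θ * (20 * ((N : ℝ) + 1) ^ 2 * (C + 1)) ≤ η :=
          (le_div_iff₀ (by positivity)).1 (min_le_right _ _)
        linarith

end Glimm

open Glimm in
/-- The identity of `A` factors approximately through the excised state. -/
theorem exists_decomp (hA : IsSimpleIdeal A) (T : Tower A α d)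
    (horth : ∀ e ∈ A, 0 ≤ e → ‖e‖ ≤ 1 → Nondeg e → ∀ (N : ℕ), ∀ η > (0 : ℝ),
      ∃ z : Fin N → B, (∀ t, e * z t = z t ∧ ‖z t‖ = 1) ∧
        ∀ s t, s ≠ t → ‖star (z s) * z t‖ ≤ η)
    (hcp : HasCPApprox A) (X : Finset B) (hX : ∀ x ∈ X, x ∈ A) {ε : ℝ} (hε : 0 < ε) :
    ∃ (L : ℕ) (a c : Fin L → B), (∀ l, a l ∈ A ∧ c l ∈ A) ∧
      (∀ x ∈ X, ‖decMap T.φ a c x - x‖ ≤ ε ∧ ‖decMap T.φ a c 1 * x - x‖ ≤ ε) ∧
      ‖decMap T.φ a c 1‖ ≤ 2 := by
  classical
  set S := ∑ x ∈ X, ‖x‖ with hS
  have hS0 : 0 ≤ S := Finset.sum_nonneg fun x _ => norm_nonneg x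
  set ε' := min ε 1 / (8 * (S + 1)) with hε'
  have hε'0 : 0 < ε' := by positivity
  have hε'b : ε' * (8 * (S + 1)) = min ε 1 := div_mul_cancel₀ _ (by positivity)
  obtain ⟨u₀, hu₀, hu₀p, hu₀1, hunit⟩ := exists_unit_approx hA X hX hε'0
  have hsa : star u₀ = u₀ := (IsSelfAdjoint.of_nonneg hu₀p).star_eq
  set u := u₀ * u₀ with hu
  have huA : u ∈ A := (hA.2.1 u₀ u₀ hu₀).1
  have hun : ‖u‖ ≤ 1 := (norm_mul_le _ _).trans (mul_le_one₀ hu₀1 (norm_nonneg _) hu₀1)
  have hleft : ∀ x ∈ X, ‖u * x - x‖ ≤ 2 * ε' := by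
    intro x hx
    have e : u * x - x = u₀ * (u₀ * x - x) + (u₀ * x - x) := by
      simp only [hu, mul_sub, mul_assoc]; abel
    rw [e]
    refine (norm_add_le _ _).trans ?_
    have := (norm_mul_le u₀ (u₀ * x - x)).trans
      (mul_le_of_le_one_left (norm_nonneg _) hu₀1)
    linarith [(hunit x hx).1]
  have hright : ∀ x ∈ X, ‖x * u - x‖ ≤ 2 * ε' := by
    intro x hx
    have e : x * u - x = (x * u₀ - x) * u₀ + (x * u₀ - x) := by
      simp only [hu, sub_mul, mul_assoc]; abel
    rw [e]
    refine (norm_add_le _ _).trans ?_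
    have := (norm_mul_le (x * u₀ - x) u₀).trans
      (mul_le_of_le_one_right (norm_nonneg _) hu₀1)
    linarith [(hunit x hx).2]
  set X' : Finset B := insert 1 X with hX'
  obtain ⟨n, K, ψ, c, hcA, hψ, hcps⟩ := hcp (X'.image fun x => u * x * u)
    (fun y hy => by
      obtain ⟨x, -, rfl⟩ := Finset.mem_image.1 hy
      exact (hA.2.1 _ u huA).1) ε' hε'0
  set C0 := (∑ k, ∑ i, ∑ k', ∑ j, ‖star (c k i) * c k' j‖) + 1 with hC0
  have hC00 : 0 < C0 := by
    have : 0 ≤ ∑ k, ∑ i, ∑ k', ∑ j, ‖star (c k i) * c k' j‖ :=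
      Finset.sum_nonneg fun k _ => Finset.sum_nonneg fun i _ => Finset.sum_nonneg fun k' _ =>
        Finset.sum_nonneg fun j _ => norm_nonneg _
    linarith
  set η := ε' / (2 * C0) with hη
  have hη0 : 0 < η := by positivity
  obtain ⟨N, b, hbA, hb⟩ := cone_approx hA T ψ hψ hu₀ hsa
    (fun s : Fin X'.card => (X'.equivFin.symm s : B)) hη0
  obtain ⟨a, haA, ha⟩ := spread hA T horth K b hbA X' hη0
  set e := (Fintype.equivFin (Fin K × Fin n)).symm with he
  refine ⟨Fintype.card (Fin K × Fin n), fun l => a (e l).1 (e l).2, fun l => c (e l).1 (e l).2,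
    fun l => ⟨haA _ _, hcA _ _⟩, ?_⟩
  set D := decMap T.φ (fun l => a (e l).1 (e l).2) (fun l => c (e l).1 (e l).2) with hD
  have hDeq : ∀ y, D y =
      ∑ k, ∑ i, ∑ k', ∑ j, T.φ (star (a k i) * y * a k' j) • (star (c k i) * c k' j) := by
    intro y
    simp only [hD, decMap]
    rw [Equiv.sum_comp e fun p : Fin K × Fin n => ∑ l' : Fin (Fintype.card (Fin K × Fin n)),
      T.φ (star (a p.1 p.2) * y * a (e l').1 (e l').2) •
        (star (c p.1 p.2) * c (e l').1 (e l').2), Fintype.sum_prod_type]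
    refine Finset.sum_congr rfl fun k _ => Finset.sum_congr rfl fun i _ => ?_
    rw [Equiv.sum_comp e fun p : Fin K × Fin n =>
      T.φ (star (a k i) * y * a p.1 p.2) • (star (c k i) * c p.1 p.2), Fintype.sum_prod_type]
  have hnear : ∀ x ∈ X', ‖D x - u * x * u‖ ≤ 2 * ε' := by
    intro x hx
    have h1 := hcps _ (Finset.mem_image.2 ⟨x, hx, rfl⟩)
    set V := ∑ k, ∑ i, ∑ j, ψ i j (u * x * u) • (star (c k i) * c k j) with hV
    have hVeq : V = ∑ k, ∑ i, ∑ k', ∑ j,
        (if k = k' then ψ i j (u * x * u) else 0) • (star (c k i) * c k' j) := by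
      refine Finset.sum_congr rfl fun k _ => Finset.sum_congr rfl fun i _ => ?_
      rw [Finset.sum_eq_single k (fun k' _ hk' => by simp [Ne.symm hk']) (by simp)]
      simp
    have hcoef : ∀ k i k' j, ‖T.φ (star (a k i) * x * a k' j)
        - (if k = k' then ψ i j (u * x * u) else 0)‖ ≤ 2 * η := by
      intro k i k' j
      have h2 := ha x hx k k' i j
      by_cases hk : k = k'
      · rw [if_pos hk] at h2 ⊢
        have h3 := hb (X'.equivFin ⟨x, hx⟩) i j
        simp only [Equiv.symm_apply_apply] at h3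
        refine le_trans ?_ (show η + η ≤ 2 * η by linarith)
        exact (norm_sub_le_norm_sub_add_norm_sub _ _ _).trans (add_le_add h2 h3.le)
      · rw [if_neg hk] at h2 ⊢
        linarith
    have h4 : ‖D x - V‖ ≤ ε' := by
      rw [hDeq, hVeq]
      simp only [← Finset.sum_sub_distrib, ← sub_smul]
      refine le_trans ?_ (show 2 * η * C0 ≤ ε' from le_of_eq (by rw [hη]; field_simp))
      refine le_trans ?_ (mul_le_mul_of_nonneg_left (show
        ∑ k, ∑ i, ∑ k', ∑ j, ‖star (c k i) * c k' j‖ ≤ C0 by linarith) (by positivity))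
      simp only [Finset.mul_sum]
      refine (norm_sum_le _ _).trans (Finset.sum_le_sum fun k _ => ?_)
      refine (norm_sum_le _ _).trans (Finset.sum_le_sum fun i _ => ?_)
      refine (norm_sum_le _ _).trans (Finset.sum_le_sum fun k' _ => ?_)
      refine (norm_sum_le _ _).trans (Finset.sum_le_sum fun j _ => ?_)
      rw [norm_smul]
      exact mul_le_mul_of_nonneg_right (hcoef k i k' j) (norm_nonneg _)
    have h5 : ‖V - u * x * u‖ ≤ ε' := by rw [norm_sub_rev]; exact h1.le
    linarith [norm_sub_le_norm_sub_add_norm_sub (D x) V (u * x * u)]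
  have hone := hnear 1 (Finset.mem_insert_self 1 X)
  rw [mul_one] at hone
  have hε'le : ε' * 8 ≤ min ε 1 := by nlinarith
  refine ⟨fun x hx => ⟨?_, ?_⟩, ?_⟩
  · have hxS : ‖x‖ ≤ S := Finset.single_le_sum (fun x _ => norm_nonneg x) hx
    have h1 := hnear x (Finset.mem_insert_of_mem hx)
    have h2 : ‖u * x * u - x‖ ≤ 4 * ε' := by
      have e : u * x * u - x = u * (x * u - x) + (u * x - x) := by
        simp only [mul_sub, mul_assoc]; abel
      rw [e]
      refine (norm_add_le _ _).trans ?_
      have := (norm_mul_le u (x * u - x)).trans (mul_le_of_le_one_left (norm_nonneg _) hun)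
      linarith [hleft x hx, hright x hx]
    have h3 := norm_sub_le_norm_sub_add_norm_sub (D x) (u * x * u) x
    nlinarith [min_le_left ε 1]
  · have hxS : ‖x‖ ≤ S := Finset.single_le_sum (fun x _ => norm_nonneg x) hx
    have e : D 1 * x - x = (D 1 - u * u) * x + (u * (u * x - x) + (u * x - x)) := by
      simp only [sub_mul, mul_sub, mul_assoc]; abel
    rw [e]
    refine (norm_add_le _ _).trans ?_
    have h1 := (norm_mul_le (D 1 - u * u) x).trans
      (mul_le_mul hone hxS (norm_nonneg _) (by positivity))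
    have h2 := (norm_mul_le u (u * x - x)).trans (mul_le_of_le_one_left (norm_nonneg _) hun)
    have h3 := norm_add_le (u * (u * x - x)) (u * x - x)
    nlinarith [hleft x hx, min_le_left ε 1]
  · have h1 := norm_le_norm_sub_add (D 1) (u * u)
    have h2 : ‖u * u‖ ≤ 1 := (norm_mul_le _ _).trans (mul_le_one₀ hun (norm_nonneg _) hun)
    linarith [min_le_right ε 1]

end Vale.Agent.P095.SI
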