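import Vale.Agent.P095.SI.Basic

/-!
P095: a decreasing sequence of corners excising a state, in which the automorphisms that move
central sequences move everything far away.
-/

open Filter Topology
open scoped ComplexOrder

namespace Vale.Agent.P095.SI

variable {B : Type*} [CStarAlgebra B] [PartialOrder B] [StarOrderedRing B]

/-- Corners `e k`, each a unit for the next, excising the state `φ`. -/
structure Tower (A : Submodule ℂ B) {G : Type*} (α : G → B ≃⋆ₐ[ℂ] B) (d : B) where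
  e : ℕ → B
  φ : B →ₗ[ℂ] ℂ
  e_zero : e 0 = d
  mem : ∀ k, e k ∈ A
  nonneg : ∀ k, 0 ≤ e k
  norm_le : ∀ k, ‖e k‖ ≤ 1
  nondeg : ∀ k, Nondeg (e k)
  step : ∀ k, e k * e (k + 1) = e (k + 1)
  φ_one : φ 1 = 1
  φ_nonneg : ∀ y, 0 ≤ φ (star y * y)
  φ_le : ∀ y, ‖φ y‖ ≤ ‖y‖
  excise : ∀ y, ∀ ε > (0 : ℝ), ∃ k, ∀ z, e k * z = z →
    ‖star z * y * z - φ y • (star z * z)‖ ≤ ε * ‖z‖ ^ 2
  orth : ∀ g, ¬ TrivOn A (α g) → ∀ x, ∀ ε > (0 : ℝ), ∃ k, ∀ z z', e k * z = z → e k * z' = z' →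
    ‖star z * x * α g z'‖ ≤ ε * ‖z‖ * ‖z'‖

omit [PartialOrder B] [StarOrderedRing B] in
theorem mul_eq_of_chain {e : ℕ → B} (hs : ∀ k, e k * e (k + 1) = e (k + 1)) {j k : ℕ} (h : j < k) :
    e j * e k = e k := by
  induction k with
  | zero => omega
  | succ k ih =>
    rcases (Nat.lt_succ_iff.1 h).eq_or_lt with rfl | h'
    · exact hs j
    · rw [← hs k, ← mul_assoc, ih h']

omit [PartialOrder B] [StarOrderedRing B] in
theorem fix_of_chain {e : ℕ → B} (hs : ∀ k, e k * e (k + 1) = e (k + 1)) {j k : ℕ} (h : j ≤ k)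
    {z : B} (hz : e k * z = z) : e j * z = z := by
  rcases h.eq_or_lt with rfl | h'
  · exact hz
  · rw [← hz, ← mul_assoc, mul_eq_of_chain hs h']

omit [PartialOrder B] [StarOrderedRing B] in
/-- Polarisation of an excision bound. -/
theorem norm_polar_le {e y : B} {c : ℂ} {ε : ℝ}
    (hex : ∀ z, e * z = z → ‖star z * y * z - c • (star z * z)‖ ≤ ε * ‖z‖ ^ 2)
    {a b : B} (ha : e * a = a) (hb : e * b = b) :
    ‖star a * y * b - c • (star a * b)‖ ≤ 6 * ε * ‖a‖ * ‖b‖ := by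
  set D : B → B → B := fun u v => star u * y * v - c • (star u * v) with hD
  have unit : ∀ u v, e * u = u → e * v = v → ‖u‖ = 1 → ‖v‖ = 1 → ‖D u v‖ ≤ 6 * ε := by
    intro u v hu hv hu1 hv1
    have hε : 0 ≤ ε := by
      have := (norm_nonneg _).trans (hex u hu); rw [hu1] at this; linarith
    have hS : ∀ w, e * w = w → ‖w‖ = 1 → ‖D (u + w) (u + w) - D u u - D w w‖ ≤ 6 * ε := by
      intro w hw hw1
      have h1 := hex (u + w) (by rw [mul_add, hu, hw])
      have h2 := hex u hu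
      have h3 := hex w hw
      rw [hu1] at h2; rw [hw1] at h3
      have h4 : ‖u + w‖ ^ 2 ≤ 4 := by
        have h5 := norm_add_le u w
        have h6 := norm_nonneg (u + w)
        nlinarith
      have h7 : ‖D (u + w) (u + w)‖ ≤ ε * 4 := h1.trans (mul_le_mul_of_nonneg_left h4 hε)
      calc ‖D (u + w) (u + w) - D u u - D w w‖
          ≤ ‖D (u + w) (u + w)‖ + ‖D u u‖ + ‖D w w‖ :=
            (norm_sub_le _ _).trans (add_le_add (norm_sub_le _ _) le_rfl)
        _ ≤ _ := by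
            have h8 : ‖D u u‖ ≤ ε := by simpa [hD] using h2
            have h9 : ‖D w w‖ ≤ ε := by simpa [hD] using h3
            linarith
    have e1 := hS v hv hv1
    have e2 := hS (Complex.I • v) (by rw [mul_smul_comm, hv])
      (by rw [norm_smul, Complex.norm_I, one_mul, hv1])
    have key : (2 : ℂ) • D u v = (D (u + v) (u + v) - D u u - D v v) -
        Complex.I • (D (u + Complex.I • v) (u + Complex.I • v) - D u u -
          D (Complex.I • v) (Complex.I • v)) := by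
      simp only [hD, star_add, star_smul, Complex.star_def, Complex.conj_I, add_mul, mul_add,
        smul_add, smul_sub, smul_mul_assoc, mul_smul_comm, smul_smul, neg_smul, neg_mul,
        Complex.I_mul_I]
      match_scalars <;> (ring_nf; try simp only [Complex.I_sq]; try ring)
    have h2 : 2 * ‖D u v‖ ≤ 12 * ε := by
      have h := congrArg norm key
      rw [norm_smul, Complex.norm_two] at h
      rw [h]
      refine (norm_sub_le _ _).trans ?_
      rw [norm_smul, Complex.norm_I, one_mul]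
      linarith
    linarith
  by_cases ha0 : a = 0
  · simp [ha0]
  by_cases hb0 : b = 0
  · simp [hb0]
  have hna : 0 < ‖a‖ := norm_pos_iff.2 ha0
  have hnb : 0 < ‖b‖ := norm_pos_iff.2 hb0
  have h := unit (((‖a‖⁻¹ : ℝ) : ℂ) • a) (((‖b‖⁻¹ : ℝ) : ℂ) • b) (by rw [mul_smul_comm, ha])
    (by rw [mul_smul_comm, hb])
    (by rw [norm_smul, Complex.norm_real, Real.norm_eq_abs, abs_of_pos (inv_pos.2 hna),
      inv_mul_cancel₀ hna.ne'])
    (by rw [norm_smul, Complex.norm_real, Real.norm_eq_abs, abs_of_pos (inv_pos.2 hnb),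
      inv_mul_cancel₀ hnb.ne'])
  have e3 : D (((‖a‖⁻¹ : ℝ) : ℂ) • a) (((‖b‖⁻¹ : ℝ) : ℂ) • b)
      = ((‖a‖⁻¹ * ‖b‖⁻¹ : ℝ) : ℂ) • D a b := by
    simp only [hD, star_smul, Complex.star_def, Complex.conj_ofReal, smul_mul_assoc, mul_smul_comm,
      smul_smul, smul_sub]
    push_cast
    congr 2 <;> ring
  rw [e3, norm_smul, Complex.norm_real, Real.norm_eq_abs, abs_of_pos (by positivity)] at h
  calc ‖D a b‖ = ‖a‖ * ‖b‖ * (‖a‖⁻¹ * ‖b‖⁻¹ * ‖D a b‖) := by field_simp
    _ ≤ ‖a‖ * ‖b‖ * (6 * ε) := mul_le_mul_of_nonneg_left h (by positivity)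
    _ = _ := by ring

namespace Tower

variable {A : Submodule ℂ B} {G : Type*} {α : G → B ≃⋆ₐ[ℂ] B} {d : B} (T : Tower A α d)

omit [StarOrderedRing B] in
theorem mul_eq {j k : ℕ} (h : j < k) : T.e j * T.e k = T.e k :=
  mul_eq_of_chain T.step h

omit [StarOrderedRing B] in
theorem fix_of_le {j k : ℕ} (h : j ≤ k) {z : B} (hz : T.e k * z = z) : T.e j * z = z :=
  fix_of_chain T.step h hz

omit [StarOrderedRing B] in
/-- Excision of a finite set, polarised, for all deep corners. -/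
theorem excise₂ (Y : Finset B) {ε : ℝ} (hε : 0 < ε) :
    ∃ k₀, ∀ k, k₀ ≤ k → ∀ y ∈ Y, ∀ z z', T.e k * z = z → T.e k * z' = z' →
      ‖star z * y * z' - T.φ y • (star z * z')‖ ≤ ε * ‖z‖ * ‖z'‖ := by
  refine eventually_atTop.1 ((Filter.eventually_all_finset Y).2 fun y _ => ?_)
  obtain ⟨k, hk⟩ := T.excise y (ε / 6) (by positivity)
  filter_upwards [eventually_ge_atTop k] with n hn z z' hz hz'
  have h := norm_polar_le hk (T.fix_of_le hn hz) (T.fix_of_le hn hz')
  rwa [mul_div_cancel₀ ε (by norm_num : (6 : ℝ) ≠ 0)] at h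

omit [StarOrderedRing B] in
/-- Separation of finitely many automorphisms, for all deep corners. -/
theorem orth₂ (K : Finset G) (hK : ∀ g ∈ K, ¬ TrivOn A (α g)) (Y : Finset B) {ε : ℝ}
    (hε : 0 < ε) :
    ∃ k₀, ∀ k, k₀ ≤ k → ∀ g ∈ K, ∀ y ∈ Y, ∀ z z', T.e k * z = z → T.e k * z' = z' →
      ‖star z * y * α g z'‖ ≤ ε * ‖z‖ * ‖z'‖ := by
  refine eventually_atTop.1 ((Filter.eventually_all_finset K).2 fun g hg =>
    (Filter.eventually_all_finset Y).2 fun y _ => ?_)
  obtain ⟨k, hk⟩ := T.orth g (hK g hg) y ε hε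
  filter_upwards [eventually_ge_atTop k] with n hn z z' hz hz'
  exact hk z z' (T.fix_of_le hn hz) (T.fix_of_le hn hz')

end Tower

/-- A usable corner. -/
def Corner (A : Submodule ℂ B) (e : B) : Prop := e ∈ A ∧ 0 ≤ e ∧ ‖e‖ ≤ 1 ∧ Nondeg e

/-- `e'` is a corner inside the corner `e`. -/
def Sub' (A : Submodule ℂ B) (e e' : B) : Prop := Corner A e' ∧ e * e' = e'

omit [StarOrderedRing B] in
theorem Sub'.trans {A : Submodule ℂ B} {e e' e'' : B} (h : Sub' A e e') (h' : Sub' A e' e'') :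
    Sub' A e e'' := ⟨h'.1, by rw [← h'.2, ← mul_assoc, h.2]⟩

omit [StarOrderedRing B] in
theorem Sub'.fix {A : Submodule ℂ B} {e e' : B} (h : Sub' A e e') {z : B} (hz : e' * z = z) :
    e * z = z := by rw [← hz, ← mul_assoc, h.2]

/-- A corner all of whose fixed elements are right multiples of a given one. -/
theorem exists_sub_of_elem {A : Submodule ℂ B} (hA : IsBimod A) {e W : B} (he : e ∈ A)
    (hW : e * W = W) (hW0 : W ≠ 0) :
    ∃ e', Sub' A e e' ∧ ∀ z, e' * z = z → ∃ v, z = W * v ∧ ‖W‖ * ‖v‖ ≤ 3 * ‖z‖ := by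
  have : Nontrivial B := ⟨⟨W, 0, hW0⟩⟩
  set r : ℝ := ‖W * star W‖⁻¹ with hr
  have hn : ‖W * star W‖ = ‖W‖ * ‖W‖ := CStarRing.norm_self_mul_star
  have hn0 : 0 < ‖W‖ := norm_pos_iff.2 hW0
  have hr0 : 0 ≤ r := inv_nonneg.2 (norm_nonneg _)
  set dd : B := r • (W * star W) with hdd
  have hdd0 : 0 ≤ dd := smul_nonneg hr0 (mul_star_self_nonneg W)
  have hdd1 : ‖dd‖ = 1 := by
    rw [hdd, norm_smul, Real.norm_eq_abs, abs_of_nonneg hr0, hr, inv_mul_cancel₀]
    rw [hn]; positivity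
  have hddsa : IsSelfAdjoint dd := IsSelfAdjoint.of_nonneg hdd0
  clear_value dd
  set f1 : ℝ → ℝ := fun t => max 0 (min 1 (3 * t - 1)) with hf1
  set f2 : ℝ → ℝ := fun t => max 0 (min 1 (3 * t - 2)) with hf2
  set g : ℝ → ℝ := fun t => f1 t / max t (1 / 3) with hg
  have hf1c : Continuous f1 := by fun_prop
  have hf2c : Continuous f2 := by fun_prop
  have hgc : Continuous g := hf1c.div (by fun_prop) fun t =>
    (lt_of_lt_of_le (by norm_num : (0 : ℝ) < 1 / 3) (le_max_right _ _)).ne'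
  have hprod : cfc f1 dd = dd * cfc g dd := by
    nth_rewrite 2 [← cfc_id' ℝ dd]
    rw [← cfc_mul (fun t => t) g dd continuousOn_id hgc.continuousOn]
    refine cfc_congr fun t _ => ?_
    simp only [hg, hf1]
    rcases le_total t (1 / 3) with h | h
    · rw [min_eq_right (by linarith), max_eq_left (by linarith)]; simp
    · rw [max_eq_left h]; field_simp
  have hG : ‖cfc g dd‖ ≤ 3 := by
    refine norm_cfc_le (by norm_num) fun t _ => ?_
    have h0 : 0 < max t (1 / 3) := lt_of_lt_of_le (by norm_num) (le_max_right _ _)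
    have h3 : (1 : ℝ) / 3 ≤ max t (1 / 3) := le_max_right _ _
    have h1 : f1 t ≤ 1 := max_le zero_le_one (min_le_left _ _)
    have h1' : 0 ≤ f1 t := le_max_left _ _
    rw [Real.norm_eq_abs, hg, abs_of_nonneg (div_nonneg h1' h0.le), div_le_iff₀ h0]
    linarith
  have hev : e * dd = dd := by rw [hdd, mul_smul_comm, ← mul_assoc, hW]
  have hee : e * cfc f1 dd = cfc f1 dd := by rw [hprod, ← mul_assoc, hev]
  refine ⟨cfc f1 dd, ⟨⟨?_, cfc_nonneg fun t _ => le_max_left _ _, ?_, ?_⟩, hee⟩, ?_⟩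
  · rw [← hee]; exact (hA _ _ he).2
  · refine norm_cfc_le zero_le_one fun t _ => ?_
    rw [Real.norm_eq_abs, abs_of_nonneg (le_max_left _ _)]
    exact max_le zero_le_one (min_le_left _ _)
  · refine ⟨cfc f2 dd, ?_, ?_⟩
    · intro h0
      have hmem : (1 : ℝ) ∈ spectrum ℝ dd := hdd1 ▸ CStarAlgebra.norm_mem_spectrum_of_nonneg hdd0
      have h := norm_apply_le_norm_cfc f2 dd hmem
      rw [h0, norm_zero] at h
      norm_num [hf2] at h
    · rw [← cfc_mul f1 f2 dd hf1c.continuousOn hf2c.continuousOn]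
      refine cfc_congr fun t _ => ?_
      simp only [hf1, hf2]
      rcases le_total t (2 / 3) with h | h
      · rw [min_eq_right (show 3 * t - 2 ≤ 1 by linarith), max_eq_left (show 3 * t - 2 ≤ 0 by linarith)]
        simp
      · rw [min_eq_left (show (1 : ℝ) ≤ 3 * t - 1 by linarith), max_eq_right zero_le_one, one_mul]
  · intro z hz
    refine ⟨r • (star W * cfc g dd * z), ?_, ?_⟩
    · conv_lhs => rw [← hz, hprod]
      generalize cfc g dd = G
      rw [hdd]
      simp only [mul_smul_comm, smul_mul_assoc, mul_assoc]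
    · rw [norm_smul, Real.norm_eq_abs, abs_of_nonneg hr0]
      have h1 : ‖star W * cfc g dd * z‖ ≤ ‖W‖ * 3 * ‖z‖ := by
        refine (norm_mul_le _ _).trans (mul_le_mul_of_nonneg_right ((norm_mul_le _ _).trans ?_) (norm_nonneg _))
        rw [norm_star]
        exact mul_le_mul_of_nonneg_left hG (norm_nonneg _)
      calc ‖W‖ * (r * ‖star W * cfc g dd * z‖) ≤ ‖W‖ * (r * (‖W‖ * 3 * ‖z‖)) := by gcongr
        _ = _ := by rw [hr, hn]; field_simp

omit [PartialOrder B] [StarOrderedRing B] in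
theorem smul_star_mul (r : ℝ) (z : B) :
    star z * algebraMap ℝ B r * z = (r : ℂ) • (star z * z) := by
  rw [Complex.coe_smul, Algebra.algebraMap_eq_smul_one]
  simp only [mul_smul_comm, smul_mul_assoc, mul_one]

/-- One step of excision for a self-adjoint element. -/
theorem exists_sub_excise_sa {A : Submodule ℂ B} (hA : IsBimod A) {e : B} (he : Corner A e)
    {y : B} (hy : IsSelfAdjoint y) {ε : ℝ} (hε : 0 < ε) :
    ∃ e', Sub' A e e' ∧ ∃ c : ℂ, ∀ z, e' * z = z →
      ‖star z * y * z - c • (star z * z)‖ ≤ ε * ‖z‖ ^ 2 := by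
  obtain ⟨heA, -, -, w, hw0, hw⟩ := he
  have : Nontrivial B := ⟨⟨w, 0, hw0⟩⟩
  set S := {t : ℝ | ∀ z, e * z = z → 0 ≤ star z * (algebraMap ℝ B t - y) * z} with hS
  have hyS : ‖y‖ ∈ S := fun z _ =>
    star_left_conjugate_nonneg (sub_nonneg.2 hy.le_algebraMap_norm_self) z
  have hbdd : BddBelow S := by
    refine ⟨-‖y‖, fun t ht => ?_⟩
    by_contra hlt
    have h1 := ht w hw
    have h2 : 0 ≤ star w * (y + algebraMap ℝ B ‖y‖) * w := by
      refine star_left_conjugate_nonneg ?_ w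
      have := hy.neg_algebraMap_norm_le_self
      rw [← sub_neg_eq_add]; exact sub_nonneg.2 this
    have h3 := add_nonneg h1 h2
    rw [← add_mul, ← mul_add, show algebraMap ℝ B t - y + (y + algebraMap ℝ B ‖y‖)
      = -algebraMap ℝ B (-(t + ‖y‖)) by rw [map_neg, map_add]; abel,
      mul_neg, neg_mul, smul_star_mul, Complex.coe_smul] at h3
    have h4 : 0 ≤ (-(t + ‖y‖)) • (star w * w) :=
      smul_nonneg (by linarith [not_le.1 hlt]) (star_mul_self_nonneg w)
    have h5 := le_antisymm (neg_nonneg.1 h3) h4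
    rcases smul_eq_zero.1 h5 with h6 | h6
    · linarith [not_le.1 hlt]
    · exact hw0 (CStarRing.star_mul_self_eq_zero_iff _ |>.1 h6)
  set lam := sInf S with hlam
  obtain ⟨t1, ht1, ht1'⟩ := exists_lt_of_csInf_lt ⟨_, hyS⟩ (show sInf S < lam + ε / 4 by linarith)
  have ht0 : lam - ε / 4 ∉ S := fun h => by linarith [csInf_le hbdd h]
  simp only [hS, Set.mem_ofPred_eq, not_forall] at ht0
  obtain ⟨z0, hz0, hT⟩ := ht0
  set t0 := lam - ε / 4 with ht0
  set T := star z0 * (y - algebraMap ℝ B t0) * z0 with hTdef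
  have hTsa : IsSelfAdjoint T := (hy.sub (IsSelfAdjoint.algebraMap B (IsSelfAdjoint.all t0))).conjugate' z0
  set q : ℝ → ℝ := fun t => Real.sqrt (max t 0) with hq
  have hqc : Continuous q := by fun_prop
  set W := z0 * cfc q T with hW
  have hmid : star W * (y - algebraMap ℝ B t0) * W = cfc (fun t : ℝ => max t 0 * max t 0) T := by
    rw [hW, star_mul, (IsSelfAdjoint.cfc (f := q) (a := T)).star_eq,
      show cfc q T * star z0 * (y - algebraMap ℝ B t0) * (z0 * cfc q T)
        = cfc q T * T * cfc q T by rw [hTdef]; simp only [mul_assoc]]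
    nth_rewrite 2 [← cfc_id' ℝ T]
    rw [← cfc_mul q (fun t => t) T hqc.continuousOn continuousOn_id, ← cfc_mul (fun t => q t * t) q T (hqc.mul continuous_id).continuousOn hqc.continuousOn]
    refine cfc_congr fun t _ => ?_
    simp only [hq]
    rcases le_total t 0 with h | h
    · simp [max_eq_right h]
    · rw [max_eq_left h, mul_comm (Real.sqrt t) t, mul_assoc, Real.mul_self_sqrt h]
  have hW0 : W ≠ 0 := by
    intro h0
    rw [h0, mul_zero, ← cfc_zero ℝ T] at hmid
    have heq := eqOn_of_cfc_eq_cfc hmid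
    have hle : T ≤ algebraMap ℝ B 0 := by
      rw [le_algebraMap_iff_spectrum_le]
      intro t ht
      by_contra hc
      have := heq ht
      simp only [max_eq_left (not_le.1 hc).le, Pi.zero_apply] at this
      nlinarith [not_le.1 hc]
    rw [map_zero, hTdef] at hle
    refine hT ?_
    rw [← neg_sub, mul_neg, neg_mul]
    exact neg_nonneg.2 hle
  obtain ⟨e', hsub, he'⟩ := exists_sub_of_elem hA heA (W := W)
    (by rw [hW, ← mul_assoc, hz0]) hW0
  refine ⟨e', hsub, ((lam : ℝ) : ℂ), fun z hz => ?_⟩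
  obtain ⟨v, hv, -⟩ := he' z hz
  set Q := star z * z with hQ
  have hQn : ‖Q‖ = ‖z‖ ^ 2 := by rw [hQ, CStarRing.norm_star_mul_self, sq]
  set X := star z * y * z - (lam : ℂ) • Q with hX
  have hlo : 0 ≤ X + (ε / 4) • Q := by
    have h : 0 ≤ star z * (y - algebraMap ℝ B t0) * z := by
      rw [hv, star_mul, show star v * star W * (y - algebraMap ℝ B t0) * (W * v)
        = star v * (star W * (y - algebraMap ℝ B t0) * W) * v by simp only [mul_assoc], hmid]
      exact star_left_conjugate_nonneg (cfc_nonneg fun t _ => mul_self_nonneg _) v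
    rw [mul_sub, sub_mul, smul_star_mul, ← hQ, Complex.coe_smul, ht0, sub_smul] at h
    rw [hX, Complex.coe_smul]
    refine h.trans_eq ?_
    abel
  have hhi : X + (ε / 4) • Q ≤ (ε / 2) • Q := by
    have h := ht1 z (hsub.fix hz)
    rw [mul_sub, sub_mul, smul_star_mul, sub_nonneg, ← hQ, Complex.coe_smul] at h
    have h' : t1 • Q ≤ (lam + ε / 4) • Q :=
      smul_le_smul_of_nonneg_right ht1'.le (star_mul_self_nonneg z)
    rw [hX, Complex.coe_smul, show (ε / 2) = (lam + ε / 4) - lam + ε / 4 by ring, add_smul, sub_smul]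
    exact add_le_add (sub_le_sub_right (h.trans h') _) le_rfl
  have hn := CStarAlgebra.norm_le_norm_of_nonneg_of_le hlo hhi
  rw [norm_smul, Real.norm_eq_abs, abs_of_pos (by linarith), hQn] at hn
  calc ‖X‖ = ‖X + (ε / 4) • Q - (ε / 4) • Q‖ := by rw [add_sub_cancel_right]
    _ ≤ ‖X + (ε / 4) • Q‖ + ‖(ε / 4) • Q‖ := norm_sub_le _ _
    _ ≤ _ := by
      rw [norm_smul, Real.norm_eq_abs, abs_of_pos (by linarith), hQn]
      nlinarith [sq_nonneg ‖z‖]

/-- One step of excision. -/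
theorem exists_sub_excise {A : Submodule ℂ B} (hA : IsBimod A) {e : B} (he : Corner A e) (y : B)
    {ε : ℝ} (hε : 0 < ε) :
    ∃ e', Sub' A e e' ∧ ∃ c : ℂ, ∀ z, e' * z = z →
      ‖star z * y * z - c • (star z * z)‖ ≤ ε * ‖z‖ ^ 2 := by
  obtain ⟨e1, h1, c1, hc1⟩ := exists_sub_excise_sa hA he (realPart y).2 (half_pos hε)
  obtain ⟨e2, h2, c2, hc2⟩ := exists_sub_excise_sa hA h1.1 (imaginaryPart y).2 (half_pos hε)
  refine ⟨e2, h1.trans h2, c1 + Complex.I * c2, fun z hz => ?_⟩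
  have e3 : star z * y * z - (c1 + Complex.I * c2) • (star z * z) =
      (star z * (realPart y : B) * z - c1 • (star z * z)) +
        Complex.I • (star z * (imaginaryPart y : B) * z - c2 • (star z * z)) := by
    conv_lhs => rw [← realPart_add_I_smul_imaginaryPart y]
    simp only [mul_add, add_mul, mul_smul_comm, smul_mul_assoc, add_smul, smul_sub, smul_smul]
    abel
  rw [e3]
  refine (norm_add_le _ _).trans ?_
  rw [norm_smul, Complex.norm_I, one_mul]
  linarith [hc1 z (h2.fix hz), hc2 z hz]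

theorem exists_sub_orth {A : Submodule ℂ B} (hA : IsBimod A) (σ : B ≃⋆ₐ[ℂ] B)
    (hσ : OrthFor A σ) {e : B} (he : Corner A e) (x : B) {ε : ℝ} (hε : 0 < ε) :
    ∃ e', Sub' A e e' ∧ ∀ z z', e' * z = z → e' * z' = z' →
      ‖star z * x * σ z'‖ ≤ ε * ‖z‖ * ‖z'‖ := by
  obtain ⟨w, hw, hw0, hw1, hwx⟩ := hσ e he.1 he.2.1 he.2.2.1 he.2.2.2 x (ε / 9) (by positivity)
  obtain ⟨e', h', hv⟩ := exists_sub_of_elem hA he.1 hw (fun h => by simp [h] at hw1)
  refine ⟨e', h', fun z z' hz hz' => ?_⟩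
  obtain ⟨v, rfl, hvn⟩ := hv z hz
  obtain ⟨v', rfl, hvn'⟩ := hv z' hz'
  rw [hw1, one_mul] at hvn hvn'
  rw [map_mul, star_mul, (IsSelfAdjoint.of_nonneg hw0).star_eq,
    show star v * w * x * (σ w * σ v') = star v * (w * x * σ w) * σ v' by simp only [mul_assoc]]
  calc ‖star v * (w * x * σ w) * σ v'‖ ≤ ‖star v‖ * ‖w * x * σ w‖ * ‖σ v'‖ := norm_mul₃_le
    _ = ‖v‖ * ‖w * x * σ w‖ * ‖v'‖ := by rw [norm_star, StarAlgEquiv.norm_map]
    _ ≤ 3 * ‖w * v‖ * (ε / 9) * (3 * ‖w * v'‖) := by gcongr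
    _ = _ := by ring

/-- The corner of one stage. -/
theorem exists_sub_stage {A : Submodule ℂ B} (hA : IsBimod A) {G : Type*}
    (α : G → B ≃⋆ₐ[ℂ] B) (horth : ∀ g, ¬ TrivOn A (α g) → OrthFor A (α g)) (Y : Finset B)
    (K : Finset G) {ε : ℝ} (hε : 0 < ε) {e : B} (he : Corner A e) :
    ∃ e', Sub' A e e' ∧
      (∀ y ∈ Y, ∃ c : ℂ, ∀ z, e' * z = z → ‖star z * y * z - c • (star z * z)‖ ≤ ε * ‖z‖ ^ 2) ∧
      ∀ g ∈ K, ¬ TrivOn A (α g) → ∀ y ∈ Y, ∀ z z', e' * z = z → e' * z' = z' →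
        ‖star z * y * α g z'‖ ≤ ε * ‖z‖ * ‖z'‖ := by
  classical
  have hk : ∀ (y : B) (e : B), Corner A e → ∀ K : Finset G, ∃ e', Sub' A e e' ∧
      ∀ g ∈ K, ¬ TrivOn A (α g) → ∀ z z', e' * z = z → e' * z' = z' →
        ‖star z * y * α g z'‖ ≤ ε * ‖z‖ * ‖z'‖ := by
    intro y e he K
    induction K using Finset.induction_on with
    | empty =>
      obtain ⟨e1, h1, -⟩ := exists_sub_excise hA he y hε
      exact ⟨e1, h1, by simp⟩
    | @insert g K hg ih =>
      obtain ⟨e1, h1, h1'⟩ := ih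
      by_cases hgt : TrivOn A (α g)
      · refine ⟨e1, h1, fun g' hg' hne => ?_⟩
        rcases Finset.mem_insert.1 hg' with rfl | hg''
        · exact absurd hgt hne
        · exact h1' g' hg'' hne
      · obtain ⟨e2, h2, h2'⟩ := exists_sub_orth hA (α g) (horth g hgt) h1.1 y hε
        refine ⟨e2, h1.trans h2, fun g' hg' hne z z' hz hz' => ?_⟩
        rcases Finset.mem_insert.1 hg' with rfl | hg''
        · exact h2' z z' hz hz'
        · exact h1' g' hg'' hne z z' (h2.fix hz) (h2.fix hz')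
  induction Y using Finset.induction_on with
  | empty =>
    obtain ⟨e1, h1, -⟩ := exists_sub_excise hA he 0 hε
    exact ⟨e1, h1, by simp, by simp⟩
  | @insert y Y hy ih =>
    obtain ⟨e1, h1, h1e, h1o⟩ := ih
    obtain ⟨e2, h2, c, hc⟩ := exists_sub_excise hA h1.1 y hε
    obtain ⟨e3, h3, h3'⟩ := hk y e2 h2.1 K
    refine ⟨e3, h1.trans (h2.trans h3), fun y' hy' => ?_, fun g hg hne y' hy' z z' hz hz' => ?_⟩
    · rcases Finset.mem_insert.1 hy' with rfl | hy''
      · exact ⟨c, fun z hz => hc z (h3.fix hz)⟩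
      · obtain ⟨c', hc'⟩ := h1e y' hy''
        exact ⟨c', fun z hz => hc' z ((h2.trans h3).fix hz)⟩
    · rcases Finset.mem_insert.1 hy' with rfl | hy''
      · exact h3' g hg hne z z' hz hz'
      · exact h1o g hg hne y' hy'' z z' ((h2.trans h3).fix hz) ((h2.trans h3).fix hz')

/-- Towers exist. -/
theorem exists_tower [TopologicalSpace.SeparableSpace B] {A : Submodule ℂ B}
    (hA : IsSimpleIdeal A) {G : Type*} [Countable G] (α : G → B ≃⋆ₐ[ℂ] B)
    (hαA : ∀ g, ∀ a ∈ A, α g a ∈ A) (horth : ∀ g, ¬ TrivOn A (α g) → OrthFor A (α g)) {d : B}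
    (hd : d ∈ A) (hd0 : 0 ≤ d) (hd1 : ‖d‖ ≤ 1) (hdn : Nondeg d) :
    Nonempty (Tower A α d) := by
  classical
  obtain ⟨en, hen⟩ := Countable.exists_injective_nat G
  set ys := TopologicalSpace.denseSeq B with hys
  have hstage : ∀ (k : ℕ) (e : {e : B // Corner A e}), ∃ e' : {e : B // Corner A e},
      (e : B) * (e' : B) = (e' : B) ∧ (∀ i ≤ k, ∃ c : ℂ, ∀ z, (e' : B) * z = z →
        ‖star z * ys i * z - c • (star z * z)‖ ≤ 1 / ((k : ℝ) + 1) * ‖z‖ ^ 2) ∧
      ∀ g, en g ≤ k → ¬ TrivOn A (α g) → ∀ i ≤ k, ∀ z z', (e' : B) * z = z → (e' : B) * z' = z' →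
        ‖star z * ys i * α g z'‖ ≤ 1 / ((k : ℝ) + 1) * ‖z‖ * ‖z'‖ := by
    intro k e
    obtain ⟨e', h1, h2, h3⟩ := exists_sub_stage hA.2.1 α horth ((Finset.range (k + 1)).image ys)
      ((Finset.range (k + 1)).preimage en hen.injOn) (ε := 1 / ((k : ℝ) + 1)) (by positivity) e.2
    have hi : ∀ i ≤ k, ys i ∈ (Finset.range (k + 1)).image ys := fun i hi =>
      Finset.mem_image.2 ⟨i, Finset.mem_range.2 (Nat.lt_succ_of_le hi), rfl⟩
    exact ⟨⟨e', h1.1⟩, h1.2, fun i h => h2 _ (hi i h), fun g hg hne i h =>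
      h3 g (Finset.mem_preimage.2 (Finset.mem_range.2 (Nat.lt_succ_of_le hg))) hne _ (hi i h)⟩
  choose nxt hn1 hn2 hn3 using hstage
  set E : ℕ → {e : B // Corner A e} := fun n =>
    Nat.rec ⟨d, hd, hd0, hd1, hdn⟩ (fun k e => nxt k e) n with hE
  set e : ℕ → B := fun n => (E n : B) with he
  have hcor : ∀ k, Corner A (e k) := fun k => (E k).2
  have hs : ∀ k, e k * e (k + 1) = e (k + 1) := fun k => hn1 k (E k)
  have hunit : ∀ k, ∃ z, ‖z‖ = 1 ∧ e k * z = z := fun k => by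
    obtain ⟨w, hw0, hw⟩ := (hcor k).2.2.2
    exact ⟨((‖w‖⁻¹ : ℝ) : ℂ) • w, by
      rw [norm_smul, Complex.norm_real, Real.norm_eq_abs, abs_of_pos (inv_pos.2 (norm_pos_iff.2 hw0)),
        inv_mul_cancel₀ (norm_ne_zero_iff.2 hw0)], by rw [mul_smul_comm, hw]⟩
  have hdense : ∀ (x : B) (ε : ℝ), 0 < ε → ∀ m : ℕ, ∃ i k : ℕ, i ≤ k ∧ m ≤ k ∧ 1 / ((k : ℝ) + 1) ≤ ε ∧
      ‖x - ys i‖ ≤ ε := by
    intro x ε hε m
    obtain ⟨i, hi⟩ := Metric.denseRange_iff.1 (TopologicalSpace.denseRange_denseSeq B) x ε hε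
    obtain ⟨n, hn⟩ := exists_nat_one_div_lt hε
    refine ⟨i, max (max i m) n, (le_max_left _ _).trans (le_max_left _ _),
      (le_max_right _ _).trans (le_max_left _ _), ?_, by rw [← dist_eq_norm]; exact hi.le⟩
    refine le_trans (one_div_le_one_div_of_le (by positivity) ?_) hn.le
    have : (n : ℝ) ≤ (max (max i m) n : ℕ) := by exact_mod_cast le_max_right _ _
    linarith
  set Ex : B → ℂ → Prop := fun y c => ∀ ε > (0 : ℝ), ∃ k, ∀ z, e k * z = z →
    ‖star z * y * z - c • (star z * z)‖ ≤ ε * ‖z‖ ^ 2 with hEx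
  have hdiff : ∀ {y : B} {c c' : ℂ} {δ δ' : ℝ} {k k' : ℕ},
      (∀ z, e k * z = z → ‖star z * y * z - c • (star z * z)‖ ≤ δ * ‖z‖ ^ 2) →
      (∀ z, e k' * z = z → ‖star z * y * z - c' • (star z * z)‖ ≤ δ' * ‖z‖ ^ 2) →
      ‖c - c'‖ ≤ δ + δ' := by
    intro y c c' δ δ' k k' h h'
    obtain ⟨z, hz1, hz⟩ := hunit (max k k')
    have a1 := h z (fix_of_chain hs (le_max_left _ _) hz)
    have a2 := h' z (fix_of_chain hs (le_max_right _ _) hz)
    rw [hz1, one_pow, mul_one] at a1 a2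
    have e4 : (c - c') • (star z * z) = (star z * y * z - c' • (star z * z))
        - (star z * y * z - c • (star z * z)) := by rw [sub_smul]; abel
    have h5 := congrArg norm e4
    rw [norm_smul, CStarRing.norm_star_mul_self, hz1, mul_one, mul_one] at h5
    rw [h5]
    exact (norm_sub_le _ _).trans (by linarith)
  have hexists : ∀ y, ∃ c, Ex y c := by
    intro y
    have hap : ∀ n : ℕ, ∃ (c : ℂ) (k : ℕ), ∀ z, e k * z = z →
        ‖star z * y * z - c • (star z * z)‖ ≤ 1 / ((n : ℝ) + 1) * ‖z‖ ^ 2 := by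
      intro n
      obtain ⟨i, k, hik, -, hk, hyi⟩ := hdense y (1 / (2 * ((n : ℝ) + 1))) (by positivity) 0
      obtain ⟨c, hc⟩ := hn2 k (E k) i hik
      refine ⟨c, k + 1, fun z hz => ?_⟩
      have h1 := hc z hz
      have h2 : ‖star z * (y - ys i) * z‖ ≤ 1 / (2 * ((n : ℝ) + 1)) * ‖z‖ ^ 2 := by
        refine norm_mul₃_le.trans ?_
        rw [norm_star, sq, ← mul_assoc]
        refine mul_le_mul_of_nonneg_right ?_ (norm_nonneg _)
        rw [mul_comm]; exact mul_le_mul_of_nonneg_right hyi (norm_nonneg _)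
      have h3 : 1 / ((k : ℝ) + 1) * ‖z‖ ^ 2 ≤ 1 / (2 * ((n : ℝ) + 1)) * ‖z‖ ^ 2 :=
        mul_le_mul_of_nonneg_right hk (sq_nonneg _)
      calc ‖star z * y * z - c • (star z * z)‖
          = ‖star z * (y - ys i) * z + (star z * ys i * z - c • (star z * z))‖ := by
            congr 1; rw [mul_sub, sub_mul]; abel
        _ ≤ _ := norm_add_le _ _
        _ ≤ 1 / (2 * ((n : ℝ) + 1)) * ‖z‖ ^ 2 + 1 / (2 * ((n : ℝ) + 1)) * ‖z‖ ^ 2 :=
            add_le_add h2 (h1.trans h3)
        _ = _ := by field_simp; ring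
    choose c k hk using hap
    have hC : CauchySeq c := by
      refine cauchySeq_of_le_tendsto_0 (fun N => 2 * (1 / ((N : ℝ) + 1))) (fun n m N hn hm => ?_) ?_
      · rw [dist_eq_norm]
        refine (hdiff (hk n) (hk m)).trans ?_
        have h1 : 1 / ((n : ℝ) + 1) ≤ 1 / ((N : ℝ) + 1) :=
          one_div_le_one_div_of_le (by positivity) (by exact_mod_cast Nat.succ_le_succ hn)
        have h2 : 1 / ((m : ℝ) + 1) ≤ 1 / ((N : ℝ) + 1) :=
          one_div_le_one_div_of_le (by positivity) (by exact_mod_cast Nat.succ_le_succ hm)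
        linarith
      · simpa using tendsto_one_div_add_atTop_nhds_zero_nat.const_mul (2 : ℝ)
    obtain ⟨cl, hcl⟩ := cauchySeq_tendsto_of_complete hC
    refine ⟨cl, fun ε hε => ?_⟩
    have h1 : ∀ᶠ n in atTop, ‖c n - cl‖ ≤ ε / 2 := by
      filter_upwards [(Metric.tendsto_nhds.1 hcl) (ε / 2) (half_pos hε)] with n hn
      rw [← dist_eq_norm]; exact hn.le
    have h2 : ∀ᶠ n : ℕ in atTop, 1 / ((n : ℝ) + 1) ≤ ε / 2 :=
      tendsto_one_div_add_atTop_nhds_zero_nat.eventually_le_const (half_pos hε)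
    obtain ⟨n, hn1, hn2⟩ := (h1.and h2).exists
    refine ⟨k n, fun z hz => ?_⟩
    calc ‖star z * y * z - cl • (star z * z)‖
        = ‖(star z * y * z - c n • (star z * z)) + (c n - cl) • (star z * z)‖ := by
          congr 1; rw [sub_smul]; abel
      _ ≤ _ := norm_add_le _ _
      _ ≤ ε / 2 * ‖z‖ ^ 2 + ε / 2 * ‖z‖ ^ 2 := by
          refine add_le_add ((hk n z hz).trans (mul_le_mul_of_nonneg_right hn2 (sq_nonneg _))) ?_
          rw [norm_smul, CStarRing.norm_star_mul_self, ← sq]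
          exact mul_le_mul_of_nonneg_right hn1 (sq_nonneg _)
      _ = _ := by ring
  choose ph hph using hexists
  have huniq : ∀ {y c}, Ex y c → ph y = c := by
    intro y c hc
    rw [← sub_eq_zero, ← norm_le_zero_iff]
    refine le_of_forall_pos_le_add fun ε hε => ?_
    obtain ⟨k, hk⟩ := hph y (ε / 2) (half_pos hε)
    obtain ⟨k', hk'⟩ := hc (ε / 2) (half_pos hε)
    linarith [hdiff hk hk']
  have hadd : ∀ x y, ph (x + y) = ph x + ph y := by
    intro x y
    refine huniq fun ε hε => ?_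
    obtain ⟨k, hk⟩ := hph x (ε / 2) (half_pos hε)
    obtain ⟨k', hk'⟩ := hph y (ε / 2) (half_pos hε)
    refine ⟨max k k', fun z hz => ?_⟩
    have a1 := hk z (fix_of_chain hs (le_max_left _ _) hz)
    have a2 := hk' z (fix_of_chain hs (le_max_right _ _) hz)
    calc _ = ‖(star z * x * z - ph x • (star z * z)) + (star z * y * z - ph y • (star z * z))‖ := by
          congr 1; rw [mul_add, add_mul, add_smul]; abel
      _ ≤ _ := norm_add_le _ _
      _ ≤ _ := by linarith
  have hsmul : ∀ (a : ℂ) x, ph (a • x) = a * ph x := by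
    intro a x
    refine huniq fun ε hε => ?_
    obtain ⟨k, hk⟩ := hph x (ε / (‖a‖ + 1)) (by positivity)
    refine ⟨k, fun z hz => ?_⟩
    calc _ = ‖a • (star z * x * z - ph x • (star z * z))‖ := by
          congr 1; rw [mul_smul_comm, smul_mul_assoc, smul_sub, smul_smul]
      _ = ‖a‖ * ‖star z * x * z - ph x • (star z * z)‖ := norm_smul _ _
      _ ≤ (‖a‖ + 1) * (ε / (‖a‖ + 1) * ‖z‖ ^ 2) :=
          mul_le_mul (by linarith) (hk z hz) (norm_nonneg _) (by positivity)
      _ = _ := by field_simp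
  refine ⟨{
    e := e
    φ := { toFun := ph, map_add' := hadd, map_smul' := fun a x => by simpa using hsmul a x }
    e_zero := rfl
    mem := fun k => (hcor k).1
    nonneg := fun k => (hcor k).2.1
    norm_le := fun k => (hcor k).2.2.1
    nondeg := fun k => (hcor k).2.2.2
    step := hs
    φ_one := huniq fun ε hε => ⟨0, fun z _ => by simp; positivity⟩
    φ_nonneg := fun y => ?_
    φ_le := fun y => ?_
    excise := fun y ε hε => hph y ε hε
    orth := fun g hg x ε hε => ?_ }⟩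
  · show 0 ≤ ph (star y * y)
    set c := ph (star y * y) with hc
    have hreal : (starRingEnd ℂ) c = c := by
      refine (huniq fun ε hε => ?_).symm
      obtain ⟨k, hk⟩ := hph (star y * y) ε hε
      refine ⟨k, fun z hz => ?_⟩
      have h := hk z hz
      rw [← norm_star, star_sub, star_smul, Complex.star_def] at h
      simpa [mul_assoc] using h
    obtain ⟨r, hr⟩ := Complex.conj_eq_iff_real.1 hreal
    rw [hr]
    have hr0 : 0 ≤ r := by
      refine le_of_forall_pos_le_add fun ε hε => ?_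
      obtain ⟨k, hk⟩ := hph (star y * y) ε hε
      obtain ⟨z, hz1, hz⟩ := hunit k
      have h := hk z hz
      rw [← hc, hr, hz1, one_pow, mul_one, Complex.coe_smul] at h
      by_contra hlt
      have hneg : r < -ε := by linarith [not_le.1 hlt]
      have h1 : (-r) • (star z * z) ≤ star z * (star y * y) * z - r • (star z * z) := by
        rw [neg_smul, sub_eq_add_neg]
        exact le_add_of_nonneg_left (star_left_conjugate_nonneg (star_mul_self_nonneg y) z)
      have h2 := CStarAlgebra.norm_le_norm_of_nonneg_of_le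
        (smul_nonneg (by linarith) (star_mul_self_nonneg z)) h1
      rw [norm_smul, CStarRing.norm_star_mul_self, hz1, mul_one, mul_one, Real.norm_eq_abs,
        abs_of_nonneg (by linarith)] at h2
      linarith
    exact_mod_cast hr0
  · show ‖ph y‖ ≤ ‖y‖
    refine le_of_forall_pos_le_add fun ε hε => ?_
    obtain ⟨k, hk⟩ := hph y ε hε
    obtain ⟨z, hz1, hz⟩ := hunit k
    have h := hk z hz
    rw [hz1, one_pow, mul_one] at h
    have h1 : ‖star z * y * z‖ ≤ ‖y‖ := norm_mul₃_le.trans (by rw [norm_star, hz1]; simp)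
    have h2 := norm_sub_norm_le (ph y • (star z * z)) (star z * y * z)
    rw [norm_sub_rev, norm_smul, CStarRing.norm_star_mul_self, hz1, mul_one, mul_one] at h2
    linarith
  · obtain ⟨i, k, hik, hgk, hk, hxi⟩ := hdense x (ε / 2) (half_pos hε) (en g)
    refine ⟨k + 1, fun z z' hz hz' => ?_⟩
    have h1 := hn3 k (E k) g hgk hg i hik z z' hz hz'
    have h2 : ‖star z * (x - ys i) * α g z'‖ ≤ ε / 2 * ‖z‖ * ‖z'‖ := by
      refine norm_mul₃_le.trans ?_
      rw [norm_star, StarAlgEquiv.norm_map, mul_comm ‖z‖]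
      gcongr
    have h3 : 1 / ((k : ℝ) + 1) * ‖z‖ * ‖z'‖ ≤ ε / 2 * ‖z‖ * ‖z'‖ := by gcongr
    calc ‖star z * x * α g z'‖ = ‖star z * (x - ys i) * α g z' + star z * ys i * α g z'‖ := by
          congr 1; rw [mul_sub, sub_mul]; abel
      _ ≤ _ := norm_add_le _ _
      _ ≤ _ := by linarith [h1.trans h3]

end Vale.Agent.P095.SI
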